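import Crest.Agent.N207.E.DH

/-! Block E (helper10): the one-step mean value inequality. -/

set_option autoImplicit false
set_option linter.dupNamespace false
set_option linter.unusedSectionVars false
open Set MeasureTheory
open scoped ContDiff

noncomputable section

namespace Crest.Agent.N207.E

variable {M : Type*} [TopologicalSpace M] [MeasurableSpace M] {H : HC M}

lemma gam_cmul (hA : H.Alg) {t : ℝ} (ht : t ∈ Ioo 0 H.T) {u w : M → ℝ} (c : ℝ) (hu : H.S0 u)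
    (hw : H.S0 w) (x : M) : H.gam t (fun y => c * u y) w x = c * H.gam t u w x := by
  have := hA.gam_comp t ht (φ := fun s => c * s) isOpen_univ
    (contDiff_const.mul contDiff_id).contDiffOn (fun _ => mem_univ _) hu hw x
  rw [this]; simp

lemma lap_cmul (hA : H.Alg) {t : ℝ} (ht : t ∈ Ioo 0 H.T) {u : M → ℝ} (c : ℝ) (hu : H.S0 u)
    (x : M) : H.lap t (fun y => c * u y) x = c * H.lap t u x := by
  have := hA.lap_comp t ht (φ := fun s => c * s) isOpen_univ
    (contDiff_const.mul contDiff_id).contDiffOn (fun _ => mem_univ _) hu x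
  rw [this]
  have e : deriv (fun s : ℝ => c * s) = fun _ => c := by funext s; simp
  simp [e]

/-- Cauchy-Schwarz for `gam` -/
lemma gam_cs (hA : H.Alg) {t : ℝ} (ht : t ∈ Ioo 0 H.T) {u w : M → ℝ} (hu : H.S0 u)
    (hw : H.S0 w) (x : M) : H.gam t u w x ^ 2 ≤ H.gam t u u x * H.gam t w w x := by
  have key : ∀ c : ℝ, 0 ≤ H.gam t w w x * (c * c) + 2 * H.gam t u w x * c + H.gam t u u x := by
    intro c
    have s1 := s0_cmul hA c hw
    have s2 := hA.s0_add hu s1
    have := hA.gam_nonneg t ht s2 x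
    rw [hA.gam_add t ht hu s1 s2, gam_cmul hA ht c hw s2, hA.gam_symm t ht hu s2,
      hA.gam_symm t ht hw s2, hA.gam_add t ht hu s1 hu, hA.gam_add t ht hu s1 hw,
      gam_cmul hA ht c hw hu, gam_cmul hA ht c hw hw, hA.gam_symm t ht hw hu] at this
    linarith
  have := discrim_le_zero key
  unfold discrim at this
  nlinarith

lemma deriv_aff {φ : ℝ → ℝ} (hφ : ContDiff ℝ ∞ φ) (l ρ : ℝ) :
    deriv (fun s => φ ((s - l) / ρ)) = fun s => deriv φ ((s - l) / ρ) / ρ := by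
  funext s
  have h1 : HasDerivAt (fun s : ℝ => (s - l) / ρ) (1 / ρ) s :=
    ((hasDerivAt_id s).sub_const l).div_const ρ
  have h2 : HasDerivAt φ (deriv φ ((s - l) / ρ)) ((s - l) / ρ) :=
    (hφ.differentiable (by simp) _).hasDerivAt
  have := (h2.comp s h1).deriv
  refine Eq.trans ?_ (this.trans ?_)
  · rfl
  · ring

lemma cd_aff {φ : ℝ → ℝ} (hφ : ContDiff ℝ ∞ φ) (l ρ : ℝ) :
    ContDiff ℝ ∞ fun s => φ ((s - l) / ρ) :=
  hφ.comp ((contDiff_id.sub contDiff_const).div_const ρ)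

lemma deriv2_aff {φ : ℝ → ℝ} (hφ : ContDiff ℝ ∞ φ) (l ρ s : ℝ) :
    deriv (deriv fun s => φ ((s - l) / ρ)) s = deriv (deriv φ) ((s - l) / ρ) / ρ ^ 2 := by
  rw [deriv_aff hφ]
  have c1 : ContDiff ℝ ∞ (deriv φ) := hφ.iterate_deriv 1
  rw [deriv_div_const, deriv_aff c1]
  ring

lemma le_add_of_sq {z a b : ℝ} (ha : 0 ≤ a) (hb : 0 ≤ b) (h : z ^ 2 ≤ 4 * a * b) : z ≤ a + b := by
  refine le_of_sq_le_sq ?_ (add_nonneg ha hb) |>.trans le_rfl
  nlinarith [sq_nonneg (a - b)]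

/-- the heat operator of a cutoff times a tensor norm -/
lemma cut_sub (hA : H.Alg) {K : ℝ} (hK : 0 ≤ K) (k1 : ∀ s, deriv psi s ^ 2 ≤ K * psi s * chi s)
    (k2 : ∀ s, |deriv (deriv psi) s| ≤ K * chi s) {t : ℝ} (ht : t ∈ Ioo 0 H.T) {u P : M → ℝ}
    (su : H.S0 u) (sP : H.S0 P) {l ρ G : ℝ} (hρ : 0 < ρ) (y : M) (hg : H.gam t u u y ≤ 1)
    (hP0 : 0 ≤ P y) (hG0 : 0 ≤ G) (hk : H.gam t P P y ≤ 4 * P y * G) (p' : ℝ) :
    deriv psi ((u y - l) / ρ) / ρ * H.lap t u y * P y + psi ((u y - l) / ρ) * p' -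
        H.lap t (fun z => psi ((u z - l) / ρ) * P z) y ≤
      psi ((u y - l) / ρ) * (p' - H.lap t P y + 2 * G) +
        3 * K / ρ ^ 2 * chi ((u y - l) / ρ) * P y := by
  have cp := cd_aff psi_cd l ρ
  have sψ : H.S0 fun z => psi ((u z - l) / ρ) :=
    s0_cmp hA (φ := fun s => psi ((s - l) / ρ)) cp su
  have e1 := hA.lap_mul t ht sψ sP y
  have e2 := hA.lap_comp t ht (φ := fun s => psi ((s - l) / ρ)) isOpen_univ cp.contDiffOn
    (fun _ => mem_univ _) su y
  have e3 := hA.gam_comp t ht (φ := fun s => psi ((s - l) / ρ)) isOpen_univ cp.contDiffOn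
    (fun _ => mem_univ _) su sP y
  rw [deriv2_aff psi_cd, deriv_aff psi_cd] at e2
  rw [deriv_aff psi_cd] at e3
  rw [e1, e2, e3]
  beta_reduce
  set σ := (u y - l) / ρ
  have g0 := hA.gam_nonneg t ht su y
  have cs := gam_cs hA ht su sP y
  have gP0 := hA.gam_nonneg t ht sP y
  have ψ0 := psi_nonneg σ
  have χ0 := chi_nonneg σ
  have ρ2 : 0 < ρ ^ 2 := pow_pos hρ 2
  have t1 : -(P y * (deriv (deriv psi) σ / ρ ^ 2 * H.gam t u u y)) ≤ K / ρ ^ 2 * chi σ * P y := by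
    have a1 := (abs_le.1 (k2 σ)).1
    have a2 : -(deriv (deriv psi) σ * H.gam t u u y) ≤ K * chi σ := by
      nlinarith [mul_nonneg hK χ0]
    have := mul_le_mul_of_nonneg_left a2 (div_nonneg hP0 ρ2.le)
    calc _ = P y / ρ ^ 2 * -(deriv (deriv psi) σ * H.gam t u u y) := by ring
      _ ≤ P y / ρ ^ 2 * (K * chi σ) := this
      _ = _ := by ring
  have t2 : -(2 * (deriv psi σ / ρ * H.gam t u P y)) ≤
      2 * psi σ * G + 2 * K / ρ ^ 2 * chi σ * P y := by
    apply le_add_of_sq (by positivity) (by positivity)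
    have c1 : H.gam t u P y ^ 2 ≤ 4 * P y * G := by nlinarith
    have c2 := mul_le_mul (k1 σ) c1 (sq_nonneg _) (by positivity)
    calc _ = 4 / ρ ^ 2 * (deriv psi σ ^ 2 * H.gam t u P y ^ 2) := by field_simp; ring
      _ ≤ 4 / ρ ^ 2 * (K * psi σ * chi σ * (4 * P y * G)) :=
        mul_le_mul_of_nonneg_left c2 (by positivity)
      _ = _ := by field_simp; ring
  have : 3 * K / ρ ^ 2 * chi σ * P y =
    K / ρ ^ 2 * chi σ * P y + 2 * K / ρ ^ 2 * chi σ * P y := by ring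
  rw [this]
  nlinarith

variable [CompactSpace M] [OpensMeasurableSpace M]

/-- **one-step mean value inequality** on the parabolic region
`[b-ρ², b] × {u ≤ u(b,x) + 2ρ}` -/
theorem mv0 : ∃ K : ℝ, 1 ≤ K ∧ ∀ {M : Type*} [TopologicalSpace M] [MeasurableSpace M]
    [CompactSpace M] [OpensMeasurableSpace M] {H : HC M}, H.Alg → H.Intg → H.Solv →
    ∀ {t0 C : ℝ}, 0 ≤ C → H.UC t0 C → ∀ {a b ρ θ Λ S : ℝ} {u P P' G Φ : ℝ → M → ℝ} (x : M),
    t0 ≤ a → H.St a b → 0 < ρ → b - a = ρ ^ 2 → 0 < θ → θ ≤ 1 → 0 ≤ Λ → H.Heat a b u →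
    (∀ t ∈ Icc a b, ∀ y, H.gam t (u t) (u t) y ≤ 1) → H.Sm a b P → HasDt a b P P' →
    H.Sm a b Φ → (∀ t ∈ Icc a b, ∀ y, 0 ≤ P t y) → (∀ t ∈ Icc a b, ∀ y, 0 ≤ G t y) →
    (∀ t ∈ Icc a b, ∀ y, H.gam t (P t) (P t) y ≤ 4 * P t y * G t y) →
    (∀ t ∈ Icc a b, ∀ y, u t y ≤ u b x + 2 * ρ →
      P' t y - H.lap t (P t) y ≤ Λ * P t y - 2 * G t y) →
    (∀ t ∈ Icc a b, ∀ y, u t y ≤ u b x + 2 * ρ → P t y ≤ S) →
    (∀ t ∈ Icc a b, ∀ y, 0 ≤ Φ t y) →
    (∀ t ∈ Icc a b, ∀ y, u t y ≤ u b x + 2 * ρ → 1 ≤ Φ t y) →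
    P b x ≤ (Λ + K / ρ ^ 2) * (θ * ρ ^ 2 * S +
      C / (θ * ρ ^ 2) ^ 2 * ∫ t in a..b, ∫ y, Φ t y * P t y ∂H.vol t) := by
  obtain ⟨K, hK, k1, k2⟩ := psi_bounds
  refine ⟨3 * K + 1, by linarith, ?_⟩
  intro M _ _ _ _ H hA hI hS t0 C hC hU a b ρ θ Λ S u P P' G Φ x h0a st hρ hab hθ hθ1 hΛ hu hg sP
    dP sΦ P0 G0 hk hsub hS' Φ0 Φ1
  have ρ2 : 0 < ρ ^ 2 := pow_pos hρ 2
  set l := u b x with hl
  set L := Λ + (3 * K + 1) / ρ ^ 2 with hL
  have L0 : 0 ≤ L := by positivity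
  have sψ : H.Sm a b fun t y => psi ((u t y - l) / ρ) :=
    sm_cmp hA (φ := fun s => psi ((s - l) / ρ)) (cd_aff psi_cd l ρ) hu.1
  have sχ : H.Sm a b fun t y => chi ((u t y - l) / ρ) :=
    sm_cmp hA (φ := fun s => chi ((s - l) / ρ)) (cd_aff chi_cd l ρ) hu.1
  have sτ : H.Sm a b fun t _ => (t - a) / ρ ^ 2 :=
    hA.sm_time (c := fun t => (t - a) / ρ ^ 2)
      ((contDiff_id.sub contDiff_const).div_const _).contDiffOn
  have sW : H.Sm a b fun t y => (t - a) / ρ ^ 2 * (psi ((u t y - l) / ρ) * P t y) :=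
    hA.sm_mul sτ (hA.sm_mul sψ sP)
  have sh : H.Sm a b fun t y => L * (chi ((u t y - l) / ρ) * P t y) :=
    sm_cmul hA L (hA.sm_mul sχ sP)
  have dW : HasDt a b (fun t y => (t - a) / ρ ^ 2 * (psi ((u t y - l) / ρ) * P t y))
      fun t y => 1 / ρ ^ 2 * (psi ((u t y - l) / ρ) * P t y) + (t - a) / ρ ^ 2 *
        (deriv psi ((u t y - l) / ρ) / ρ * H.lap t (u t) y * P t y +
          psi ((u t y - l) / ρ) * P' t y) := by
    intro t ht y
    have h1 : HasDerivWithinAt (fun s : ℝ => (s - a) / ρ ^ 2) (1 / ρ ^ 2) (Icc a b) t :=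
      (((hasDerivAt_id t).sub_const a).div_const _).hasDerivWithinAt
    have h2 : HasDerivAt (fun s => psi ((s - l) / ρ)) (deriv psi ((u t y - l) / ρ) / ρ) (u t y) := by
      have := ((cd_aff psi_cd l ρ).differentiable (by simp) (u t y)).hasDerivAt
      rwa [deriv_aff psi_cd] at this
    have h3 : HasDerivWithinAt (fun s => psi ((u s y - l) / ρ))
        (deriv psi ((u t y - l) / ρ) / ρ * H.lap t (u t) y) (Icc a b) t :=
      HasDerivAt.comp_hasDerivWithinAt (h₂ := fun s => psi ((s - l) / ρ)) (h := fun s => u s y)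
        t h2 (hu.2 t ht y)
    exact h1.mul (h3.mul (dP t ht y))
  have out : ∀ t y, ¬ u t y ≤ l + 2 * ρ → 2 ≤ (u t y - l) / ρ := fun t y h => by
    rw [le_div_iff₀ hρ]; linarith [not_le.1 h]
  have bm : b ∈ Icc a b := right_mem_Icc.2 st.2.1.le
  have S0 : 0 ≤ S := (P0 b bm x).trans (hS' b bm x (by linarith))
  have θρ : 0 < θ * ρ ^ 2 := mul_pos hθ ρ2
  have am : a ≤ b - θ * ρ ^ 2 := by nlinarith
  have := duhamel hA hI hS hC hU (m := b - θ * ρ ^ 2) h0a st am (by linarith) sW dW sh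
    (fun t ht y => mul_nonneg L0 (mul_nonneg (chi_nonneg _) (P0 t ht y)))
    (fun t ht y => by
      have tm := st_mem st ht
      have su := hA.sm_s0 hu.1 t ht
      have sPt := hA.sm_s0 sP t ht
      have c := cut_sub hA (by linarith) k1 k2 tm su sPt (l := l) hρ y (hg t ht y) (P0 t ht y)
        (G0 t ht y) (hk t ht y) (P' t y)
      rw [lap_cmul hA tm _ (hA.sm_s0 (hA.sm_mul sψ sP) t ht)]
      set σ := (u t y - l) / ρ
      have τ0 : 0 ≤ (t - a) / ρ ^ 2 := div_nonneg (by linarith [ht.1]) ρ2.le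
      have τ1 : (t - a) / ρ ^ 2 ≤ 1 := by rw [div_le_one ρ2]; linarith [ht.2]
      have cP : 0 ≤ chi σ * P t y := mul_nonneg (chi_nonneg _) (P0 t ht y)
      have pc : psi σ * P t y ≤ chi σ * P t y :=
        mul_le_mul_of_nonneg_right (psi_le_chi σ) (P0 t ht y)
      have m1 : psi σ * (P' t y - H.lap t (P t) y + 2 * G t y) ≤ Λ * (chi σ * P t y) := by
        by_cases h : u t y ≤ l + 2 * ρ
        · have := mul_le_mul_of_nonneg_left (hsub t ht y h) (psi_nonneg σ)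
          nlinarith [mul_le_mul_of_nonneg_left pc hΛ]
        · rw [psi_zero (out t y h), zero_mul]; positivity
      have m2 : 0 ≤ Λ * (chi σ * P t y) + 3 * K / ρ ^ 2 * (chi σ * P t y) := by positivity
      have m3 := mul_le_mul_of_nonneg_left (c.trans (add_le_add m1 le_rfl)) τ0
      have m4 := mul_le_mul_of_nonneg_right τ1 m2
      have m5 := mul_le_mul_of_nonneg_left pc (le_of_lt (one_div_pos.2 ρ2))
      have : L * (chi σ * P t y) = Λ * (chi σ * P t y) + 3 * K / ρ ^ 2 * (chi σ * P t y) +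
        1 / ρ ^ 2 * (chi σ * P t y) := by rw [hL]; ring
      rw [this]
      nlinarith)
    (fun y => by simp) (A := L * S)
    (fun t ht y => by
      have ht' : t ∈ Icc a b := ⟨am.trans ht.1, ht.2⟩
      refine mul_le_mul_of_nonneg_left ?_ L0
      by_cases h : u t y ≤ l + 2 * ρ
      · nlinarith [chi_le_one ((u t y - l) / ρ), chi_nonneg ((u t y - l) / ρ), P0 t ht' y,
          hS' t ht' y h]
      · rw [chi_zero (out t y h), zero_mul]; exact S0) x
  have e0 : (b - a) / ρ ^ 2 * (psi ((u b x - l) / ρ) * P b x) = P b x := by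
    rw [hab, div_self ρ2.ne', psi_one (by simp [hl])]; ring
  have e1 : b - (b - θ * ρ ^ 2) = θ * ρ ^ 2 := by ring
  simp only [e0, e1] at this
  refine this.trans ?_
  have cΦ := int_cont hA hI st (hA.sm_mul sΦ sP)
  have ch := int_cont hA hI st sh
  have i1 : ∫ t in a..(b - θ * ρ ^ 2), ∫ y, L * (chi ((u t y - l) / ρ) * P t y) ∂H.vol t ≤
      L * ∫ t in a..b, ∫ y, Φ t y * P t y ∂H.vol t := by
    have sub : Icc a (b - θ * ρ ^ 2) ⊆ Icc a b := Icc_subset_Icc le_rfl (by linarith)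
    calc _ ≤ ∫ t in a..(b - θ * ρ ^ 2), L * ∫ y, Φ t y * P t y ∂H.vol t := by
          refine intervalIntegral.integral_mono_on am
            ((ch.mono sub).intervalIntegrable_of_Icc am)
            (((continuousOn_const.mul cΦ).mono sub).intervalIntegrable_of_Icc am) fun t ht => ?_
          have ht' := sub ht
          rw [← integral_const_mul]
          refine integral_mono (intg hA hI (st_mem st ht') (hA.sm_s0 sh t ht'))
            (intg hA hI (st_mem st ht') (hA.sm_s0 (sm_cmul hA L (hA.sm_mul sΦ sP)) t ht'))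
            fun y => mul_le_mul_of_nonneg_left (mul_le_mul_of_nonneg_right ?_ (P0 t ht' y)) L0
          by_cases h : u t y ≤ l + 2 * ρ
          · exact (chi_le_one _).trans (Φ1 t ht' y h)
          · rw [chi_zero (out t y h)]; exact Φ0 t ht' y
      _ ≤ ∫ t in a..b, L * ∫ y, Φ t y * P t y ∂H.vol t := by
          refine intervalIntegral.integral_mono_interval le_rfl am (by linarith) ?_
            ((continuousOn_const.mul cΦ).intervalIntegrable_of_Icc st.2.1.le)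
          filter_upwards [ae_restrict_mem measurableSet_Ioc] with t ht
          have ht' := Ioc_subset_Icc_self ht
          exact mul_nonneg L0 (integral_nonneg fun y => mul_nonneg (Φ0 t ht' y) (P0 t ht' y))
      _ = _ := intervalIntegral.integral_const_mul _ _
  have := mul_le_mul_of_nonneg_left i1 (div_nonneg hC (pow_pos θρ 2).le)
  nlinarith

end Crest.Agent.N207.E

end
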