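import Crest.Agent.N207.C.HC
import Crest.Agent.N207.E.Cut

/-! Block E (helper10): Duhamel bound for subsolutions from the `L¹ → L^∞` estimate. -/

set_option autoImplicit false
set_option linter.dupNamespace false
set_option linter.unusedSectionVars false
open Set MeasureTheory
open scoped ContDiff

noncomputable section

namespace Crest.Agent.N207

namespace HC

variable {M : Type*} [TopologicalSpace M] [MeasurableSpace M] (H : HC M)

/-- positivity and `L¹ → L^∞` for the conjugate heat equation (output of block C) -/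
def UC (t0 C : ℝ) : Prop :=
  ∀ {a b : ℝ} {v : ℝ → M → ℝ}, t0 ≤ a → H.St a b → H.Conj a b v → (∀ x, 0 ≤ v b x) →
    ∀ s ∈ Ico a b, ∀ y, 0 ≤ v s y ∧ v s y ≤ C / (b - s) ^ 2 * ∫ x, v b x ∂H.vol b

end HC

namespace E

variable {M : Type*} [TopologicalSpace M] [MeasurableSpace M] {H : HC M}

lemma st_mem {a b t : ℝ} (st : H.St a b) (ht : t ∈ Icc a b) : t ∈ Ioo 0 H.T :=
  ⟨st.1.trans_le ht.1, ht.2.trans_lt st.2.2⟩

lemma s0_cmul (hA : H.Alg) {u : M → ℝ} (c : ℝ) (hu : H.S0 u) : H.S0 fun x => c * u x :=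
  hA.s0_mul (hA.s0_const c) hu

lemma s0_cmp (hA : H.Alg) {u : M → ℝ} {φ : ℝ → ℝ} (hφ : ContDiff ℝ ∞ φ) (hu : H.S0 u) :
    H.S0 fun x => φ (u x) :=
  hA.s0_comp isOpen_univ hφ.contDiffOn (fun _ => mem_univ _) hu

lemma sm_cmp (hA : H.Alg) {a b : ℝ} {u : ℝ → M → ℝ} {φ : ℝ → ℝ} (hφ : ContDiff ℝ ∞ φ)
    (hu : H.Sm a b u) : H.Sm a b fun t x => φ (u t x) :=
  hA.sm_comp isOpen_univ hφ.contDiffOn (fun _ _ _ => mem_univ _) hu

lemma sm_cmul (hA : H.Alg) {a b : ℝ} {u : ℝ → M → ℝ} (c : ℝ) (hu : H.Sm a b u) :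
    H.Sm a b fun t x => c * u t x :=
  hA.sm_mul (hA.sm_static (hA.s0_const c)) hu

variable [CompactSpace M] [OpensMeasurableSpace M]

lemma intg (hA : H.Alg) (hI : H.Intg) {t : ℝ} (ht : t ∈ Ioo 0 H.T) {u : M → ℝ} (hu : H.S0 u) :
    Integrable u (H.vol t) := by
  have := hI.fin t ht
  exact (hA.s0_cont hu).integrable_of_hasCompactSupport (HasCompactSupport.of_compactSpace _)

omit [CompactSpace M] [OpensMeasurableSpace M] in
lemma int_cont (hA : H.Alg) (hI : H.Intg) {a b : ℝ} (st : H.St a b) {f : ℝ → M → ℝ}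
    (hf : H.Sm a b f) : ContinuousOn (fun s => ∫ x, f s x ∂H.vol s) (Icc a b) := by
  obtain ⟨f', -, hf'⟩ := hA.sm_dt st.2.1 hf
  exact fun t ht => (hI.int_dt st hf hf' t ht).continuousWithinAt

/-- a bump of mass one on which `u` is almost `u x` from below -/
lemma exists_bump (hA : H.Alg) (hI : H.Intg) {t : ℝ} (ht : t ∈ Ioo 0 H.T) {u : M → ℝ}
    (hu : H.S0 u) (x : M) {δ : ℝ} (hδ : 0 < δ) :
    ∃ w, H.S0 w ∧ (∀ y, 0 ≤ w y) ∧ ∫ y, w y ∂H.vol t = 1 ∧
      u x - δ ≤ ∫ y, u y * w y ∂H.vol t := by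
  have cφ : ContDiff ℝ ∞ fun s : ℝ => zeta (2 * (u x - s) / δ) :=
    zeta_cd.comp ((contDiff_const.mul (contDiff_const.sub contDiff_id)).div_const δ)
  have s0 : H.S0 fun y => zeta (2 * (u x - u y) / δ) := s0_cmp hA (φ := fun s : ℝ => zeta (2 * (u x - s) / δ)) cφ hu
  have := hI.pos t ht
  have := hI.fin t ht
  have hpos : 0 < ∫ y, zeta (2 * (u x - u y) / δ) ∂H.vol t := by
    refine (hA.s0_cont s0).integral_pos_of_hasCompactSupport_nonneg_nonzero
      (HasCompactSupport.of_compactSpace _) (fun y => zeta_nonneg _) (x := x) ?_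
    rw [zeta_one (by simp)]; exact one_ne_zero
  set m := ∫ y, zeta (2 * (u x - u y) / δ) ∂H.vol t with hm
  have hw : H.S0 fun y => m⁻¹ * zeta (2 * (u x - u y) / δ) := s0_cmul hA _ s0
  have h1 : ∫ y, m⁻¹ * zeta (2 * (u x - u y) / δ) ∂H.vol t = 1 := by
    rw [integral_const_mul, ← hm, inv_mul_cancel₀ hpos.ne']
  refine ⟨_, hw, fun y => mul_nonneg (inv_nonneg.2 hpos.le) (zeta_nonneg _), h1, ?_⟩
  have : u x - δ = ∫ y, (u x - δ) * (m⁻¹ * zeta (2 * (u x - u y) / δ)) ∂H.vol t := by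
    rw [integral_const_mul, h1, mul_one]
  rw [this]
  refine integral_mono (intg hA hI ht (s0_cmul hA _ hw)) (intg hA hI ht (hA.s0_mul hu hw))
    fun y => ?_
  by_cases hy : u x - δ ≤ u y
  · exact mul_le_mul_of_nonneg_right hy (mul_nonneg (inv_nonneg.2 hpos.le) (zeta_nonneg _))
  · have : zeta (2 * (u x - u y) / δ) = 0 := by
      apply zeta_zero
      rw [le_div_iff₀ hδ]; linarith [not_le.1 hy]
    simp [this]

/-- derivative of the pairing with a conjugate solution -/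
lemma pair_dt (hA : H.Alg) (hI : H.Intg) {a b : ℝ} (st : H.St a b) {W W' v : ℝ → M → ℝ}
    (hW : H.Sm a b W) (hW' : HasDt a b W W') (hv : H.Conj a b v) {t : ℝ} (ht : t ∈ Icc a b) :
    HasDerivWithinAt (fun s => ∫ x, W s x * v s x ∂H.vol s)
      (∫ x, (W' t x - H.lap t (W t) x) * v t x ∂H.vol t) (Icc a b) t := by
  have tm := st_mem st ht
  obtain ⟨W1, sW1, hW1⟩ := hA.sm_dt st.2.1 hW
  have e1 : ∀ x, W' t x = W1 t x := fun x =>
    (uniqueDiffOn_Icc st.2.1 t ht).eq_deriv _ (hW' t ht x) (hW1 t ht x)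
  have hd : HasDt a b (fun s x => W s x * v s x)
      (fun s x => W1 s x * v s x + W s x * (-H.lap s (v s) x + H.R s x * v s x)) :=
    fun s hs x => (hW1 s hs x).mul (hv.2 s hs x)
  have := hI.int_dt st (hA.sm_mul hW hv.1) hd t ht
  convert this using 1
  have sW := hA.sm_s0 hW t ht
  have sv := hA.sm_s0 hv.1 t ht
  have sLW := hA.sm_s0 (hA.sm_lap st hW) t ht
  have sLv := hA.sm_s0 (hA.sm_lap st hv.1) t ht
  have i1 := intg hA hI tm (hA.s0_mul (hA.sm_s0 sW1 t ht) sv)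
  have i2 := intg hA hI tm (hA.s0_mul sv sLW)
  have i3 := intg hA hI tm (hA.s0_mul sW sLv)
  have b1 := hI.ibp t tm sW sv
  have b2 := hI.ibp t tm sv sW
  have b3 : ∫ x, H.gam t (W t) (v t) x ∂H.vol t = ∫ x, H.gam t (v t) (W t) x ∂H.vol t := by
    congr 1; funext x; exact hA.gam_symm t tm sW sv x
  have l : ∫ x, (W' t x - H.lap t (W t) x) * v t x ∂H.vol t =
      ∫ x, W1 t x * v t x ∂H.vol t - ∫ x, v t x * H.lap t (W t) x ∂H.vol t := by
    rw [← integral_sub i1 i2]; congr 1; funext x; rw [e1]; ring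
  have r : ∫ x, (W1 t x * v t x + W t x * (-H.lap t (v t) x + H.R t x * v t x) -
      H.R t x * (W t x * v t x)) ∂H.vol t =
      ∫ x, W1 t x * v t x ∂H.vol t - ∫ x, W t x * H.lap t (v t) x ∂H.vol t := by
    rw [← integral_sub i1 i3]; congr 1; funext x; ring
  rw [l, r, b1, b2, b3]

lemma conj_mass (hA : H.Alg) (hI : H.Intg) {a b : ℝ} (st : H.St a b) {v : ℝ → M → ℝ}
    (hv : H.Conj a b v) {t : ℝ} (ht : t ∈ Icc a b) :
    ∫ x, v t x ∂H.vol t = ∫ x, v b x ∂H.vol b := by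
  have hd : ∀ s ∈ Icc a b, HasDerivWithinAt (fun s => ∫ x, v s x ∂H.vol s) 0 (Icc a b) s := by
    intro s hs
    have := hI.int_dt st hv.1 hv.2 s hs
    convert this using 1
    have e : (fun x => -H.lap s (v s) x + H.R s x * v s x - H.R s x * v s x) =
        fun x => -H.lap s (v s) x := by funext x; ring
    rw [e, integral_neg, hI.int_lap s (st_mem st hs) (hA.sm_s0 hv.1 s hs), neg_zero]
  have hc := constant_of_derivWithin_zero (fun s hs => (hd s hs).differentiableWithinAt)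
    (fun s hs => (hd s (Ico_subset_Icc_self hs)).derivWithin
      (uniqueDiffOn_Icc st.2.1 s (Ico_subset_Icc_self hs)))
  rw [hc t ht, hc b (right_mem_Icc.2 st.2.1.le)]

lemma sub_le_int {g g' φ : ℝ → ℝ} {a b c d : ℝ} (h1 : a ≤ c) (h2 : c ≤ d) (h3 : d ≤ b)
    (hg : ∀ s ∈ Icc a b, HasDerivWithinAt g (g' s) (Icc a b) s) (hφ : ContinuousOn φ (Icc c d))
    (hle : ∀ s ∈ Ioo c d, g' s ≤ φ s) : g d - g c ≤ ∫ s in c..d, φ s := by
  have sub : Icc c d ⊆ Icc a b := Icc_subset_Icc h1 h3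
  refine intervalIntegral.sub_le_integral_of_hasDeriv_right_of_le h2
    (fun s hs => ((hg s (sub hs)).continuousWithinAt).mono sub) (fun s hs => ?_)
    hφ.integrableOn_Icc hle
  have : Icc a b ∈ nhds s := Icc_mem_nhds (h1.trans_lt hs.1) (hs.2.trans_le h3)
  exact ((hg s (sub (Ioo_subset_Icc_self hs))).hasDerivAt this).hasDerivWithinAt

/-- **Duhamel bound** -/
theorem duhamel (hA : H.Alg) (hI : H.Intg) (hS : H.Solv) {t0 C : ℝ} (hC : 0 ≤ C)
    (hU : H.UC t0 C) {a m b : ℝ} (h0a : t0 ≤ a) (st : H.St a b) (am : a ≤ m) (mb : m < b) {W W' h : ℝ → M → ℝ}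
    (hW : H.Sm a b W) (hW' : HasDt a b W W') (hh : H.Sm a b h)
    (h0 : ∀ t ∈ Icc a b, ∀ y, 0 ≤ h t y)
    (hsub : ∀ t ∈ Icc a b, ∀ y, W' t y - H.lap t (W t) y ≤ h t y) (hWa : ∀ y, W a y ≤ 0)
    {A : ℝ} (hbd : ∀ t ∈ Icc m b, ∀ y, h t y ≤ A) (x : M) :
    W b x ≤ A * (b - m) + C / (b - m) ^ 2 * ∫ t in a..m, ∫ y, h t y ∂H.vol t := by
  refine le_of_forall_pos_le_add fun δ hδ => ?_
  have bm : b ∈ Icc a b := right_mem_Icc.2 st.2.1.le
  have amem : a ∈ Icc a b := left_mem_Icc.2 st.2.1.le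
  obtain ⟨w, sw, w0, w1, hw⟩ := exists_bump hA hI (st_mem st bm) (hA.sm_s0 hW b bm) x hδ
  obtain ⟨v, hv, hvb⟩ := hS.conj st sw
  have vb0 : ∀ y, 0 ≤ v b y := by rw [hvb]; exact w0
  have vb1 : ∫ y, v b y ∂H.vol b = 1 := by rw [hvb]; exact w1
  have uc := hU h0a st hv vb0
  simp only [vb1, mul_one] at uc
  have hd := fun t ht => pair_dt hA hI st hW hW' hv (t := t) ht
  have key : ∀ t ∈ Ico a b, ∫ y, (W' t y - H.lap t (W t) y) * v t y ∂H.vol t ≤
      ∫ y, h t y * v t y ∂H.vol t := by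
    intro t ht
    have ht' := Ico_subset_Icc_self ht
    obtain ⟨W1, sW1, hW1⟩ := hA.sm_dt st.2.1 hW
    have e1 : ∀ y, W' t y = W1 t y := fun y =>
      (uniqueDiffOn_Icc st.2.1 t ht').eq_deriv _ (hW' t ht' y) (hW1 t ht' y)
    have s1 : H.S0 fun y => (W1 t y + (-1) * H.lap t (W t) y) * v t y :=
      hA.s0_mul (hA.s0_add (hA.sm_s0 sW1 t ht') (s0_cmul hA _ (hA.sm_s0 (hA.sm_lap st hW) t ht')))
        (hA.sm_s0 hv.1 t ht')
    have i1 : Integrable (fun y => (W' t y - H.lap t (W t) y) * v t y) (H.vol t) := by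
      have := intg hA hI (st_mem st ht') s1
      refine this.congr (Filter.Eventually.of_forall fun y => ?_)
      simp only [e1]; ring
    exact integral_mono i1
      (intg hA hI (st_mem st ht') (hA.s0_mul (hA.sm_s0 hh t ht') (hA.sm_s0 hv.1 t ht')))
      fun y => mul_le_mul_of_nonneg_right (hsub t ht' y) (uc t ht y).1
  have near := sub_le_int am mb.le le_rfl hd (φ := fun _ => A) continuousOn_const (fun t ht => by
    have ht1 : t ∈ Ico a b := ⟨am.trans ht.1.le, ht.2⟩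
    have ht' := Ico_subset_Icc_self ht1
    refine (key t ht1).trans ?_
    have : A = ∫ y, A * v t y ∂H.vol t := by
      rw [integral_const_mul, conj_mass hA hI st hv ht', vb1, mul_one]
    rw [this]
    exact integral_mono
      (intg hA hI (st_mem st ht') (hA.s0_mul (hA.sm_s0 hh t ht') (hA.sm_s0 hv.1 t ht')))
      (intg hA hI (st_mem st ht') (s0_cmul hA _ (hA.sm_s0 hv.1 t ht')))
      fun y => mul_le_mul_of_nonneg_right (hbd t ⟨ht.1.le, ht.2.le⟩ y) (uc t ht1 y).1)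
  have far := sub_le_int le_rfl am mb.le hd
    (φ := fun t => C / (b - m) ^ 2 * ∫ y, h t y ∂H.vol t)
    (continuousOn_const.mul ((int_cont hA hI st hh).mono (Icc_subset_Icc le_rfl mb.le)))
    (fun t ht => by
      have ht1 : t ∈ Ico a b := ⟨ht.1.le, ht.2.trans mb⟩
      have ht' := Ico_subset_Icc_self ht1
      refine (key t ht1).trans ?_
      rw [← integral_const_mul]
      refine integral_mono
        (intg hA hI (st_mem st ht') (hA.s0_mul (hA.sm_s0 hh t ht') (hA.sm_s0 hv.1 t ht')))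
        (intg hA hI (st_mem st ht') (s0_cmul hA _ (hA.sm_s0 hh t ht'))) fun y => ?_
      have l1 : C / (b - t) ^ 2 ≤ C / (b - m) ^ 2 :=
        div_le_div_of_nonneg_left hC (pow_pos (sub_pos.2 mb) 2)
          (pow_le_pow_left₀ (sub_pos.2 mb).le (by linarith [ht.2]) 2)
      have := mul_le_mul_of_nonneg_left ((uc t ht1 y).2.trans l1) (h0 t ht' y)
      simpa [mul_comm] using this)
  have ia : ∫ y, W a y * v a y ∂H.vol a ≤ 0 :=
    integral_nonpos fun y => mul_nonpos_of_nonpos_of_nonneg (hWa y) (uc a ⟨le_rfl, st.2.1⟩ y).1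
  rw [intervalIntegral.integral_const_mul] at far
  simp only [intervalIntegral.integral_const, smul_eq_mul] at near
  rw [← hvb] at hw
  nlinarith

end E

end Crest.Agent.N207

end
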