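import Crest.Agent.N207.E.MV
import Crest.Agent.N207.C.Max

/-! Block E (helper10): the Bernstein step. -/

set_option autoImplicit false
set_option linter.dupNamespace false
set_option linter.unusedSectionVars false
open Set MeasureTheory
open scoped ContDiff

noncomputable section

namespace Crest.Agent.N207.E

universe v

lemma psi_flat {s : ℝ} (hs : s < 1) : deriv psi s = 0 ∧ deriv (deriv psi) s = 0 := by
  have v1 := deriv_vanish (f := psi) (c := 1) (d := 0) (fun s hs => psi_one hs.le)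
    (fun s hs => psi_zero hs.le)
  have v2 := deriv_vanish (f := deriv psi) (c := 0) (d := 0) v1.1 v1.2
  exact ⟨v1.1 s hs, v2.1 s hs⟩

variable {M : Type v} [TopologicalSpace M] [MeasurableSpace M] {H : HC M}

lemma dt_cut {a b l ρ : ℝ} {u : ℝ → M → ℝ} (hu : H.Heat a b u) :
    HasDt a b (fun t y => psi ((u t y - l) / ρ))
      fun t y => deriv psi ((u t y - l) / ρ) / ρ * H.lap t (u t) y := by
  intro t ht y
  have h2 : HasDerivAt (fun s => psi ((s - l) / ρ)) (deriv psi ((u t y - l) / ρ) / ρ) (u t y) := by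
    have := ((cd_aff psi_cd l ρ).differentiable (by simp) (u t y)).hasDerivAt
    rwa [deriv_aff psi_cd] at this
  exact HasDerivAt.comp_hasDerivWithinAt (h₂ := fun s => psi ((s - l) / ρ)) (h := fun s => u s y)
    t h2 (hu.2 t ht y)

lemma lap_cut_flat (hA : H.Alg) {t : ℝ} (ht : t ∈ Ioo 0 H.T) {u P : M → ℝ} (su : H.S0 u)
    (sP : H.S0 P) {l ρ : ℝ} {y : M} (hy : (u y - l) / ρ < 1) :
    H.lap t (fun z => psi ((u z - l) / ρ) * P z) y = H.lap t P y := by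
  have cp := cd_aff psi_cd l ρ
  have sψ : H.S0 fun z => psi ((u z - l) / ρ) :=
    s0_cmp hA (φ := fun s => psi ((s - l) / ρ)) cp su
  have e1 := hA.lap_mul t ht sψ sP y
  have e2 := hA.lap_comp t ht (φ := fun s => psi ((s - l) / ρ)) isOpen_univ cp.contDiffOn
    (fun _ => mem_univ _) su y
  have e3 := hA.gam_comp t ht (φ := fun s => psi ((s - l) / ρ)) isOpen_univ cp.contDiffOn
    (fun _ => mem_univ _) su sP y
  rw [deriv2_aff psi_cd, deriv_aff psi_cd] at e2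
  rw [deriv_aff psi_cd] at e3
  rw [e1, e2, e3]
  beta_reduce
  rw [(psi_flat hy).1, (psi_flat hy).2, psi_one hy.le]
  ring

lemma bs_arith {K Λ S0 S1 ρ τ ψ χ p1 p1' lp1 G p' lp X Y : ℝ} (hK : 0 ≤ K) (hΛ : 0 ≤ Λ)
    (hS1 : 0 ≤ S1) (hρ : 0 < ρ) (τ0 : 0 ≤ τ) (τ1 : τ ≤ ρ ^ 2) (ψ0 : 0 ≤ ψ) (ψ1 : ψ ≤ 1)
    (χ1 : χ ≤ 1) (hp : 0 ≤ p1) (q2 : p' - lp ≤ S0 - 2 * p1) (q3 : p1' - lp1 ≤ Λ * p1 + S1 - 2 * G)
    (cs : X + ψ * p1' - Y ≤ ψ * (p1' - lp1 + 2 * G) + 3 * K / ρ ^ 2 * χ * p1) :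
    ψ * p1 + τ * (X + ψ * p1') + (Λ * ρ ^ 2 + (3 * K + 1)) * p' -
      (ρ ^ 2 * S1 + (Λ * ρ ^ 2 + (3 * K + 1)) * S0) ≤
      τ * Y + (Λ * ρ ^ 2 + (3 * K + 1)) * lp := by
  set A := Λ * ρ ^ 2 + (3 * K + 1) with hA
  have A0 : 0 ≤ A := by positivity
  have m1 : ψ * (p1' - lp1 + 2 * G) ≤ Λ * p1 + S1 := by
    have : 0 ≤ Λ * p1 + S1 := by positivity
    have a := mul_le_mul_of_nonneg_left (show p1' - lp1 + 2 * G ≤ Λ * p1 + S1 by linarith) ψ0
    have b := mul_le_mul_of_nonneg_right ψ1 this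
    linarith
  have m2 : 3 * K / ρ ^ 2 * χ * p1 ≤ 3 * K / ρ ^ 2 * p1 := by
    have : 0 ≤ 3 * K / ρ ^ 2 * p1 := by positivity
    have b := mul_le_mul_of_nonneg_right χ1 this
    linarith
  have m3 := mul_le_mul_of_nonneg_left (cs.trans (add_le_add m1 m2)) τ0
  have m4 := mul_le_mul_of_nonneg_right τ1
    (show 0 ≤ Λ * p1 + S1 + 3 * K / ρ ^ 2 * p1 by positivity)
  have m5 : ρ ^ 2 * (Λ * p1 + S1 + 3 * K / ρ ^ 2 * p1) =
      (Λ * ρ ^ 2 + 3 * K) * p1 + ρ ^ 2 * S1 := by field_simp; ring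
  have m6 := mul_le_mul_of_nonneg_left q2 A0
  have m7 := mul_le_mul_of_nonneg_right ψ1 hp
  have m8 : 0 ≤ A * p1 := by positivity
  have m9 : A * p1 = (Λ * ρ ^ 2 + 3 * K) * p1 + p1 := by rw [hA]; ring
  linarith

/-- **Bernstein step** on `[b-ρ², b] × {u ≤ u(b,x) + 3ρ}` -/
theorem bs0 : ∃ K : ℝ, 1 ≤ K ∧ ∀ {M : Type v} [TopologicalSpace M] [CompactSpace M]
    [MeasurableSpace M] {H : HC M}, H.Alg →
    ∀ {a b ρ Λ D S0 S1 : ℝ} {u P P' P1 P1' G : ℝ → M → ℝ} (x : M),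
    H.St a b → 0 < ρ → b - a = ρ ^ 2 → 0 ≤ Λ → 0 ≤ S0 → 0 ≤ S1 → H.Heat a b u →
    (∀ t ∈ Icc a b, ∀ y, H.gam t (u t) (u t) y ≤ 1) → H.Sm a b P → HasDt a b P P' →
    H.Sm a b P1 → HasDt a b P1 P1' → (∀ t ∈ Icc a b, ∀ y, 0 ≤ P t y) →
    (∀ t ∈ Icc a b, ∀ y, 0 ≤ P1 t y) → (∀ t ∈ Icc a b, ∀ y, 0 ≤ G t y) →
    (∀ t ∈ Icc a b, ∀ y, H.gam t (P1 t) (P1 t) y ≤ 4 * P1 t y * G t y) →
    (∀ t ∈ Icc a b, ∀ y, u t y ≤ u b x + 3 * ρ → P t y ≤ D ∧
      P' t y - H.lap t (P t) y ≤ S0 - 2 * P1 t y ∧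
      P1' t y - H.lap t (P1 t) y ≤ Λ * P1 t y + S1 - 2 * G t y) →
    ρ ^ 2 * P1 b x ≤ (Λ * ρ ^ 2 + K) * (D + ρ ^ 2 * S0) + ρ ^ 4 * S1 := by
  obtain ⟨K, hK, k1, k2⟩ := psi_bounds
  refine ⟨3 * K + 1, by linarith, ?_⟩
  intro M _ _ _ H hA a b ρ Λ D S0 S1 u P P' P1 P1' G x st hρ hab hΛ hS0 hS1 hu hg sP dP sP1 dP1
    P0 P10 G0 hk hq
  have ρ2 : 0 < ρ ^ 2 := pow_pos hρ 2
  set l := u b x with hl
  set A := Λ * ρ ^ 2 + (3 * K + 1) with hAd
  have A0 : 0 ≤ A := by positivity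
  set c := ρ ^ 2 * S1 + A * S0 with hc
  have c0 : 0 ≤ c := by positivity
  have bm : b ∈ Icc a b := right_mem_Icc.2 st.2.1.le
  have D0 : 0 ≤ D := (P0 b bm x).trans (hq b bm x (by linarith)).1
  have sψ : ∀ l', H.Sm a b fun t y => psi ((u t y - l') / ρ) := fun l' =>
    sm_cmp hA (φ := fun s => psi ((s - l') / ρ)) (cd_aff psi_cd l' ρ) hu.1
  have s1 := hA.sm_mul (sψ l) sP1
  have s2 := hA.sm_mul (sψ (l + ρ)) sP
  have sτ : H.Sm a b fun t _ => t - a := hA.sm_timeU (by fun_prop)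
  have sκ : H.Sm a b fun t _ => A * D + c * (t - a) := hA.sm_timeU (by fun_prop)
  have dτ : HasDt a b (fun t (_ : M) => t - a) fun _ _ => 1 :=
    HasDt.time (c' := fun _ => 1) fun t _ => (hasDerivAt_id t).sub_const a
  have dκ : HasDt a b (fun t (_ : M) => A * D + c * (t - a)) fun _ _ => c :=
    HasDt.time (c' := fun _ => c) fun t _ => by
      simpa using (((hasDerivAt_id t).sub_const a).const_mul c).const_add (A * D)
  have low : ∀ t ∈ Icc a b, ∀ y, psi ((u t y - (l + ρ)) / ρ) * P t y ≤ D := by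
    intro t ht y
    by_cases h : u t y ≤ l + 3 * ρ
    · nlinarith [psi_le_one ((u t y - (l + ρ)) / ρ), psi_nonneg ((u t y - (l + ρ)) / ρ),
        P0 t ht y, (hq t ht y h).1]
    · rw [psi_zero (by rw [le_div_iff₀ hρ]; linarith [not_le.1 h]), zero_mul]; exact D0
  have := hA.maxp st (hA.sm_sub (hA.sm_add (hA.sm_mul sτ s1) (hA.sm_cmul A s2)) sκ)
    (((dτ.mul ((dt_cut hu).mul dP1)).add (((dt_cut hu).mul dP).cmul A)).sub dκ) 0
    (fun y => by
      have := mul_le_mul_of_nonneg_left (low a (left_mem_Icc.2 st.2.1.le) y) A0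
      simp only [sub_self, zero_mul, mul_zero, zero_add, add_zero]; linarith)
    (fun t ht y hpos hlap _ => by
      have hm : t ∈ Icc a b := Ioc_subset_Icc_self ht
      have tm := st.mem hm
      have su := hA.sm_s0 hu.1 t hm
      have lo := mul_le_mul_of_nonneg_left (low t hm y) A0
      have τ0 : 0 ≤ t - a := by linarith [hm.1]
      have τ1 : t - a ≤ ρ ^ 2 := by linarith [hm.2]
      have hin : u t y < l + 2 * ρ := by
        by_contra h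
        rw [psi_zero (s := (u t y - l) / ρ) (by rw [le_div_iff₀ hρ]; linarith [not_lt.1 h])] at hpos
        nlinarith [mul_nonneg c0 τ0]
      have h1 : (u t y - (l + ρ)) / ρ < 1 := by rw [div_lt_one hρ]; linarith
      obtain ⟨-, q2, q3⟩ := hq t hm y (by linarith)
      have t1 := hA.sm_s0 s1 t hm
      have t2 := hA.sm_s0 s2 t hm
      rw [hA.lap_sub tm (hA.s0_add (hA.s0_cmul _ t1) (hA.s0_cmul _ t2)) (hA.s0_const _),
        hA.lap_const tm, hA.lap_add t tm (hA.s0_cmul _ t1) (hA.s0_cmul _ t2), hA.lap_cmul tm _ t1,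
        hA.lap_cmul tm _ t2, lap_cut_flat hA tm su (hA.sm_s0 sP t hm) h1] at hlap
      have cs := cut_sub hA (by linarith) k1 k2 tm su (hA.sm_s0 sP1 t hm) (l := l) hρ y
        (hg t hm y) (P10 t hm y) (G0 t hm y) (hk t hm y) (P1' t y)
      rw [(psi_flat h1).1, psi_one h1.le]
      have := bs_arith (by linarith) hΛ hS1 hρ τ0 τ1 (psi_nonneg _) (psi_le_one _) (chi_le_one _)
        (P10 t hm y) q2 q3 cs
      rw [← hAd, ← hc] at this
      simp only [zero_div, zero_mul, one_mul, zero_add]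
      linarith) b bm x
  rw [psi_one (s := (u b x - l) / ρ) (by simp [hl]), hab] at this
  have p2 : 0 ≤ A * (psi ((u b x - (l + ρ)) / ρ) * P b x) :=
    mul_nonneg A0 (mul_nonneg (psi_nonneg _) (P0 b bm x))
  rw [hc] at this
  nlinarith

end Crest.Agent.N207.E

end
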