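import Crest.Agent.N207.E.MV0

/-! Block E (helper10): point picking, mean value inequalities. -/

set_option autoImplicit false
set_option linter.dupNamespace false
set_option linter.unusedSectionVars false
open Set MeasureTheory
open scoped ContDiff

noncomputable section

namespace Crest.Agent.N207.E

universe v

variable {M : Type v} [TopologicalSpace M] [CompactSpace M]

/-- point picking for the weight `min (L - u) √(t - s)` -/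
theorem pick (k : ℕ) {s t1 L : ℝ} (hs : s ≤ t1) {u P : ℝ → M → ℝ} (x0 : M)
    (cu : ContinuousOn (fun p : ℝ × M => u p.1 p.2) (Icc s t1 ×ˢ univ))
    (cP : ContinuousOn (fun p : ℝ × M => P p.1 p.2) (Icc s t1 ×ˢ univ))
    (P0 : ∀ t ∈ Icc s t1, ∀ y, 0 ≤ P t y) :
    ∃ b x η0, b ∈ Icc s t1 ∧ 0 ≤ η0 ∧ η0 ^ 2 ≤ b - s ∧
      (∀ t ∈ Icc s t1, ∀ y η, 0 ≤ η → u t y + η ≤ L → η ^ 2 ≤ t - s →
        η ^ k * P t y ≤ η0 ^ k * P b x) ∧
      ∀ ρ, 0 < ρ → ρ ≤ η0 / 4 → s < b - ρ ^ 2 ∧ ∀ t ∈ Icc (b - ρ ^ 2) b, ∀ y,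
        u t y ≤ u b x + 2 * ρ → u t y ≤ L ∧ P t y ≤ 2 ^ k * P b x := by
  set e : ℝ × M → ℝ := fun p => max 0 (min (L - u p.1 p.2) √(p.1 - s)) with he
  have ce : ContinuousOn e (Icc s t1 ×ˢ univ) :=
    ContinuousOn.sup continuousOn_const (ContinuousOn.inf (continuousOn_const.sub cu)
      (continuous_fst.sub continuous_const).sqrt.continuousOn)
  obtain ⟨⟨b, x⟩, hb, hm⟩ := (isCompact_Icc.prod isCompact_univ).exists_isMaxOn
    ⟨(s, x0), ⟨left_mem_Icc.2 hs, mem_univ _⟩⟩ ((ce.pow k).mul cP)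
  have hb1 : b ∈ Icc s t1 := hb.1
  have main : ∀ t ∈ Icc s t1, ∀ y η, 0 ≤ η → u t y + η ≤ L → η ^ 2 ≤ t - s →
      η ^ k * P t y ≤ e (b, x) ^ k * P b x := by
    intro t ht y η h0 h1 h2
    have l : η ≤ e (t, y) :=
      le_max_of_le_right (le_min (by simp only; linarith) (Real.le_sqrt_of_sq_le h2))
    have := hm (a := (t, y)) ⟨ht, mem_univ _⟩
    exact (mul_le_mul_of_nonneg_right (pow_le_pow_left₀ h0 l k) (P0 t ht y)).trans this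
  have e0 : 0 ≤ e (b, x) := le_max_left _ _
  have e2 : e (b, x) ^ 2 ≤ b - s := by
    have : e (b, x) ≤ √(b - s) := max_le (Real.sqrt_nonneg _) (min_le_right _ _)
    calc _ ≤ √(b - s) ^ 2 := pow_le_pow_left₀ e0 this 2
      _ = _ := Real.sq_sqrt (by linarith [hb1.1])
  refine ⟨b, x, e (b, x), hb1, e0, e2, main, fun ρ hρ hρ4 => ?_⟩
  set η0 := e (b, x) with hη
  have pos : 0 < η0 := by linarith
  have e3 : η0 ≤ L - u b x := by
    rcases le_total 0 (min (L - u b x) √(b - s)) with h | h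
    · have : η0 = min (L - u b x) √(b - s) := max_eq_right h
      rw [this]; exact min_le_left _ _
    · have : η0 = 0 := max_eq_left h
      linarith
  have r2 : ρ ^ 2 ≤ η0 ^ 2 / 16 := by nlinarith
  have p2 : 0 < η0 ^ 2 := pow_pos pos 2
  refine ⟨by linarith, fun t ht y hy => ⟨by linarith, ?_⟩⟩
  have ht' : t ∈ Icc s t1 := ⟨by linarith [ht.1], ht.2.trans hb1.2⟩
  have := main t ht' y (η0 / 2) (by linarith) (by linarith) (by nlinarith [ht.1])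
  have pk : 0 < η0 ^ k := pow_pos pos k
  rw [div_pow, div_mul_eq_mul_div, div_le_iff₀ (by positivity)] at this
  refine le_of_mul_le_mul_left ?_ pk
  linarith

lemma HasDt.mono' {M : Type*} {a b a' b' : ℝ} {f f' : ℝ → M → ℝ} (h : HasDt a b f f')
    (h1 : a ≤ a') (h2 : b' ≤ b) : HasDt a' b' f f' :=
  fun t ht y => (h t (Icc_subset_Icc h1 h2 ht) y).mono (Icc_subset_Icc h1 h2)

variable [MeasurableSpace M] [OpensMeasurableSpace M] {H : HC M}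

lemma heat_mono (hA : H.Alg) {a b a' b' : ℝ} {u : ℝ → M → ℝ} (h : H.Heat a b u) (h1 : a ≤ a')
    (h2 : b' ≤ b) : H.Heat a' b' u :=
  ⟨hA.sm_mono h.1 h1 h2, HasDt.mono' h.2 h1 h2⟩

/-- the data of a local problem: a heat function `u`, a level `L`, a weight `Φ ≥ 1` on `{u ≤ L}`,
a tensor norm `P` with derivative norm `G` -/
structure Loc (H : HC M) (s t1 L : ℝ) (u Φ P P' G : ℝ → M → ℝ) : Prop where
  st : H.St s t1
  heat : H.Heat s t1 u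
  lip : ∀ t ∈ Icc s t1, ∀ y, H.gam t (u t) (u t) y ≤ 1
  sΦ : H.Sm s t1 Φ
  Φ0 : ∀ t ∈ Icc s t1, ∀ y, 0 ≤ Φ t y
  Φ1 : ∀ t ∈ Icc s t1, ∀ y, u t y ≤ L → 1 ≤ Φ t y
  sP : H.Sm s t1 P
  dP : HasDt s t1 P P'
  P0 : ∀ t ∈ Icc s t1, ∀ y, 0 ≤ P t y
  G0 : ∀ t ∈ Icc s t1, ∀ y, 0 ≤ G t y
  kato : ∀ t ∈ Icc s t1, ∀ y, H.gam t (P t) (P t) y ≤ 4 * P t y * G t y

/-- `mv0` at a picked point -/
theorem mv1 : ∃ K : ℝ, 1 ≤ K ∧ ∀ {M : Type v} [TopologicalSpace M] [CompactSpace M]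
    [MeasurableSpace M] [OpensMeasurableSpace M] {H : HC M}, H.Alg → H.Intg → H.Solv →
    ∀ {t0 C : ℝ}, 0 ≤ C → H.UC t0 C → ∀ {s t1 L : ℝ} {u Φ P P' G : ℝ → M → ℝ},
    Loc H s t1 L u Φ P P' G → t0 ≤ s → ∀ {b ρ θ Λ S : ℝ} {x : M}, b ∈ Icc s t1 → 0 < ρ → s < b - ρ ^ 2 →
    0 < θ → θ ≤ 1 → 0 ≤ Λ →
    (∀ t ∈ Icc (b - ρ ^ 2) b, ∀ y, u t y ≤ u b x + 2 * ρ → u t y ≤ L ∧ P t y ≤ S ∧
      P' t y - H.lap t (P t) y ≤ Λ * P t y - 2 * G t y) →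
    P b x ≤ (Λ * ρ ^ 2 + K) * (θ * S +
      C / θ ^ 2 / ρ ^ 6 * ∫ t in (b - ρ ^ 2)..b, ∫ y, Φ t y * P t y ∂H.vol t) := by
  obtain ⟨K, hK, h⟩ := mv0.{v}
  refine ⟨K, hK, ?_⟩
  intro M _ _ _ _ H hA hI hS t0 C hC hU s t1 L u Φ P P' G D h0s b ρ θ Λ S x hb hρ hs hθ hθ1 hΛ hq
  have ρ2 : 0 < ρ ^ 2 := pow_pos hρ 2
  have sub : Icc (b - ρ ^ 2) b ⊆ Icc s t1 := Icc_subset_Icc hs.le hb.2
  have := h hA hI hS hC hU (a := b - ρ ^ 2) (b := b) (G := G) (S := S) x (h0s.trans hs.le)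
    ⟨D.st.1.trans hs, by linarith, hb.2.trans_lt D.st.2.2⟩ hρ (by ring) hθ hθ1 hΛ
    (heat_mono hA D.heat hs.le hb.2) (fun t ht => D.lip t (sub ht))
    (hA.sm_mono D.sP hs.le hb.2) (HasDt.mono' D.dP hs.le hb.2) (hA.sm_mono D.sΦ hs.le hb.2)
    (fun t ht => D.P0 t (sub ht)) (fun t ht => D.G0 t (sub ht)) (fun t ht => D.kato t (sub ht))
    (fun t ht y hy => (hq t ht y hy).2.2) (fun t ht y hy => (hq t ht y hy).2.1)
    (fun t ht => D.Φ0 t (sub ht)) (fun t ht y hy => D.Φ1 t (sub ht) y (hq t ht y hy).1)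
  refine this.trans (le_of_eq ?_)
  field_simp

lemma Loc.int_le (hA : H.Alg) (hI : H.Intg) {s t1 L : ℝ} {u Φ P P' G : ℝ → M → ℝ}
    (D : Loc H s t1 L u Φ P P' G) {a b : ℝ} (h1 : s ≤ a) (h2 : a ≤ b) (h3 : b ≤ t1) :
    ∫ t in a..b, ∫ y, Φ t y * P t y ∂H.vol t ≤ ∫ t in s..t1, ∫ y, Φ t y * P t y ∂H.vol t := by
  refine intervalIntegral.integral_mono_interval h1 h2 h3 ?_
    ((int_cont hA hI D.st (hA.sm_mul D.sΦ D.sP)).intervalIntegrable_of_Icc D.st.2.1.le)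
  filter_upwards [ae_restrict_mem measurableSet_Ioc] with t ht
  have ht' := Ioc_subset_Icc_self ht
  exact integral_nonneg fun y => mul_nonneg (D.Φ0 t ht' y) (D.P0 t ht' y)

lemma Loc.int_le_sup (hA : H.Alg) (hI : H.Intg) {s t1 L : ℝ} {u Φ P P' G : ℝ → M → ℝ}
    (D : Loc H s t1 L u Φ P P' G) {a b E : ℝ} (h1 : s ≤ a) (h2 : a ≤ b) (h3 : b ≤ t1)
    (hE : ∀ t ∈ Icc s t1, ∫ y, Φ t y * P t y ∂H.vol t ≤ E) :
    ∫ t in a..b, ∫ y, Φ t y * P t y ∂H.vol t ≤ (b - a) * E := by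
  have sub : Icc a b ⊆ Icc s t1 := Icc_subset_Icc h1 h3
  have := intervalIntegral.integral_mono_on h2
    (((int_cont hA hI D.st (hA.sm_mul D.sΦ D.sP)).mono sub).intervalIntegrable_of_Icc h2)
    (intervalIntegrable_const (μ := volume) (c := E)) fun t ht => hE t (sub ht)
  simpa using this

/-- **mean value inequalities** for linear subsolutions on `{u ≤ L}`: space-time `L¹` and
`L^∞ L¹` versions -/
theorem mv (hA : H.Alg) (hI : H.Intg) (hS : H.Solv) {t0 C : ℝ} (hC : 0 ≤ C) (hU : H.UC t0 C)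
    {Λ0 : ℝ} (hΛ0 : 0 ≤ Λ0) : ∃ K, 0 ≤ K ∧ ∀ {s t1 L Λ : ℝ} {u Φ P P' G : ℝ → M → ℝ},
    Loc H s t1 L u Φ P P' G → t0 ≤ s → 0 ≤ Λ → Λ * (t1 - s) ≤ Λ0 →
    (∀ t ∈ Icc s t1, ∀ y, u t y ≤ L → P' t y - H.lap t (P t) y ≤ Λ * P t y - 2 * G t y) →
    ∀ t ∈ Icc s t1, ∀ y η, 0 ≤ η → u t y + η ≤ L → η ^ 2 ≤ t - s →
      η ^ 6 * P t y ≤ K * (∫ t in s..t1, ∫ y, Φ t y * P t y ∂H.vol t) ∧
      ∀ E, (∀ t ∈ Icc s t1, ∫ y, Φ t y * P t y ∂H.vol t ≤ E) → η ^ 4 * P t y ≤ K * E := by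
  obtain ⟨K, hK, h⟩ := mv1.{v}
  set A := Λ0 + K with hAdef
  have A1 : 1 ≤ A := by linarith
  set θ := 1 / (128 * A) with hθ
  have θ0 : 0 < θ := by positivity
  have θ1 : θ ≤ 1 := by rw [hθ, div_le_one (by positivity)]; linarith
  have Aθ : A * θ = 1 / 128 := by rw [hθ]; field_simp
  refine ⟨2 * 4 ^ 6 * A * (C / θ ^ 2), by positivity, ?_⟩
  intro s t1 L Λ u Φ P P' G D h0s hΛ hΛ1 hsub t ht y η h0 h1 h2
  -- common step
  have step : ∀ k : ℕ, k ≠ 0 → k ≤ 6 → ∃ b ρ, ∃ x : M, 0 ≤ ρ ∧ η ^ k * P t y ≤ (4 * ρ) ^ k * P b x ∧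
      (0 < ρ → s ≤ b - ρ ^ 2 ∧ b ≤ t1 ∧ ρ ^ 6 * P b x ≤ 2 * A * (C / θ ^ 2) *
        ∫ t in (b - ρ ^ 2)..b, ∫ y, Φ t y * P t y ∂H.vol t) := by
    intro k hk hk6
    obtain ⟨b, x, η0, hb, e0, e2, hm, hr⟩ := pick (L := L) k D.st.2.1.le y
      (hA.sm_cont D.heat.1) (hA.sm_cont D.sP) D.P0
    refine ⟨b, η0 / 4, x, by positivity, ?_, fun hρ => ?_⟩
    · have := hm t ht y η h0 h1 h2
      rwa [show 4 * (η0 / 4) = η0 by ring]
    obtain ⟨hs, hq⟩ := hr _ hρ le_rfl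
    set ρ := η0 / 4
    have sub : Icc (b - ρ ^ 2) b ⊆ Icc s t1 := Icc_subset_Icc hs.le hb.2
    have Pb := D.P0 b hb x
    have k64 : (2 : ℝ) ^ k ≤ 64 := (pow_le_pow_right₀ one_le_two hk6).trans (by norm_num)
    have := h hA hI hS hC hU D h0s (S := 64 * P b x) hb hρ hs θ0 θ1 hΛ fun t ht y hy =>
      ⟨(hq t ht y hy).1, (hq t ht y hy).2.trans (mul_le_mul_of_nonneg_right k64 Pb),
        hsub t (sub ht) y (hq t ht y hy).1⟩
    refine ⟨hs.le, hb.2, ?_⟩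
    set I := ∫ t in (b - ρ ^ 2)..b, ∫ y, Φ t y * P t y ∂H.vol t
    have I0 : 0 ≤ I := intervalIntegral.integral_nonneg (by nlinarith) fun t ht =>
      integral_nonneg fun y => mul_nonneg (D.Φ0 t (sub ht) y) (D.P0 t (sub ht) y)
    have l1 : Λ * ρ ^ 2 + K ≤ A := by
      have : ρ ^ 2 ≤ t1 - s := by linarith [hb.2]
      nlinarith
    have l2 := this.trans (mul_le_mul_of_nonneg_right l1 (by positivity))
    have ρ6 : 0 < ρ ^ 6 := pow_pos hρ 6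
    have l3 : P b x ≤ 2 * A * (C / θ ^ 2 / ρ ^ 6 * I) := by
      have : A * (θ * (64 * P b x)) = P b x / 2 := by rw [← mul_assoc, Aθ]; ring
      nlinarith
    calc _ ≤ ρ ^ 6 * (2 * A * (C / θ ^ 2 / ρ ^ 6 * I)) := mul_le_mul_of_nonneg_left l3 ρ6.le
      _ = _ := by field_simp
  have I0 : 0 ≤ ∫ t in s..t1, ∫ y, Φ t y * P t y ∂H.vol t :=
    intervalIntegral.integral_nonneg D.st.2.1.le fun t ht =>
      integral_nonneg fun y => mul_nonneg (D.Φ0 t ht y) (D.P0 t ht y)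
  have c0 : 0 ≤ 2 * A * (C / θ ^ 2) := by positivity
  constructor
  · obtain ⟨b, ρ, x, hρ, l, hr⟩ := step 6 (by norm_num) le_rfl
    rcases hρ.eq_or_lt with h0 | hρ
    · subst h0
      refine l.trans ?_
      simp only [mul_zero, ne_eq, OfNat.ofNat_ne_zero, not_false_eq_true, zero_pow, zero_mul]
      positivity
    obtain ⟨a1, a2, a3⟩ := hr hρ
    have := mul_le_mul_of_nonneg_left (D.int_le hA hI a1 (by nlinarith) a2) c0
    nlinarith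
  · intro E hE
    have E0 : 0 ≤ E := (integral_nonneg fun y => mul_nonneg (D.Φ0 t ht y) (D.P0 t ht y)).trans
      (hE t ht)
    obtain ⟨b, ρ, x, hρ, l, hr⟩ := step 4 (by norm_num) (by norm_num)
    rcases hρ.eq_or_lt with h0 | hρ
    · subst h0
      refine l.trans ?_
      simp only [mul_zero, ne_eq, OfNat.ofNat_ne_zero, not_false_eq_true, zero_pow, zero_mul]
      positivity
    obtain ⟨a1, a2, a3⟩ := hr hρ
    have := a3.trans (mul_le_mul_of_nonneg_left (D.int_le_sup hA hI a1 (by nlinarith) a2 hE) c0)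
    have ρ2 : 0 < ρ ^ 2 := pow_pos hρ 2
    have l4 : ρ ^ 4 * P b x ≤ 2 * A * (C / θ ^ 2) * E := by
      refine le_of_mul_le_mul_left ?_ ρ2
      nlinarith
    have := mul_nonneg c0 E0
    nlinarith

/-- **ε-regularity** for `(∂ₜ - Δ) P ≤ C₀ P^{3/2} - 2 G` -/
theorem eps_reg0 (hA : H.Alg) (hI : H.Intg) (hS : H.Solv) {t0 C : ℝ} (hC : 0 ≤ C)
    (hU : H.UC t0 C) {C0 : ℝ} (hC0 : 0 ≤ C0) : ∃ ε0, 0 < ε0 ∧ ∀ {s t1 L : ℝ} {u Φ P P' G : ℝ → M → ℝ},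
    Loc H s t1 L u Φ P P' G → t0 ≤ s →
    (∀ t ∈ Icc s t1, ∀ y, u t y ≤ L →
      P' t y - H.lap t (P t) y ≤ C0 * √(P t y) * P t y - 2 * G t y) →
    (∀ t ∈ Icc s t1, ∫ y, Φ t y * P t y ∂H.vol t ≤ ε0) →
    ∀ t ∈ Icc s t1, ∀ y η, 0 ≤ η → u t y + η ≤ L → η ^ 2 ≤ t - s → η ^ 4 * P t y ≤ 256 := by
  obtain ⟨K, hK, h⟩ := mv1.{v}
  set A := 4 * C0 + K with hAdef
  have A1 : 1 ≤ A := by linarith
  set θ := 1 / (64 * A) with hθ
  have θ0 : 0 < θ := by positivity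
  have θ1 : θ ≤ 1 := by rw [hθ, div_le_one (by positivity)]; linarith
  have Aθ : A * θ = 1 / 64 := by rw [hθ]; field_simp
  set B := A * (C / θ ^ 2) + 1 with hB
  have B0 : 0 < B := by positivity
  refine ⟨1 / (4 * B), by positivity, ?_⟩
  intro s t1 L u Φ P P' G D h0s hsub hE t ht y η h0 h1 h2
  obtain ⟨b, x, η0, hb, e0, e2, hm, hr⟩ := pick (L := L) 4 D.st.2.1.le y
    (hA.sm_cont D.heat.1) (hA.sm_cont D.sP) D.P0
  refine (hm t ht y η h0 h1 h2).trans (not_lt.1 fun big => ?_)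
  have Pb : 0 < P b x := by
    rcases (D.P0 b hb x).eq_or_lt with h | h
    · rw [← h] at big; norm_num at big
    · exact h
  set q := √(√(P b x)) with hq
  have q0 : 0 < q := Real.sqrt_pos.2 (Real.sqrt_pos.2 Pb)
  have q2 : q ^ 2 = √(P b x) := Real.sq_sqrt (Real.sqrt_nonneg _)
  have q4 : q ^ 4 = P b x := by
    rw [show q ^ 4 = (q ^ 2) ^ 2 by ring, q2, Real.sq_sqrt Pb.le]
  have hρ : 0 < q⁻¹ := inv_pos.2 q0
  have hρ4 : q⁻¹ ≤ η0 / 4 := by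
    have : 4 ≤ η0 * q := by
      by_contra hh
      have := pow_lt_pow_left₀ (not_le.1 hh) (by positivity) (n := 4) (by norm_num)
      rw [mul_pow, q4] at this
      linarith
    rw [inv_eq_one_div, div_le_div_iff₀ q0 (by norm_num)]; linarith
  obtain ⟨hs, hqq⟩ := hr _ hρ hρ4
  have sub : Icc (b - q⁻¹ ^ 2) b ⊆ Icc s t1 := Icc_subset_Icc hs.le hb.2
  have := h hA hI hS hC hU D h0s (S := 16 * P b x) (Λ := 4 * C0 * q ^ 2) hb hρ hs θ0 θ1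
    (by positivity) fun t ht y hy => by
      obtain ⟨a1, a2⟩ := hqq t ht y hy
      refine ⟨a1, by linarith, (hsub t (sub ht) y a1).trans ?_⟩
      have : √(P t y) ≤ 4 * q ^ 2 := by
        rw [Real.sqrt_le_left (by positivity)]; nlinarith
      have := mul_le_mul_of_nonneg_right (mul_le_mul_of_nonneg_left this hC0) (D.P0 t (sub ht) y)
      nlinarith
  have l1 := D.int_le_sup hA hI hs.le (b := b) (by nlinarith) hb.2 hE
  have e1 : 4 * C0 * q ^ 2 * q⁻¹ ^ 2 + K = A := by rw [hAdef]; field_simp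
  rw [e1] at this
  have l2 := mul_le_mul_of_nonneg_left l1 (show 0 ≤ C / θ ^ 2 / q⁻¹ ^ 6 by positivity)
  have e3 : C / θ ^ 2 / q⁻¹ ^ 6 * ((b - (b - q⁻¹ ^ 2)) * (1 / (4 * B))) =
      C / θ ^ 2 * (1 / (4 * B)) * P b x := by rw [← q4]; field_simp; ring
  rw [e3] at l2
  have l3 : A * (C / θ ^ 2) * (1 / (4 * B)) ≤ 1 / 4 := by
    rw [mul_one_div, div_le_div_iff₀ (by positivity) (by norm_num)]; linarith
  have l4 : A * (θ * (16 * P b x)) = P b x / 4 := by rw [← mul_assoc, Aθ]; ring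
  have l5 := mul_le_mul_of_nonneg_right l3 Pb.le
  have l6 := mul_le_mul_of_nonneg_left l2 (show 0 ≤ A by linarith)
  nlinarith

end Crest.Agent.N207.E

end
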