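import Crest.Agent.N207.E.Reg2

/-! Block E (helper10): the ε-regularity theorem `eReg`. -/

set_option autoImplicit false
set_option linter.dupNamespace false
set_option linter.unusedSectionVars false
open Set MeasureTheory Filter Topology
open scoped ContDiff

noncomputable section

namespace Crest.Agent.N207

namespace E

universe v

variable {M : Type v} [TopologicalSpace M] [CompactSpace M] [MeasurableSpace M]
  [OpensMeasurableSpace M] {H : HC M}

/-- time integrability of integrals over a fixed ball -/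
theorem ball_ii (hA : H.Alg) (hI : H.Intg) (hD : H.Dist) {a b : ℝ} (st : H.St a b)
    {F : ℝ → M → ℝ} (sF : H.Sm a b F) (F0 : ∀ σ ∈ Icc a b, ∀ z, 0 ≤ F σ z) {t : ℝ}
    (ht : t ∈ Ioo 0 H.T) (x : M) (r : ℝ) :
    IntervalIntegrable (fun σ => ∫ z in H.B t x r, F σ z ∂H.vol σ) volume a b := by
  have ep : ∀ n : ℕ, (0 : ℝ) < 1 / (n + 1) := fun n => by positivity
  choose f sf _ af using fun n : ℕ => hD.approx t ht x _ (ep n)
  set φ : ℕ → M → ℝ := fun n z => psi ((f n z - (r - 3 * (1 / (n + 1)))) / (1 / (n + 1))) with hφ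
  have sφ : ∀ n, H.S0 (φ n) := fun n => by
    have := hA.s0_compU (cd_aff psi_cd (r - 3 * (1 / (n + 1))) (1 / (n + 1))) (sf n)
    exact this
  have mB := ball_meas hD ht x r
  have iF : ∀ σ ∈ Icc a b, Integrable (F σ) (H.vol σ) := fun σ hσ =>
    hA.integrable hI (st.mem hσ) (hA.sm_s0 sF σ hσ)
  rw [intervalIntegrable_iff_integrableOn_Icc_of_le st.2.1.le]
  refine Integrable.mono' (hA.int_cont hI st sF).integrableOn_Icc ?_ ?_
  · refine aestronglyMeasurable_of_tendsto_ae atTop (f := fun n σ => ∫ z, φ n z * F σ z ∂H.vol σ)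
      (fun n => (hA.int_cont hI st (hA.sm_mul (hA.sm_static (sφ n)) sF)).aestronglyMeasurable
        measurableSet_Icc) ?_
    filter_upwards [ae_restrict_mem measurableSet_Icc] with σ hσ
    rw [← integral_indicator mB]
    refine tendsto_integral_of_dominated_convergence (F σ) (fun n => (hA.integrable hI (st.mem hσ)
      (hA.s0_mul (sφ n) (hA.sm_s0 sF σ hσ))).aestronglyMeasurable) (iF σ hσ)
      (fun n => Eventually.of_forall fun z => ?_) (Eventually.of_forall fun z => ?_)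
    · rw [Real.norm_of_nonneg (mul_nonneg (psi_nonneg _) (F0 σ hσ z))]
      exact mul_le_of_le_one_left (F0 σ hσ z) (psi_le_one _)
    · by_cases hz : z ∈ H.B t x r
      · have h1 : H.d t x z < r := hz
        rw [indicator_of_mem hz]
        refine tendsto_const_nhds.congr' ?_
        filter_upwards [(tendsto_one_div_add_atTop_nhds_zero_nat (𝕜 := ℝ)).eventually
          (gt_mem_nhds (show 0 < (r - H.d t x z) / 3 by linarith))] with n hn
        have : φ n z = 1 := psi_one (by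
          rw [div_le_one (ep n)]; linarith [(abs_le.1 (af n z)).2])
        rw [this, one_mul]
      · have h1 : r ≤ H.d t x z := not_lt.1 hz
        rw [indicator_of_notMem hz]
        refine tendsto_const_nhds.congr fun n => ?_
        have : φ n z = 0 := psi_zero (by
          rw [le_div_iff₀ (ep n)]; linarith [(abs_le.1 (af n z)).1])
        rw [this, zero_mul]
  · filter_upwards [ae_restrict_mem measurableSet_Icc] with σ hσ
    rw [Real.norm_of_nonneg (integral_nonneg (F0 σ hσ))]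
    exact setIntegral_le_integral (iF σ hσ) (Eventually.of_forall (F0 σ hσ))

lemma fin_div {e r x c D : ℝ} {n N : ℕ} (e0 : 0 < e) (e1 : e ≤ 1) (r0 : 0 < r) (hn : n ≤ N)
    (hc : 0 ≤ c) (hD : 0 ≤ D) (h : (e * r) ^ n * x ≤ c * D) : x ≤ (c / e ^ N + 1) * D / r ^ n := by
  have := rescale e0 e1 hn (mul_nonneg hc hD) h
  rw [le_div_iff₀ (by positivity), add_mul, div_mul_eq_mul_div]
  linarith

end E

namespace HC

open E

variable {M : Type*} [TopologicalSpace M] [CompactSpace M] [MeasurableSpace M]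
  [OpensMeasurableSpace M] {H : HC M}

/-- **ε-regularity** -/
theorem eReg' (h : H.Ok) (hK : H.KerC) (hup : H.DistUp) (hV : H.VolUp) (hF : H.Flux)
    (hP : H.EPers) : H.EReg := by
  intro t0 h0
  obtain ⟨C, hC, ker⟩ := hK (t0 / 2) (by positivity)
  have hU : H.UC (t0 / 2) C := fun ha hs hv pv s ht y =>
    ⟨h.alg.conj_nonneg h.evo hs hv pv s (Ico_subset_Icc_self ht) y, ker ha hs hv pv s ht y⟩
  obtain ⟨A, A0, hA'⟩ := hup (t0 / 2) (by positivity)
  obtain ⟨ε0, c1, r1, ε00, c10, r10, p1⟩ := reg1 h h0 hC.le hU A0 hA' hP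
  obtain ⟨hA, hI, hE, hS, hD, -, -, -⟩ := h
  obtain ⟨Cv, Cv0, up⟩ := hV t0 h0
  obtain ⟨δ0, δ00, δ01, win⟩ := exists_win hA hE hS hD
  obtain ⟨μ, μ0, μ1, μ2⟩ : ∃ μ : ℝ, 0 < μ ∧ μ ≤ 1 ∧ μ * (16 * A) ≤ 1 :=
    ⟨min 1 (1 / (16 * A)), by positivity, min_le_left _ _,
      (le_div_iff₀ (by positivity)).1 (min_le_right _ _)⟩
  obtain ⟨δ, δp, δ1, δ2, δ3⟩ : ∃ δ : ℝ, 0 < δ ∧ δ ≤ δ0 ∧ δ ≤ c1 ∧ δ ≤ t0 / 2 :=
    ⟨min δ0 (min c1 (t0 / 2)), by positivity, min_le_left _ _,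
      (min_le_right _ _).trans (min_le_left _ _), (min_le_right _ _).trans (min_le_right _ _)⟩
  have e0 : 0 < δ * μ / 4 := by positivity
  have e1 : δ * μ ≤ δ := mul_le_of_le_one_right δp.le μ1
  have e2 : 32 * (δ * μ / 4) ^ 2 ≤ δ := by nlinarith
  have e7 : δ * μ / 4 ≤ 1 / 4 := by linarith
  have m1 : min r1 1 ≤ 1 := min_le_right _ _
  have m0 : 0 < min r1 1 := by positivity
  refine ⟨ε0, (δ * μ / 4) ^ 2, min r1 1, ε00, by positivity, m0, ?_, fun k => ?_⟩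
  · have : min r1 1 ^ 2 ≤ 1 := by nlinarith
    nlinarith [mul_le_mul_of_nonneg_left this (sq_nonneg (δ * μ / 4))]
  obtain ⟨C1, C10, q1⟩ := p1 (k + 1)
  obtain ⟨C2, C20, ene⟩ := energy hA hI hE hD hF Cv0.le C10
  obtain ⟨KN, KN0, lN⟩ := lin hA hI hE hS hC.le hU (famN hA hE) k C10
  obtain ⟨KQ, KQ0, lQ⟩ := lin hA hI hE hS hC.le hU (famQ hA hE) k C10
  refine ⟨(KN * (1 + C2) + C1 + KQ) / (δ * μ / 4) ^ (6 + 2 * k) + 1, by positivity, ?_⟩
  intro t ht x r r0 rr en y hy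
  have tm : t ∈ Ioo 0 H.T := ⟨h0.trans_le ht.1, ht.2⟩
  obtain ⟨ρ, rfl⟩ : ∃ ρ, r = 4 * ρ := ⟨r / 4, by ring⟩
  have ρ0 : 0 < ρ := by linarith
  have ρ1 : ρ ≤ 1 := by linarith
  have ρ2 : ρ ^ 2 ≤ 1 := by nlinarith
  have p2 : 0 < ρ ^ 2 := by positivity
  have hy' : H.d t x y < 2 * ρ := by have : H.d t x y < 4 * ρ / 2 := hy; linarith
  have sub : ∀ z ∈ H.B t y ρ, H.B t z ρ ⊆ H.B t x (4 * ρ) := fun z hz q hq => by
    have h1 : H.d t y z < ρ := hz
    have h2 : H.d t z q < ρ := hq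
    show H.d t x q < 4 * ρ
    linarith [hD.tri t tm x y q, hD.tri t tm y z q]
  have yB : y ∈ H.B t y ρ := by show H.d t y y < ρ; rwa [hD.self t tm]
  obtain ⟨w, hw⟩ : ∃ w, w = (δ * (μ * ρ)) ^ 2 := ⟨_, rfl⟩
  have e3 : (δ * μ / 4) ^ 2 * (4 * ρ) ^ 2 = w := by rw [hw]; ring
  have w0 : 0 < w := by rw [hw]; positivity
  have e4 : 2 * w ≤ δ * ρ ^ 2 := by
    rw [← e3]; linarith [mul_le_mul_of_nonneg_right e2 p2.le]
  have e5 : δ * ρ ^ 2 ≤ c1 * ρ ^ 2 := mul_le_mul_of_nonneg_right δ2 p2.le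
  have e6 : δ * ρ ^ 2 ≤ δ := mul_le_of_le_one_right δp.le ρ2
  have e8 : δ * ρ ^ 2 ≤ ρ ^ 2 := mul_le_of_le_one_left p2.le (by linarith)
  have rg : Rg H t y ρ (2 * w) (k + 1) C1 := fun z hz σ hσ hs =>
    q1 t ht z ρ ρ0 (by linarith [min_le_left r1 1]) ((en_mono hA hI hE tm (sub z hz)).trans en)
      σ hσ (by linarith)
  obtain ⟨χ, sc, eχ⟩ := ene ht.2 ρ0 ρ1 (by linarith) (by linarith) (by linarith [ht.1])
    (up t ht y ρ ρ0) rg
  have W : ∀ s < H.T, |s - t| ≤ w → ∃ u, Win H (s - w) s u ∧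
      Adm (s - w) s (μ * ρ) u s y (δ * μ / 4 * (4 * ρ)) ∧ ∀ σ ∈ Icc (s - w) s, ∀ z,
        u σ z ≤ μ * ρ → 1 ≤ χ z ∧ ∀ i ≤ k, ρ ^ (4 + 2 * i) * H.N i σ z ≤ C1 := by
    intro s hs hst
    have ab := abs_le.1 hst
    have l0 : 0 < μ * ρ := by positivity
    obtain ⟨u, W, ad, sp⟩ := win A0 hA' δp δ1 (l := μ * ρ) (s := s) l0 (by positivity)
      (by linarith [ht.1]) hs y
    rw [← hw] at W ad sp
    refine ⟨u, W, by rwa [show δ * μ / 4 * (4 * ρ) = δ * (μ * ρ) by ring], fun σ hσ z hz => ?_⟩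
    have d1 := sp σ hσ z (by linarith) t (by linarith) (by linarith) ht.2
    have d2 : H.d t y z ≤ ρ / 4 := by linarith [mul_le_mul_of_nonneg_right μ2 ρ0.le]
    exact ⟨(sc.one z d2).ge, fun i hi => (rg z (show H.d t y z < ρ by linarith) σ (W.st.mem hσ)
      (abs_le.2 ⟨by linarith [hσ.1], by linarith [hσ.2]⟩) i (hi.trans k.le_succ)).1⟩
  have c0 : 0 ≤ KN * (1 + C2) + C1 + KQ := by positivity
  have k0 : 0 ≤ KN * (1 + C2) := by positivity
  rw [e3]
  refine ⟨fun s hs hst => ⟨?_, ?_⟩, ?_⟩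
  · obtain ⟨u, W, ad, hq⟩ := W s hs.2 hst
    have ab := abs_le.1 hst
    have := (lN W (by linarith [ht.1]) ρ0 (by linarith) (hA.sm_static sc.s0) (fun _ _ => sc.nn) hq
      k le_rfl s y _ ad).2 _ fun σ hσ => eχ σ (W.st.mem hσ)
        (abs_le.2 ⟨by linarith [hσ.1], by linarith [hσ.2]⟩)
    have n0 := en_nonneg hE tm x (4 * ρ)
    have n1 := en_mono hA hI hE tm (sub y yB)
    refine fin_div e0 (by linarith) r0 (by omega) c0 (by linarith) (this.trans ?_)
    have n2 : H.en t y ρ + C2 * ρ ≤ (1 + C2) * (H.en t x (4 * ρ) + 4 * ρ) := by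
      nlinarith [mul_nonneg C20 n0, mul_nonneg C20 ρ0.le]
    calc _ ≤ KN * ((1 + C2) * (H.en t x (4 * ρ) + 4 * ρ)) := mul_le_mul_of_nonneg_left n2 KN0
      _ = KN * (1 + C2) * (H.en t x (4 * ρ) + 4 * ρ) := by ring
      _ ≤ _ := mul_le_mul_of_nonneg_right (by linarith) (by linarith)
  · have a1 := (rg y yB s hs (by linarith) k k.le_succ).2
    have a2 : (δ * μ / 4 * (4 * ρ)) ^ (2 + 2 * k) ≤ ρ ^ (2 + 2 * k) :=
      pow_le_pow_left₀ (by positivity) (by linarith [mul_le_mul_of_nonneg_right e7 ρ0.le]) _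
    have a3 := (mul_le_mul_of_nonneg_right a2 (hE.Q_nonneg k s hs y)).trans a1
    have := fin_div (N := 6 + 2 * k) e0 (by linarith) r0 (by omega) c0 zero_le_one
      (a3.trans (by linarith))
    rwa [mul_one] at this
  · obtain ⟨u, W, ad, hq⟩ := W t ht.2 (by simpa using w0.le)
    have a1 := (lQ W (by linarith [ht.1]) ρ0 (by linarith) (hA.sm_static sc.s0) (fun _ _ => sc.nn)
      hq k le_rfl t y _ ad).1
    have Q0 := fun σ (hσ : σ ∈ Icc (t - w) t) => hE.Q_nonneg 0 σ (W.st.mem hσ)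
    have a2 := intervalIntegral.integral_mono_on W.st.2.1.le
      ((hA.int_cont hI W.st (hA.sm_mul (hA.sm_static sc.s0) (hA.sm_Q 0 W.st))
        ).intervalIntegrable_of_Icc W.st.2.1.le)
      (ball_ii hA hI hD W.st (hA.sm_Q 0 W.st) Q0 tm x (4 * ρ)) fun σ hσ =>
        int_cut_le (ball_meas hD tm x (4 * ρ))
          (hA.integrable hI (W.st.mem hσ) (hA.s0_Q (W.st.mem hσ) 0)) (Q0 σ hσ) sc.nn sc.le
          fun z hz => sc.out z fun h' => hz (sub y yB h')
    have I0 : 0 ≤ ∫ s in (t - w)..t, ∫ z in H.B t x (4 * ρ), H.Q 0 s z ∂H.vol s :=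
      intervalIntegral.integral_nonneg W.st.2.1.le fun σ hσ => integral_nonneg (Q0 σ hσ)
    rw [div_mul_eq_mul_div]
    exact fin_div e0 (by linarith) r0 le_rfl c0 I0 (a1.trans
      ((mul_le_mul_of_nonneg_left a2 KQ0).trans (mul_le_mul_of_nonneg_right (by linarith) I0)))

theorem eReg (h : H.Ok) (hC : H.COut) (hD : H.DOut) (hP : H.EPers) : H.EReg :=
  eReg' h hC.kerC hC.dup hC.up hD.flux hP

end HC

end Crest.Agent.N207

end
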