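import Crest.Agent.N207.E.Tower
import Crest.Agent.N207.C.Stmt
import Crest.Agent.N207.C.Lip

/-! Block E (helper10): windows, and the first pass of the ε-regularity theorem. -/

set_option autoImplicit false
set_option linter.dupNamespace false
set_option linter.unusedSectionVars false
open Set MeasureTheory Filter Topology
open scoped ContDiff

noncomputable section

namespace Crest.Agent.N207.E

universe v

variable {M : Type v} [TopologicalSpace M] [CompactSpace M] [MeasurableSpace M]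
  [OpensMeasurableSpace M] {H : HC M}

lemma ball_meas (hD : H.Dist) {t : ℝ} (ht : t ∈ Ioo 0 H.T) (x : M) (r : ℝ) :
    MeasurableSet (H.B t x r) :=
  (isOpen_lt (hD.cont t ht x) continuous_const).measurableSet

lemma ball_sub (hD : H.Dist) {t : ℝ} (ht : t ∈ Ioo 0 H.T) {x y : M} {r : ℝ}
    (hy : y ∈ H.B t x (r / 2)) : H.B t y (r / 2) ⊆ H.B t x r := fun z hz => by
  have := hD.tri t ht x y z
  have h1 : H.d t x y < r / 2 := hy
  have h2 : H.d t y z < r / 2 := hz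
  show H.d t x z < r
  linarith

lemma en_mono (hA : H.Alg) (hI : H.Intg) (hE : H.Evo) {t : ℝ} (ht : t ∈ Ioo 0 H.T) {x y : M}
    {r ρ : ℝ} (h : H.B t y ρ ⊆ H.B t x r) : H.en t y ρ ≤ H.en t x r :=
  setIntegral_mono_set (hA.integrable hI ht (hA.s0_N ht 0)).integrableOn
    (Eventually.of_forall fun z => hE.N_nonneg 0 t ht z) h.eventuallyLE

lemma en_nonneg (hE : H.Evo) {t : ℝ} (ht : t ∈ Ioo 0 H.T) (x : M) (r : ℝ) : 0 ≤ H.en t x r :=
  integral_nonneg fun z => hE.N_nonneg 0 t ht z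

/-- a cut-off integral is below the integral over a set containing the support -/
lemma int_cut_le {μ : Measure M} {S : Set M} (hS : MeasurableSet S) {Φ P : M → ℝ}
    (iP : Integrable P μ) (P0 : ∀ z, 0 ≤ P z) (Φ0 : ∀ z, 0 ≤ Φ z) (Φ1 : ∀ z, Φ z ≤ 1)
    (h : ∀ z, z ∉ S → Φ z = 0) : ∫ z, Φ z * P z ∂μ ≤ ∫ z in S, P z ∂μ := by
  rw [← integral_indicator hS]
  refine integral_mono_of_nonneg (Eventually.of_forall fun z => mul_nonneg (Φ0 z) (P0 z))
    (iP.indicator hS) (Eventually.of_forall fun z => ?_)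
  by_cases hz : z ∈ S
  · simpa [hz] using mul_le_of_le_one_left (P0 z) (Φ1 z)
  · simp [hz, h z hz]

/-- a nonnegative function bounded by `m` and supported in `S` -/
lemma int_le_vol {μ : Measure M} [IsFiniteMeasure μ] {S : Set M} (hS : MeasurableSet S)
    {g : M → ℝ} {m : ℝ} (g0 : ∀ z, 0 ≤ g z) (h1 : ∀ z ∈ S, g z ≤ m) (h2 : ∀ z, z ∉ S → g z = 0) :
    ∫ z, g z ∂μ ≤ m * μ.real S := by
  have : ∫ z, S.indicator (fun _ => m) z ∂μ = m * μ.real S := by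
    rw [integral_indicator hS]; simp [mul_comm]
  rw [← this]
  refine integral_mono_of_nonneg (Eventually.of_forall g0) ((integrable_const m).indicator hS)
    (Eventually.of_forall fun z => ?_)
  by_cases hz : z ∈ S
  · simpa [hz] using h1 z hz
  · simp [hz, h2 z hz]

/-- upper distance distortion from time `t1` on, with constant `A` -/
def DU (H : HC M) (t1 A : ℝ) : Prop :=
  ∀ s t : ℝ, t1 ≤ s → s ≤ t → t < H.T → ∀ x y, H.d t x y ≤ A * (H.d s x y + √(t - s))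

/-- the standard window at the point `(s,y)` -/
theorem exists_win (hA : H.Alg) (hE : H.Evo) (hS : H.Solv) (hD : H.Dist) :
    ∃ δ0, 0 < δ0 ∧ δ0 ≤ 1 / 2 ∧ ∀ {t1 A δ l s : ℝ}, 0 < A → DU H t1 A → 0 < δ → δ ≤ δ0 → 0 < l →
      0 < t1 → t1 ≤ s - (δ * l) ^ 2 → s < H.T → ∀ y, ∃ u, Win H (s - (δ * l) ^ 2) s u ∧
        Adm (s - (δ * l) ^ 2) s l u s y (δ * l) ∧ ∀ σ ∈ Icc (s - (δ * l) ^ 2) s, ∀ z,
          u σ z ≤ 2 * l → ∀ τ, s - (δ * l) ^ 2 ≤ τ → τ ≤ s + (δ * l) ^ 2 → τ < H.T →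
            H.d τ y z ≤ 4 * A * l := by
  obtain ⟨C, hC, h⟩ := hA.exists_lipheat hE hS hD
  refine ⟨min (1 / 2) (1 / (8 * C)), by positivity, min_le_left _ _, ?_⟩
  intro t1 A δ l s A0 hU δ0 δ1 l0 t10 h1 h2 y
  have d1 : δ ≤ 1 / 2 := δ1.trans (min_le_left _ _)
  have d2 : δ * (8 * C) ≤ 1 := (le_div_iff₀ (by positivity)).1 (δ1.trans (min_le_right _ _))
  have e0 : 0 < δ * l := by positivity
  have e2 : 0 < (δ * l) ^ 2 := by positivity
  set a := s - (δ * l) ^ 2 with ha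
  have st : H.St a s := ⟨by linarith, by linarith, h2⟩
  obtain ⟨u, hu, lip, -, -, cl, -⟩ := h st y (l / 8) (by positivity)
  have cl' : ∀ σ ∈ Icc a s, ∀ z, |u σ z - H.d a y z| ≤ l / 4 := fun σ hσ z => by
    have : √(σ - a) ≤ δ * l := by rw [Real.sqrt_le_left e0.le]; linarith [hσ.2]
    have := mul_le_mul_of_nonneg_left this hC.le
    nlinarith [cl σ hσ z]
  have sm : s ∈ Icc a s := right_mem_Icc.2 st.2.1.le
  refine ⟨u, ⟨st, hu, lip⟩, ⟨sm, e0, ?_, by linarith⟩, fun σ hσ z hz τ a1 a2 a3 => ?_⟩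
  · have := (abs_le.1 (cl' s sm y)).2
    rw [hD.self a (st.mem (left_mem_Icc.2 st.2.1.le))] at this
    nlinarith
  · have b1 := (abs_le.1 (cl' σ hσ z)).1
    have b2 : √(τ - a) ≤ l := by
      rw [Real.sqrt_le_left l0.le]
      have : δ ^ 2 ≤ 1 / 4 := by nlinarith
      nlinarith [mul_le_mul_of_nonneg_right this (sq_nonneg l)]
    have := hU a τ h1 a1 a3 y z
    nlinarith

lemma Fam.sub0 {P : ℕ → ℝ → M → ℝ} (F : Fam H P) : ∃ C, 0 ≤ C ∧ ∀ {a b : ℝ} {P' : ℝ → M → ℝ},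
    H.St a b → HasDt a b (P 0) P' → ∀ t ∈ Icc a b, ∀ x,
      P' t x - H.lap t (P 0 t) x ≤ C * √(H.N 0 t x) * P 0 t x - 2 * P 1 t x := by
  obtain ⟨C, hC, h⟩ := F.dt 0
  refine ⟨C, hC, fun st d t ht x => ?_⟩
  have := (le_abs_self _).trans (h st d t ht x)
  simp only [zero_add, Finset.range_one, Finset.sum_singleton, Nat.sub_zero] at this
  rw [mul_assoc √_, Real.mul_self_sqrt (F.nn 0 t (st.mem ht) x)] at this
  linarith

lemma Fam.loc {P : ℕ → ℝ → M → ℝ} (F : Fam H P) {a b L : ℝ} {u Φ P' : ℝ → M → ℝ}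
    (W : Win H a b u) (sΦ : H.Sm a b Φ) (Φ0 : ∀ t ∈ Icc a b, ∀ y, 0 ≤ Φ t y)
    (Φ1 : ∀ t ∈ Icc a b, ∀ y, u t y ≤ L → 1 ≤ Φ t y) (d : HasDt a b (P 0) P') :
    Loc H a b L u Φ (P 0) P' (P 1) :=
  ⟨W.st, W.heat, W.lip, sΦ, Φ0, Φ1, F.sm 0 W.st, d, fun t ht => F.nn 0 t (W.st.mem ht),
    fun t ht => F.nn 1 t (W.st.mem ht), fun t ht => F.kato 0 t (W.st.mem ht)⟩

lemma psi_div_cd (l : ℝ) : ContDiff ℝ ∞ fun s : ℝ => psi (s / l) :=
  psi_cd.comp (contDiff_id.div_const l)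

lemma rescale {e r x C : ℝ} {n N : ℕ} (e0 : 0 < e) (e1 : e ≤ 1) (hn : n ≤ N) (hC : 0 ≤ C)
    (h : (e * r) ^ n * x ≤ C) : r ^ n * x ≤ C / e ^ N := by
  have h1 : r ^ n * x ≤ C / e ^ n := by
    rw [le_div_iff₀ (by positivity)]; rw [mul_pow] at h; linarith
  exact h1.trans (div_le_div_of_nonneg_left hC (by positivity) (pow_le_pow_of_le_one e0.le e1 hn))

/-- the conclusion of the first pass -/
def R1 (H : HC M) (t0 ε0 c r0 : ℝ) : Prop :=
  ∀ k : ℕ, ∃ C, 0 ≤ C ∧ ∀ t ∈ Ico t0 H.T, ∀ y r, 0 < r → r ≤ r0 → H.en t y r ≤ ε0 →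
    ∀ s ∈ Ioo 0 H.T, |s - t| ≤ c * r ^ 2 → ∀ i ≤ k,
      r ^ (4 + 2 * i) * H.N i s y ≤ C ∧ r ^ (2 + 2 * i) * H.Q i s y ≤ C

/-- **first pass** -/
theorem reg1 (h : H.Ok) {t0 C A : ℝ} (h0 : 0 < t0) (hC : 0 ≤ C) (hU : H.UC (t0 / 2) C) (A0 : 0 < A)
    (hA' : DU H (t0 / 2) A) (hP : H.EPers) :
    ∃ ε0 c r0, 0 < ε0 ∧ 0 < c ∧ 0 < r0 ∧ R1 H t0 ε0 c r0 := by
  obtain ⟨hA, hI, hE, hS, hD, -, -, -⟩ := h
  obtain ⟨C0, hC0, sub⟩ := (famN hA hE).sub0
  obtain ⟨ε1, ε10, reg⟩ := eps_reg0 hA hI hS hC hU hC0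
  obtain ⟨c', lam, r', c0, lam0, r'0, pers⟩ := hP t0 h0 (ε1 / 2) (by positivity)
  obtain ⟨δ0, δ00, δ01, win⟩ := exists_win hA hE hS hD
  set μ := min 1 (lam / (8 * A)) with hμ
  have μ0 : 0 < μ := by positivity
  have μ1 : μ ≤ 1 := min_le_left _ _
  have μ2 : μ * (8 * A) ≤ lam := (le_div_iff₀ (by positivity)).1 (min_le_right _ _)
  set δ := min δ0 (min c' (t0 / 2)) with hδ
  have δp : 0 < δ := by positivity
  have δ1 : δ ≤ δ0 := min_le_left _ _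
  have δ2 : δ ≤ c' := (min_le_right _ _).trans (min_le_left _ _)
  have δ3 : δ ≤ t0 / 2 := (min_le_right _ _).trans (min_le_right _ _)
  have e0 : 0 < δ * μ := by positivity
  have e1 : δ * μ ≤ δ := mul_le_of_le_one_right δp.le μ1
  have e2 : 2 * (δ * μ) ^ 2 ≤ δ := by nlinarith
  refine ⟨ε1 / 2, (δ * μ) ^ 2, min r' 1, by positivity, by positivity, by positivity, fun k => ?_⟩
  obtain ⟨B, hB, tN⟩ := towerN hA hE (B := 256) (by norm_num) k
  obtain ⟨D, hD0, r0⟩ := ric0 hA hE (B := 256) (by norm_num)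
  obtain ⟨B', hB', tQ⟩ := towerL hA hE (famQ hA hE) 2 hB k
  refine ⟨(B + B' * D) / (δ * μ) ^ (4 + 2 * k), by positivity, ?_⟩
  intro t ht y r r0' r1 en s hs hst i hi
  have r2 : r ≤ 1 := r1.trans (min_le_right _ _)
  have rr : r ^ 2 ≤ 1 := by nlinarith
  have p2 : 0 < r ^ 2 := by positivity
  have e3 : (δ * (μ * r)) ^ 2 = (δ * μ) ^ 2 * r ^ 2 := by ring
  have e4 : 2 * ((δ * μ) ^ 2 * r ^ 2) ≤ δ * r ^ 2 := by nlinarith
  have e5 : δ * r ^ 2 ≤ c' * r ^ 2 := by nlinarith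
  have e6 : δ * r ^ 2 ≤ t0 / 2 := by nlinarith
  have ab := abs_le.1 hst
  obtain ⟨u, W, ad, sp⟩ := win A0 hA' δp δ1 (l := μ * r) (s := s) (by positivity) (by positivity)
    (by linarith [ht.1]) hs.2 y
  obtain ⟨N', -, dN⟩ := hA.sm_dt W.st.2.1 (hA.sm_N 0 W.st)
  have l0 : 0 < μ * r := by positivity
  have n0 : ∀ t y η, Adm (s - (δ * (μ * r)) ^ 2) s (μ * r) u t y η → η ^ 4 * H.N 0 t y ≤ 256 :=
    fun τ z η ad => reg ((famN hA hE).loc W (hA.sm_compU (psi_div_cd (μ * r)) W.heat.1)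
      (fun _ _ _ => psi_nonneg _) (fun _ _ _ hl => (psi_one ((div_le_one l0).2 hl)).ge) dN)
      (by linarith [ht.1]) (fun σ hσ z _ => sub W.st dN σ hσ z) (fun σ hσ => by
        have hm := W.st.mem hσ
        have := pers t ht y r r0' (r1.trans (min_le_left _ _)) en σ hm
          (abs_le.2 ⟨by linarith [hσ.1], by linarith [hσ.2]⟩)
        refine (int_cut_le (ball_meas hD hm y (lam * r)) (hA.integrable hI hm (hA.s0_N hm 0))
          (hE.N_nonneg 0 σ hm) (fun _ => psi_nonneg _) (fun _ => psi_le_one _) fun z hz => ?_).trans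
          (this.trans (by linarith))
        refine psi_zero ((le_div_iff₀ l0).2 (not_lt.1 fun hl => hz ?_))
        have := sp σ hσ z hl.le σ hσ.1 (by nlinarith [hσ.2]) hm.2
        show H.d σ y z < lam * r
        nlinarith [mul_pos A0 l0]) τ ad.mem z η ad.pos.le ad.lev ad.tim
  have q1 := tN W n0 i hi s y _ ad
  have q2 := tQ W hD0 (tN W n0) (r0 W n0) i hi s y _ ad
  rw [← mul_assoc] at q1 q2
  have BD : 0 ≤ B' * D := by positivity
  have e7 : δ * μ ≤ 1 := by linarith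
  exact ⟨rescale e0 e7 (by omega) (by positivity) (by linarith),
    rescale e0 e7 (by omega) (by positivity) (by linarith)⟩

end Crest.Agent.N207.E

end
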