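import Crest.Agent.N207.E.St2
import Crest.Agent.N207.E.Reg1
import Crest.Agent.N207.C.DistUp
import Crest.Agent.N207.D.QLoc
import Crest.Agent.N207.D.Pers

/-!
# Row 207, block E (helper65): backward static persistence
-/

set_option autoImplicit false
set_option linter.dupNamespace false
set_option linter.unusedSectionVars false
open Set MeasureTheory Filter Topology
open scoped ContDiff

noncomputable section

namespace Crest.Agent.N207

namespace StB

variable {M : Type*} [TopologicalSpace M] [CompactSpace M] [MeasurableSpace M]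
  [OpensMeasurableSpace M] {H : HC M}

/-- one of `J` annuli has small energy -/
theorem pigeon (h : H.Ok) {s : ℝ} (hs : s ∈ Ioo 0 H.T) (x : M) {E ε l : ℝ} {J : ℕ}
    (hE : ∫ y, H.N 0 s y ∂H.vol s ≤ E) (hJ : E < J * ε) (hl : 0 < l) :
    ∃ j < J, ∀ y, 2 * (4 ^ j * l) ≤ H.d s x y → H.d s x y ≤ 3 * (4 ^ j * l) →
      H.en s y (4 ^ j * l) ≤ ε := by
  have iN := h.alg.integrable h.int hs (h.alg.s0_N hs 0)
  have n0 : 0 ≤ᵐ[H.vol s] H.N 0 s := Eventually.of_forall fun z => h.evo.N_nonneg 0 s hs z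
  by_contra hc
  push Not at hc
  have key : ∀ n ≤ J, n * ε ≤ H.en s x (4 ^ n * l) := fun n => by
    induction n with
    | zero => intro _; simpa using HC.en_nonneg h.evo hs x l
    | succ n ih =>
      intro hn
      obtain ⟨y, y1, y2, y3⟩ := hc n hn
      have p : 0 < 4 ^ n * l := by positivity
      have dj : Disjoint (H.B s x (4 ^ n * l)) (H.B s y (4 ^ n * l)) :=
        disjoint_left.2 fun w (h1 : _ < 4 ^ n * l) (h2 : _ < 4 ^ n * l) => by
          have a := h.dist.tri s hs x w y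
          rw [h.dist.symm s hs w] at a
          linarith
      have e := setIntegral_union (μ := H.vol s) (f := H.N 0 s) dj (D.meas_B h.dist hs _ _)
        iN.integrableOn iN.integrableOn
      have sub : H.B s x (4 ^ n * l) ∪ H.B s y (4 ^ n * l) ⊆ H.B s x (4 ^ (n + 1) * l) := by
        rintro w (h1 | h1)
        · refine HC.B_mono2 s x ?_ h1
          rw [pow_succ]; linarith
        · have a := h.dist.tri s hs x y w
          have b : H.d s y w < _ := h1
          show H.d s x w < _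
          rw [pow_succ]; linarith
      have m := setIntegral_mono_set (iN.integrableOn (s := H.B s x (4 ^ (n + 1) * l)))
        (ae_restrict_of_ae n0) sub.eventuallyLE
      have := ih (by omega)
      unfold HC.en at *
      push_cast
      linarith
  have := (key J le_rfl).trans ((setIntegral_le_integral iN n0).trans hE)
  linarith

/-- the shell `2h ≤ d s x · ≤ 3h` is regular on `[s,t]` -/
def Sh (H : HC M) (s t : ℝ) (x : M) (h C : ℝ) : Prop :=
  ∀ σ ∈ Icc s t, ∀ y, 2 * h ≤ H.d s x y → H.d s x y ≤ 3 * h →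
    √(H.N 0 σ y) ≤ C / h ^ 2 ∧ √(H.Q 0 σ y) ≤ C / h ∧ √(H.Q 1 σ y) ≤ C / h ^ 2

/-- static cutoffs whose gradient lives in the regular shell -/
theorem cut_static (o : H.Ok) : ∃ G, 1 ≤ G ∧ ∀ {s t h C ρ : ℝ} {x : M}, H.St s t → 0 < h →
    0 ≤ C → Sh H s t x h C → 2 * C * (t - s) ≤ h → 2 * h ≤ ρ → ρ + h / 2 ≤ 3 * h →
    ∃ w, H.S0 w ∧ (∀ y, 0 ≤ w y) ∧ (∀ y, w y ≤ 1) ∧ (∀ y ∈ H.B s x ρ, w y = 1) ∧
      (∀ y, w y ≠ 0 → y ∈ H.B s x (ρ + h / 2)) ∧ ∀ σ ∈ Icc s t, ∀ y,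
        H.gam σ w w y ≤ (G / h) ^ 2 ∧
          (H.gam σ w w y ≠ 0 → 2 * h ≤ H.d s x y ∧ H.d s x y < 3 * h) := by
  have L0 := Sob.Lσ_pos
  refine ⟨1 + 192 * Sob.Lσ, by linarith, fun {s t h C ρ x} st hh hC sh hc h1 h2 => ?_⟩
  have ms : s ∈ Icc s t := left_mem_Icc.2 st.2.1.le
  obtain ⟨w, sw, w0, w1, w2, w3, w4⟩ :=
    HC.exists_cut o.alg o.dist (st.mem ms) x ρ (s := h / 2) (by positivity)
  have loc : ∀ σ ∈ Icc s t, ∀ y, H.gam σ w w y ≠ 0 → 2 * h ≤ H.d s x y ∧ H.d s x y < 3 * h :=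
    fun σ hσ y hy => by
      constructor
      · by_contra k
        refine hy (o.alg.at_max σ (st.mem hσ) sw (Eventually.of_forall fun z => ?_)).2
        rw [w2 y (show H.d s x y < ρ by linarith [not_le.1 k])]
        exact w1 z
      · by_contra k
        refine hy (o.alg.at_min (st.mem hσ) sw (Eventually.of_forall fun z => ?_)).2
        rw [(w3 y (show ¬H.d s x y < ρ + h / 2 by linarith [not_lt.1 k])).1]
        exact w0 z
  refine ⟨w, sw, w0, w1, w2, fun y hy => ?_, fun σ hσ y => ⟨?_, loc σ hσ y⟩⟩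
  · by_contra k; exact hy (w3 y k).1
  · by_cases k : H.gam σ w w y = 0
    · rw [k]; positivity
    obtain ⟨k1, k2⟩ := loc σ hσ y k
    refine (HC.gam_static o.alg o.evo st sw (fun τ hτ => (sh τ hτ y k1 k2.le).2.1) ms hσ).trans ?_
    have e1 : Real.exp (2 * (C / h) * |σ - s|) ≤ 3 := by
      refine le_trans (Real.exp_le_exp.2 ?_) Real.exp_one_lt_three.le
      rw [abs_of_nonneg (sub_nonneg.2 hσ.1)]
      calc _ = 2 * C * (σ - s) / h := by ring
        _ ≤ 2 * C * (t - s) / h := by gcongr; exact hσ.2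
        _ ≤ 1 := (div_le_one hh).2 hc
    calc _ ≤ 3 * (16 * Sob.Lσ / (h / 2) ^ 2) :=
          mul_le_mul e1 (w4 y) (o.alg.gam_nonneg s (st.mem ms) sw y) (by norm_num)
      _ = 192 * Sob.Lσ / h ^ 2 := by field_simp; ring
      _ ≤ _ := by rw [div_pow]; gcongr; nlinarith

/-- the inside of a regular shell has bounded diameter at the later time -/
theorem diam_le (o : H.Ok) (c : H.COut) {t0 : ℝ} (h0 : 0 < t0) : ∃ D, 0 < D ∧
    ∀ {s t h C : ℝ} {x : M}, t0 ≤ s → H.St s t → 0 < h → h ≤ 1 → 0 ≤ C → Sh H s t x h C →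
      2 * C * (t - s) ≤ h → ∀ y ∈ H.B s x (2 * h + h / 2), H.d t x y ≤ D * h := by
  obtain ⟨G, hG, hcut⟩ := cut_static o
  obtain ⟨κ, hκ, lo⟩ := c.lo t0 h0
  obtain ⟨Cv, hCv, up⟩ := c.up t0 h0
  obtain ⟨W, hW, vc⟩ := HC.vol_cmp o.int o.evo
  have G0 : 0 < G := by linarith
  refine ⟨162 * W * Cv * G ^ 3 / κ, by positivity,
    fun {s t h C x} hs st hh h1 hC sh hc y hy => ?_⟩
  have ms := st.mem (left_mem_Icc.2 st.2.1.le)
  have mt := st.mem (right_mem_Icc.2 st.2.1.le)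
  have := o.int.fin t mt
  obtain ⟨w, sw, -, -, w2, w3, w4⟩ :=
    hcut (ρ := 2 * h + h / 2) st hh hC sh hc (by linarith) (by linarith)
  obtain ⟨K, k1, k2, k3, k4⟩ := o.dist.conn s ms hy
  have p : 0 < h / G := by positivity
  have a := o.dist.pack mt (μ := H.vol t) (S := H.B s x (3 * h)) k1 k2 k3 p (by positivity)
    (fun z _ => lo t ⟨by linarith [st.2.1], mt.2⟩ z (h / G) ⟨p, by
      rw [div_le_one G0]; linarith⟩) fun z hz v hv => by
      have l := o.dist.lip t mt (o.alg.s0_cmul (h / G) sw) (x := z) (y := v) (r := h / G)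
        (fun u _ => by
          rw [o.alg.gam_cmul mt _ sw (o.alg.s0_cmul _ sw), o.alg.gam_cmul' mt _ sw sw]
          calc _ = (h / G) ^ 2 * H.gam t w w u := by ring
            _ ≤ (h / G) ^ 2 * (G / h) ^ 2 := by
                gcongr; exact (w4 t (right_mem_Icc.2 st.2.1.le) u).1
            _ = 1 := by field_simp) hv
      have b : H.d t z v < h / G := hv
      rw [w2 z (k4 z hz)] at l
      refine HC.B_mono2 s x (by linarith) (w3 v fun k => ?_)
      rw [k] at l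
      linarith [(abs_le.1 l).1]
  have b := (vc s ms t mt _).trans (mul_le_mul_of_nonneg_left
    (up s ⟨hs, ms.2⟩ x (3 * h) (by positivity)) hW.le)
  have e : H.d t x y * (κ * (h / G) ^ 4) ≤ 162 * W * Cv * G ^ 3 / κ * h * (κ * (h / G) ^ 4) :=
    a.trans ((mul_le_mul_of_nonneg_left b (by positivity)).trans_eq (by field_simp; ring))
  exact le_of_mul_le_mul_right e (by positivity)

/-- the energy inside a regular shell, backward in time -/
theorem en_back (o : H.Ok) (c : H.COut) (d : H.DOut) {t0 : ℝ} (h0 : 0 < t0) : ∃ D, 0 < D ∧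
    ∀ {s t h C r : ℝ} {x : M}, t0 ≤ s → H.St s t → 0 < h → h ≤ 1 → 0 ≤ C → Sh H s t x h C →
      2 * C * (t - s) ≤ h → D * h < r →
      H.en s x (2 * h) ≤ H.en t x r + D * (C ^ 2 * ((t - s) / h) + h) := by
  obtain ⟨G, hG, hcut⟩ := cut_static o
  obtain ⟨D1, hD1, hd⟩ := diam_le o c h0
  obtain ⟨Cv, hCv, up⟩ := c.up t0 h0
  obtain ⟨W, hW, vc⟩ := HC.vol_cmp o.int o.evo
  obtain ⟨Cq, hCq, hq⟩ := HC.qLoc o c d h0
  obtain ⟨Cf, hCf, fl⟩ := d.flux
  have G0 : 0 < G := by linarith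
  have x1 : 0 < 81 * Cf * G * W * Cv := by positivity
  refine ⟨D1 + 81 * Cf * G * W * Cv + 36 * Cq, by positivity,
    fun {s t h C r x} hs st hh h1 hC sh hc hr => ?_⟩
  have A := o.alg
  have I := o.int
  have ms := st.mem (left_mem_Icc.2 st.2.1.le)
  have mt := st.mem (right_mem_Icc.2 st.2.1.le)
  obtain ⟨w, sw, w0, w1, w2, w3, w4⟩ := hcut (ρ := 2 * h) st hh hC sh hc le_rfl (by linarith)
  have g1 : H.en s x (2 * h) ≤ _ := HC.setInt_le_wt o ms (HC.isOpen_B o.dist ms x _) sw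
    (A.s0_N ms 0) w0 (o.evo.N_nonneg 0 s ms) fun y hy => (w2 y hy).ge
  have g2 := D.wt_N_le A I ms sw w0
  have g3 := D.wt_Pf_le A I o.evo mt sw w0
  have g4 : _ ≤ H.en t x r := HC.wt_le_setInt o mt (HC.isOpen_B o.dist mt x _) sw
    (A.s0_N mt 0) w1 (o.evo.N_nonneg 0 t mt) fun y hy => by
      have := hd hs st hh h1 hC sh hc y (w3 y hy)
      show H.d t x y < r
      nlinarith [mul_pos x1 hh, mul_pos hCq hh]
  have g5 := (HC.wt_le_setInt o ms (HC.isOpen_B o.dist ms x (3 * h)) sw (A.s0_Q ms 0) w1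
    (o.evo.Q_nonneg 0 s ms) fun y hy => HC.B_mono2 s x (by linarith) (w3 y hy)).trans
    (hq s ⟨hs, ms.2⟩ x _ (by positivity))
  have g6 : |∫ y, w y * H.Pf t y ∂H.vol t - ∫ y, w y * H.Pf s y ∂H.vol s| ≤
      81 * Cf * G * W * Cv * C ^ 2 / h * |t - s| := by
    refine (fl st (A.sm_static sw) (HasDt.static w) s t le_rfl st.2.1.le le_rfl).trans
      ((Real.le_norm_self _).trans
        (intervalIntegral.norm_integral_le_of_norm_le_const fun σ hσ => ?_))
    rw [uIoc_of_le st.2.1.le] at hσ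
    have hσ' := Ioc_subset_Icc_self hσ
    have mσ := st.mem hσ'
    have := I.fin σ mσ
    rw [Real.norm_of_nonneg (integral_nonneg fun y => by positivity)]
    have z : ∀ y, H.gam σ w w y = 0 → |(0 : ℝ)| * |H.Pf σ y| +
        Cf * (√(H.gam σ w w y) * √(H.N 0 σ y) * √(H.Q 1 σ y)) = 0 := fun y hy => by
      simp [hy]
    refine (E.int_le_vol (D.meas_B o.dist ms x (3 * h))
      (m := Cf * (G / h * (C / h ^ 2) * (C / h ^ 2))) (fun y => by positivity)
      (fun y _ => ?_) fun y hy => z y ?_).trans ?_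
    · by_cases k : H.gam σ w w y = 0
      · rw [z y k]; positivity
      obtain ⟨k1, k2⟩ := (w4 σ hσ' y).2 k
      obtain ⟨b1, -, b3⟩ := sh σ hσ' y k1 k2.le
      have b2 : √(H.gam σ w w y) ≤ G / h :=
        Real.sqrt_le_iff.2 ⟨by positivity, (w4 σ hσ' y).1⟩
      rw [abs_zero, zero_mul, zero_add]
      gcongr
    · by_contra k; exact hy ((w4 σ hσ' y).2 k).2
    · have b := (vc s ms σ mσ _).trans (mul_le_mul_of_nonneg_left
        (up s ⟨hs, ms.2⟩ x (3 * h) (by positivity)) hW.le)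
      exact (mul_le_mul_of_nonneg_left b (by positivity)).trans_eq (by field_simp; ring)
  have p0 : 0 ≤ t - s := sub_nonneg.2 st.2.1.le
  rw [abs_of_nonneg p0] at g6
  have g7 := (abs_le.1 g6).1
  have e1 : 81 * Cf * G * W * Cv * C ^ 2 / h * (t - s) =
      81 * Cf * G * W * Cv * (C ^ 2 * ((t - s) / h)) := by ring
  have p1 : 0 ≤ C ^ 2 * ((t - s) / h) := by positivity
  have p2 : Cq * (3 * h) ^ 2 ≤ 9 * Cq * h := by nlinarith [mul_pos hCq hh]
  nlinarith [mul_nonneg hD1.le p1, mul_nonneg hCq.le p1, mul_pos hD1 hh, mul_pos x1 hh]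

end StB

namespace HC

variable {M : Type*} [TopologicalSpace M] [CompactSpace M] [MeasurableSpace M]
  [OpensMeasurableSpace M] {H : HC M}

/-- small energy at scale `r` persists backward for a time `c r` -/
theorem persB (o : H.Ok) (c : H.COut) (d : H.DOut) (hS : H.EStat) {t0 ε : ℝ} (h0 : 0 < t0)
    (hε : 0 < ε) : ∃ c lam r0 : ℝ, 0 < c ∧ 0 < lam ∧ lam ≤ 1 ∧ 0 < r0 ∧ r0 ≤ 1 ∧ c ≤ t0 / 2 ∧
      ∀ t ∈ Ico t0 H.T, ∀ x, ∀ r, 0 < r → r ≤ r0 → ∀ s ≤ t, t - s ≤ c * r →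
        H.en s x (lam * r) ≤ H.en t x r + ε := by
  obtain ⟨ε0, c1, r1, hε0, hc1, hr1, hst⟩ := hS (t0 / 2) (by linarith)
  obtain ⟨C0, hC0, h1⟩ := hst 0
  obtain ⟨C1, hC1, h2⟩ := hst 1
  obtain ⟨E, hE, hN, -⟩ := d.glob (t0 / 2) (by linarith)
  obtain ⟨D, hD, hb⟩ := StB.en_back o c d (half_pos h0)
  obtain ⟨J, hJ⟩ := exists_nat_gt (E / ε0)
  rw [div_lt_iff₀ hε0] at hJ
  obtain ⟨C, hC, c0, c1'⟩ : ∃ C, 0 < C ∧ C0 ≤ C ^ 2 ∧ C1 ≤ C ^ 2 :=
    ⟨1 + C0 + C1, by positivity, by nlinarith, by nlinarith⟩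
  obtain ⟨β, β0, β1, β2, β3, β4⟩ : ∃ β, 0 < β ∧ β ≤ c1 ∧ β * (2 * C) ≤ 1 ∧
      β * (2 * (D * C ^ 2)) ≤ ε ∧ β ≤ t0 / 2 :=
    ⟨min (min c1 (1 / (2 * C))) (min (ε / (2 * (D * C ^ 2))) (t0 / 2)), by positivity,
      (min_le_left _ _).trans (min_le_left _ _),
      (le_div_iff₀ (by positivity)).1 ((min_le_left _ _).trans (min_le_right _ _)),
      (le_div_iff₀ (by positivity)).1 ((min_le_right _ _).trans (min_le_left _ _)),
      (min_le_right _ _).trans (min_le_right _ _)⟩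
  obtain ⟨lam, l0, l1, l2⟩ : ∃ lam : ℝ, 0 < lam ∧ lam ≤ 1 ∧ (D + 1) * (4 ^ J * lam) = 1 := by
    refine ⟨1 / ((D + 1) * 4 ^ J), by positivity, ?_, by field_simp⟩
    rw [div_le_one (by positivity)]
    exact one_le_mul_of_one_le_of_one_le (by linarith) (one_le_pow₀ (by norm_num))
  have cl : β * lam ≤ t0 / 2 := (mul_le_of_le_one_right β0.le l1).trans β4
  refine ⟨β * lam, lam, min 1 (min r1 (ε / (2 * D))), by positivity, l0, l1, by positivity,
    min_le_left _ _, cl, fun t ht x r hr hr0 s hs hts => ?_⟩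
  have r1' : r ≤ 1 := hr0.trans (min_le_left _ _)
  have r2 : r ≤ r1 := hr0.trans ((min_le_right _ _).trans (min_le_left _ _))
  have r3 : r * (2 * D) ≤ ε :=
    (le_div_iff₀ (by positivity)).1 (hr0.trans ((min_le_right _ _).trans (min_le_right _ _)))
  have mt : t ∈ Ioo 0 H.T := ⟨h0.trans_le ht.1, ht.2⟩
  rcases hs.eq_or_lt with rfl | hs'
  · have := en_mono_set o mt (B_mono2 s x (mul_le_of_le_one_left hr.le l1))
    linarith
  have s0 : t0 / 2 ≤ s := by
    have : β * lam * r ≤ β * lam := mul_le_of_le_one_right (by positivity) r1'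
    linarith [ht.1]
  have st : H.St s t := ⟨by linarith, hs', ht.2⟩
  have ms : s ∈ Ico (t0 / 2) H.T := ⟨s0, hs'.trans ht.2⟩
  have ms' := st.mem (left_mem_Icc.2 hs)
  obtain ⟨j, hj, hp⟩ := StB.pigeon o ms' x (hN s ms) hJ (mul_pos l0 hr)
  obtain ⟨h, eh⟩ : ∃ h, h = 4 ^ j * (lam * r) := ⟨_, rfl⟩
  rw [← eh] at hp
  have q1 : lam * r ≤ h := by
    rw [eh]; exact le_mul_of_one_le_left (by positivity) (one_le_pow₀ (by norm_num))
  have hh : 0 < h := lt_of_lt_of_le (by positivity) q1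
  have q2 : (D + 1) * h ≤ r := by
    calc _ ≤ (D + 1) * (4 ^ J * (lam * r)) := by
          rw [eh]; gcongr; norm_num
      _ = (D + 1) * (4 ^ J * lam) * r := by ring
      _ = r := by rw [l2, one_mul]
  have q3 : h ≤ r := by nlinarith [mul_pos hD hh]
  have q4 : t - s ≤ β * h := hts.trans (by rw [mul_assoc]; gcongr)
  have sh : StB.Sh H s t x h C := fun σ hσ y y1 y2 => by
    have hy : y ∈ H.B s y (h / 2) := by
      show H.d s y y < _
      rw [o.dist.self s ms']; positivity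
    have mσ : σ ∈ Ico s H.T := ⟨hσ.1, hσ.2.trans_lt ht.2⟩
    have tσ : σ - s ≤ c1 * h := by nlinarith [hσ.2]
    obtain ⟨a1, a2⟩ := h1 s ms y h hh (q3.trans r2) (hp y y1 y2) y hy σ mσ tσ
    obtain ⟨-, a3⟩ := h2 s ms y h hh (q3.trans r2) (hp y y1 y2) y hy σ mσ tσ
    refine ⟨Real.sqrt_le_iff.2 ⟨by positivity, a1.trans ?_⟩,
      Real.sqrt_le_iff.2 ⟨by positivity, a2.trans ?_⟩,
      Real.sqrt_le_iff.2 ⟨by positivity, a3.trans ?_⟩⟩
    · rw [div_pow, ← pow_mul]; gcongr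
    · rw [div_pow]; gcongr
    · rw [div_pow, ← pow_mul]; gcongr
  have k := hb (r := r) s0 st hh (q3.trans r1') hC.le sh
    (by nlinarith [mul_le_mul_of_nonneg_left q4 hC.le]) (by linarith)
  have k2 := en_mono_set o ms' (B_mono2 s x (show lam * r ≤ 2 * h by linarith))
  have k3 : (t - s) / h ≤ β := (div_le_iff₀ hh).2 q4
  have k4 := mul_le_mul_of_nonneg_left k3 (show 0 ≤ D * C ^ 2 by positivity)
  have k5 := mul_le_mul_of_nonneg_left q3 hD.le
  nlinarith

/-- **backward static persistence** -/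
theorem eStatB (o : H.Ok) (c : H.COut) (d : H.DOut) (hR : H.EReg) (hS : H.EStat) : H.EStatB := by
  intro t0 h0
  obtain ⟨ε0, c1, r1, hε0, hc1, hr1, -, hk⟩ := hR (t0 / 2) (by linarith)
  obtain ⟨β, lam, r0, β0, l0, l1, hr0, r01, β1, hp⟩ := persB o c d hS h0 (half_pos hε0)
  refine ⟨ε0 / 2, β / 2, min r0 r1, by positivity, by positivity, by positivity, ?_, fun k => ?_⟩
  · have : min r0 r1 ≤ 1 := (min_le_left _ _).trans r01
    nlinarith
  obtain ⟨C, hC, hb⟩ := hk k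
  refine ⟨C * (ε0 + 1) / (lam / 2) ^ (4 + 2 * k) + C / (lam / 2) ^ (2 + 2 * k), by positivity,
    fun t ht x r hr hrr hen y hy s hs hts => ?_⟩
  have r2 : r ≤ r0 := hrr.trans (min_le_left _ _)
  have r3 : r ≤ r1 := hrr.trans (min_le_right _ _)
  have mt : t ∈ Ioo 0 H.T := ⟨h0.trans_le ht.1, ht.2⟩
  have s0 : t0 / 2 ≤ s := by nlinarith [ht.1]
  have ms : s ∈ Ioo 0 H.T := ⟨by linarith, hs.trans_lt ht.2⟩
  have e1 := hp t ht y (r / 2) (by positivity) (by linarith) s hs (by linarith)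
  have e2 := en_mono_set o mt (E.ball_sub o.dist mt hy)
  have p : 0 < lam * (r / 2) := by positivity
  have p1 : lam * (r / 2) ≤ r := by nlinarith
  have e3 : H.en s y (lam * (r / 2)) ≤ ε0 := by linarith
  obtain ⟨a1, a2⟩ := (hb s ⟨s0, ms.2⟩ y _ p (p1.trans r3) e3 y (by
    show H.d s y y < _
    rw [o.dist.self s ms]; positivity)).1 s ms (by rw [sub_self, abs_zero]; positivity)
  have e : ∀ n : ℕ, (lam * (r / 2)) ^ n = (lam / 2) ^ n * r ^ n := fun n => by
    rw [← mul_pow]; congr 1; ring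
  rw [e, ← div_div] at a1 a2
  refine ⟨a1.trans (div_le_div_of_nonneg_right ?_ (by positivity)),
    a2.trans (div_le_div_of_nonneg_right ?_ (by positivity))⟩
  · refine le_trans ?_ (le_add_of_nonneg_right (by positivity))
    gcongr
    linarith
  · exact le_add_of_nonneg_left (by positivity)

end HC

end Crest.Agent.N207

end
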