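import Crest.Agent.N207.E.St6
import Crest.Agent.N207.E.StB
import Crest.Agent.N207.E.Reg
import Crest.Agent.N207.D.Pers
import Crest.Agent.N207.C.DistUp
import Crest.Agent.N207.C.VolUp
import Crest.Agent.N207.C.ULS

/-!
# Row 207 (helper83): all the outputs of the blocks C, D, E
-/

set_option autoImplicit false
set_option linter.dupNamespace false

namespace Crest.Agent.N207

namespace HC

variable {M : Type*} [TopologicalSpace M] [CompactSpace M] [MeasurableSpace M]
  [OpensMeasurableSpace M] {H : HC M}

theorem cOut (h : H.Ok) : H.COut :=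
  ⟨h.sobU, volLo h, volUp h, h.kerH, h.kerC, lipH h, distLo h, distUp h⟩

theorem eOut (h : H.Ok) (S2 : H.Solv2) : H.EOut := by
  have c := cOut h
  have d := dOut h
  have r := eReg h c d (ePers h c)
  have s := eStat h S2 c d r
  exact ⟨r, s, eStatB h c d r s⟩

theorem cde (h : H.Ok) (S2 : H.Solv2) : H.COut ∧ H.DOut ∧ H.EPers ∧ H.EOut :=
  ⟨cOut h, dOut h, ePers h (cOut h), eOut h S2⟩

end HC

end Crest.Agent.N207
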