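import Crest.Agent.N207.E.Reg1
import Crest.Agent.N207.D.Glob

/-! Block E (helper10): the static cutoff, energy persistence with constant one, second pass. -/

set_option autoImplicit false
set_option linter.dupNamespace false
set_option linter.unusedSectionVars false
open Set MeasureTheory Filter Topology
open scoped ContDiff

noncomputable section

namespace Crest.Agent.N207.E

universe v

variable {M : Type v} [TopologicalSpace M] [CompactSpace M] [MeasurableSpace M]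
  [OpensMeasurableSpace M] {H : HC M}

/-- two-sided Gronwall -/
lemma gron2 {φ φ' : ℝ → ℝ} {a b Λ : ℝ}
    (hd : ∀ t ∈ Icc a b, HasDerivWithinAt φ (φ' t) (Icc a b) t)
    (h : ∀ t ∈ Icc a b, |φ' t| ≤ Λ * φ t) {s t : ℝ} (hs : s ∈ Icc a b) (ht : t ∈ Icc a b) :
    φ s ≤ φ t * Real.exp (Λ * |s - t|) := by
  have de : ∀ c τ : ℝ, HasDerivWithinAt (fun τ => Real.exp (c * τ)) (Real.exp (c * τ) * c)
      (Icc a b) τ := fun c τ => by
    simpa using ((hasDerivAt_id τ).const_mul c).exp.hasDerivWithinAt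
  have fin : ∀ c : ℝ, φ s * Real.exp (c * s) ≤ φ t * Real.exp (c * t) →
      φ s ≤ φ t * Real.exp (c * (t - s)) := fun c hc => by
    have := mul_le_mul_of_nonneg_right hc (Real.exp_pos (-(c * s))).le
    rw [mul_assoc, mul_assoc, ← Real.exp_add, ← Real.exp_add, add_neg_cancel, Real.exp_zero,
      mul_one] at this
    rwa [show c * (t - s) = c * t + -(c * s) by ring]
  rcases le_total s t with hst | hst
  · have := mono_of_deriv (fun τ hτ => (hd τ hτ).mul (de Λ τ)) (fun τ hτ => by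
      have := (abs_le.1 (h τ (Ioo_subset_Icc_self hτ))).1
      nlinarith [Real.exp_pos (Λ * τ)]) hs ht hst
    rw [abs_sub_comm, abs_of_nonneg (sub_nonneg.2 hst)]
    exact fin Λ this
  · have := anti_of_deriv (fun τ hτ => (hd τ hτ).mul (de (-Λ) τ)) (fun τ hτ => by
      have := (abs_le.1 (h τ (Ioo_subset_Icc_self hτ))).2
      nlinarith [Real.exp_pos (-Λ * τ)]) ht hs hst
    rw [abs_of_nonneg (sub_nonneg.2 hst), show Λ * (s - t) = -Λ * (t - s) by ring]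
    exact fin (-Λ) this

lemma sqrt_le_div {n C ρ : ℝ} {j : ℕ} (hρ : 0 < ρ) (h : ρ ^ (2 * j) * n ≤ C) :
    √n ≤ √C / ρ ^ j := by
  rw [le_div_iff₀ (by positivity), ← Real.sqrt_sq (x := ρ ^ j) (by positivity), mul_comm,
    ← Real.sqrt_mul (by positivity), ← pow_mul, mul_comm j]
  exact Real.sqrt_le_sqrt h

/-- a static cutoff adapted to `B t y ρ` -/
structure SC (H : HC M) (t : ℝ) (y : M) (ρ : ℝ) (χ : M → ℝ) : Prop where
  s0 : H.S0 χ
  nn : ∀ z, 0 ≤ χ z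
  le : ∀ z, χ z ≤ 1
  out : ∀ z, z ∉ H.B t y ρ → χ z = 0
  one : ∀ z, H.d t y z ≤ ρ / 4 → χ z = 1

lemma stat_cut (hA : H.Alg) (hD : H.Dist) : ∃ K, 0 ≤ K ∧ ∀ t ∈ Ioo 0 H.T, ∀ y ρ, 0 < ρ →
    ∃ χ f, SC H t y ρ χ ∧ H.S0 f ∧ (∀ z, H.gam t f f z ≤ 1) ∧
      ∀ σ ∈ Ioo 0 H.T, ∀ z, ρ ^ 2 * H.gam σ χ χ z ≤ K * χ z * H.gam σ f f z := by
  obtain ⟨K, hK, k1, -⟩ := psi_bounds
  refine ⟨64 / 9 * K, by positivity, fun t ht y ρ hρ => ?_⟩
  obtain ⟨f, sf, gf, af⟩ := hD.approx t ht y (ρ / 8) (by positivity)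
  have l0 : 0 < 3 * ρ / 8 := by positivity
  have s1 := hA.s0_compU (cd_aff psi_cd 0 (3 * ρ / 8)) sf
  refine ⟨fun z => psi ((f z - 0) / (3 * ρ / 8)), f, ⟨s1,
    fun _ => psi_nonneg _, fun _ => psi_le_one _, fun z hz => psi_zero ?_,
    fun z hz => psi_one ?_⟩, sf, gf, fun σ hσ z => ?_⟩
  · have h1 : ρ ≤ H.d t y z := not_lt.1 hz
    rw [le_div_iff₀ l0]; linarith [(abs_le.1 (af z)).1]
  · rw [div_le_one l0]; linarith [(abs_le.1 (af z)).2]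
  · rw [hA.gam_compU2 hσ (cd_aff psi_cd _ _) sf, deriv_aff psi_cd]
    have g0 := hA.gam_nonneg σ hσ sf z
    set q := (f z - 0) / (3 * ρ / 8)
    have h1 : deriv psi q ^ 2 ≤ K * psi q :=
      (k1 q).trans (mul_le_of_le_one_right (mul_nonneg (by linarith) (psi_nonneg q)) (chi_le_one q))
    have h2 : ρ ^ 2 * ((deriv psi q / (3 * ρ / 8)) ^ 2 * H.gam σ f f z) =
        64 / 9 * (deriv psi q ^ 2 * H.gam σ f f z) := by field_simp; ring
    have h3 := mul_le_mul_of_nonneg_right h1 g0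
    show ρ ^ 2 * ((deriv psi q / (3 * ρ / 8)) ^ 2 * H.gam σ f f z) ≤
      64 / 9 * K * psi q * H.gam σ f f z
    rw [h2]
    linarith

/-- curvature bounds at scale `ρ` on `B t y ρ × [t - w, t + w]` -/
def Rg (H : HC M) (t : ℝ) (y : M) (ρ w : ℝ) (k : ℕ) (C : ℝ) : Prop :=
  ∀ z ∈ H.B t y ρ, ∀ σ ∈ Ioo 0 H.T, |σ - t| ≤ w → ∀ i ≤ k,
    ρ ^ (4 + 2 * i) * H.N i σ z ≤ C ∧ ρ ^ (2 + 2 * i) * H.Q i σ z ≤ C

lemma vol_cmp (hI : H.Intg) {K : ℝ} (K0 : 0 ≤ K) (hK : ∀ t ∈ Ioo 0 H.T, ∀ x, |H.R t x| ≤ K)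
    {s t : ℝ} (hs : s ∈ Ioo 0 H.T) (ht : t ∈ Ioo 0 H.T) (h : |s - t| ≤ 1) (S : Set M) :
    (H.vol s).real S ≤ Real.exp K * (H.vol t).real S := by
  have := hI.fin t ht
  have h1 := hI.vol_le hK t ht s hs S
  rw [Measure.smul_apply, smul_eq_mul] at h1
  have h2 := ENNReal.toReal_mono (ENNReal.mul_ne_top ENNReal.ofReal_ne_top (measure_ne_top _ _)) h1
  rw [ENNReal.toReal_mul, ENNReal.toReal_ofReal (Real.exp_pos _).le] at h2
  refine h2.trans (mul_le_mul_of_nonneg_right (Real.exp_le_exp.2 ?_) ENNReal.toReal_nonneg)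
  exact mul_le_of_le_one_right K0 h

/-- on a regular region the energy seen by a static cutoff changes by `O(ρ)` -/
theorem energy (hA : H.Alg) (hI : H.Intg) (hE : H.Evo) (hD : H.Dist) (hF : H.Flux) {Cv C1 : ℝ}
    (hCv : 0 ≤ Cv) (hC1 : 0 ≤ C1) : ∃ C2, 0 ≤ C2 ∧ ∀ {t ρ w : ℝ} {y : M} {k : ℕ}, t < H.T →
    0 < ρ → ρ ≤ 1 → 0 < w → w ≤ ρ ^ 2 → w < t → (H.vol t).real (H.B t y ρ) ≤ Cv * ρ ^ 4 →
    Rg H t y ρ w (k + 1) C1 → ∃ χ, SC H t y ρ χ ∧ ∀ σ ∈ Ioo 0 H.T, |σ - t| ≤ w →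
      ∫ z, χ z * H.N 0 σ z ∂H.vol σ ≤ H.en t y ρ + C2 * ρ := by
  obtain ⟨K, K0, hK⟩ := D.exists_K hE
  obtain ⟨Cf, Cf0, fl⟩ := hF
  obtain ⟨Kc, Kc0, cut⟩ := stat_cut hA hD
  set V := Real.exp K * Cv with hV
  set G := Kc * Real.exp (2 * √C1) with hG
  refine ⟨(Cf * (√G * √C1 * √C1) + 4 * C1) * V, by positivity, ?_⟩
  intro t ρ w y k tT ρ0 ρ1 w0 w1 wt vol rg
  have ht : t ∈ Ioo 0 H.T := ⟨by linarith, tT⟩
  obtain ⟨χ, f, sc, sf, gf, gχ⟩ := cut t ht y ρ ρ0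
  refine ⟨χ, sc, fun σ hσ hw => ?_⟩
  have ab := abs_le.1 hw
  have ρ2 : ρ ^ 2 ≤ ρ := by nlinarith
  have st : H.St (t - w) (max σ t) := ⟨by linarith, lt_max_of_lt_right (by linarith),
    max_lt hσ.2 tT⟩
  have mσ : σ ∈ Icc (t - w) (max σ t) := ⟨by linarith, le_max_left _ _⟩
  have mt : t ∈ Icc (t - w) (max σ t) := ⟨by linarith, le_max_right _ _⟩
  have near : ∀ τ ∈ Icc (t - w) (max σ t), |τ - t| ≤ w := fun τ hτ => by
    have := hτ.2.trans (max_le (c := t + w) (by linarith) (by linarith))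
    exact abs_le.2 ⟨by linarith [hτ.1], by linarith⟩
  have mB := ball_meas hD ht y ρ
  have vτ : ∀ τ ∈ Icc (t - w) (max σ t), (H.vol τ).real (H.B t y ρ) ≤ V * ρ ^ 4 := fun τ hτ => by
    have := vol_cmp hI K0 hK (st.mem hτ) ht ((near τ hτ).trans (by linarith)) (H.B t y ρ)
    have := mul_le_mul_of_nonneg_left vol (Real.exp_pos K).le
    rw [hV]; linarith
  obtain ⟨G', -, dG⟩ := hA.sm_dt st.2.1 (hA.sm_gam st (hA.sm_static sf) (hA.sm_static sf))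
  have gτ : ∀ τ ∈ Icc (t - w) (max σ t), ∀ z ∈ H.B t y ρ, H.gam τ f f z ≤ Real.exp (2 * √C1) := by
    intro τ hτ z hz
    have := gron2 (Λ := 2 * (√C1 / ρ ^ 1)) (fun s hs => dG s hs z) (fun s hs => by
      refine (hE.dt_gam_static st sf dG s hs z).trans (mul_le_mul_of_nonneg_right ?_
        (hA.gam_nonneg s (st.mem hs) sf z))
      linarith [sqrt_le_div (j := 1) ρ0 (rg z hz s (st.mem hs) (near s hs) 0 (Nat.zero_le _)).2])
      hτ mt
    refine this.trans ((mul_le_of_le_one_left (Real.exp_pos _).le (gf z)).trans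
      (Real.exp_le_exp.2 ?_))
    have h1 : |τ - t| ≤ ρ := by linarith [near τ hτ]
    calc _ ≤ 2 * (√C1 / ρ ^ 1) * ρ := mul_le_mul_of_nonneg_left h1 (by positivity)
      _ = _ := by field_simp
  set m := Cf * (√G * √C1 * √C1) * V / ρ with hm
  have inner : ∀ τ ∈ Icc (t - w) (max σ t), ‖∫ z, (|(0 : ℝ)| * |H.Pf τ z| +
      Cf * (√(H.gam τ χ χ z) * √(H.N 0 τ z) * √(H.Q 1 τ z))) ∂H.vol τ‖ ≤ m := by
    intro τ hτ
    have hm' := st.mem hτ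
    have := hI.fin τ hm'
    rw [Real.norm_of_nonneg (integral_nonneg fun z => by positivity)]
    refine (int_le_vol (m := Cf * (√G / ρ ^ 1 * (√C1 / ρ ^ 2) * (√C1 / ρ ^ 2))) mB
      (fun z => by positivity) (fun z hz => ?_) fun z hz => ?_).trans ?_
    · have a1 : √(H.gam τ χ χ z) ≤ √G / ρ ^ 1 := by
        refine sqrt_le_div (j := 1) ρ0 ((gχ τ hm' z).trans ?_)
        exact mul_le_mul (mul_le_of_le_one_right Kc0 (sc.le z)) (gτ τ hτ z hz)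
          (hA.gam_nonneg τ hm' sf z) Kc0
      have a2 := sqrt_le_div (j := 2) ρ0 (rg z hz τ hm' (near τ hτ) 0 (Nat.zero_le _)).1
      have a3 := sqrt_le_div (j := 2) ρ0 (rg z hz τ hm' (near τ hτ) 1 (by omega)).2
      rw [abs_zero, zero_mul, zero_add]
      gcongr
    · have a1 := gχ τ hm' z
      rw [sc.out z hz, mul_zero, zero_mul] at a1
      have a2 : H.gam τ χ χ z ≤ 0 := by
        by_contra hh
        nlinarith [mul_pos (pow_pos ρ0 2) (not_le.1 hh)]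
      simp [Real.sqrt_eq_zero_of_nonpos a2]
    · refine (mul_le_mul_of_nonneg_left (vτ τ hτ) (by positivity)).trans (le_of_eq ?_)
      rw [hm]; field_simp
  have m0 : 0 ≤ m := by positivity
  have key : ∀ s1 ∈ Icc (t - w) (max σ t), ∀ s2 ∈ Icc (t - w) (max σ t), s1 ≤ s2 →
      |∫ z, χ z * H.Pf s2 z ∂H.vol s2 - ∫ z, χ z * H.Pf s1 z ∂H.vol s1| ≤ m * |s2 - s1| := by
    intro s1 h1 s2 h2 h12
    refine (fl st (hA.sm_static sc.s0) (HasDt.static χ) s1 s2 h1.1 h12 h2.2).trans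
      ((le_abs_self _).trans (intervalIntegral.norm_integral_le_of_norm_le_const
        fun τ hτ => inner τ ?_))
    rw [uIoc_of_le h12] at hτ
    exact ⟨h1.1.trans hτ.1.le, hτ.2.trans h2.2⟩
  have k1 : ∫ z, χ z * H.Pf σ z ∂H.vol σ ≤ ∫ z, χ z * H.Pf t z ∂H.vol t + m * ρ ^ 2 := by
    have b := mul_le_mul_of_nonneg_left (hw.trans w1) m0
    rcases le_total σ t with h | h
    · have := (abs_le.1 (key σ mσ t mt h)).1
      rw [abs_sub_comm] at this; linarith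
    · have := (abs_le.1 (key t mt σ mσ h)).2
      linarith
  have iP : ∀ τ ∈ Icc (t - w) (max σ t), Integrable (fun z => χ z * H.Pf τ z) (H.vol τ) :=
    fun τ hτ => hA.integrable hI (st.mem hτ) (hA.s0_mul sc.s0 (hA.sm_s0 (hA.sm_Pf st) τ hτ))
  have k2 : ∫ z, χ z * H.Pf t z ∂H.vol t ≤ H.en t y ρ :=
    (integral_mono (iP t mt) (hA.integrable hI ht (hA.s0_mul sc.s0 (hA.s0_N ht 0)))
      fun z => mul_le_mul_of_nonneg_left (D.Pf_le hE ht z) (sc.nn z)).trans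
      (int_cut_le mB (hA.integrable hI ht (hA.s0_N ht 0)) (hE.N_nonneg 0 t ht) sc.nn sc.le sc.out)
  have iQ := hA.integrable hI hσ (hA.s0_mul sc.s0 (hA.s0_Q hσ 0))
  have k3 : ∫ z, χ z * H.N 0 σ z ∂H.vol σ ≤
      ∫ z, χ z * H.Pf σ z ∂H.vol σ + 4 * ∫ z, χ z * H.Q 0 σ z ∂H.vol σ := by
    rw [← integral_const_mul, ← integral_add (iP σ mσ) (iQ.const_mul _)]
    refine integral_mono (hA.integrable hI hσ (hA.s0_mul sc.s0 (hA.s0_N hσ 0)))
      ((iP σ mσ).add (iQ.const_mul _)) fun z => ?_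
    have := mul_le_mul_of_nonneg_left (D.N_le_Pf (H := H) σ z) (sc.nn z)
    simp only; linarith
  have k4 : ∫ z, χ z * H.Q 0 σ z ∂H.vol σ ≤ C1 * V * ρ := by
    have := hI.fin σ hσ
    refine (int_le_vol (m := C1 / ρ ^ 2) mB
      (fun z => mul_nonneg (sc.nn z) (hE.Q_nonneg 0 σ hσ z)) (fun z hz => ?_)
      fun z hz => by rw [sc.out z hz, zero_mul]).trans ?_
    · refine (mul_le_of_le_one_left (hE.Q_nonneg 0 σ hσ z) (sc.le z)).trans ?_
      rw [le_div_iff₀ (by positivity), mul_comm]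
      exact (rg z hz σ hσ hw 0 (Nat.zero_le _)).2
    · refine (mul_le_mul_of_nonneg_left (vτ σ mσ) (by positivity)).trans ?_
      calc _ = C1 * V * ρ ^ 2 := by field_simp
        _ ≤ _ := mul_le_mul_of_nonneg_left ρ2 (by positivity)
  have k5 : m * ρ ^ 2 = Cf * (√G * √C1 * √C1) * V * ρ := by rw [hm]; field_simp
  linarith

/-- **second pass**: linear estimates on a regular window -/
theorem lin (hA : H.Alg) (hI : H.Intg) (hE : H.Evo) (hS : H.Solv) {t1 C : ℝ} (hC : 0 ≤ C)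
    (hU : H.UC t1 C) {P : ℕ → ℝ → M → ℝ} (F : Fam H P) (k : ℕ) {C1 : ℝ} (hC1 : 0 ≤ C1) :
    ∃ K, 0 ≤ K ∧ ∀ {a s l ρ : ℝ} {u Φ : ℝ → M → ℝ}, Win H a s u → t1 ≤ a → 0 < ρ →
      s - a ≤ ρ ^ 2 → H.Sm a s Φ → (∀ σ ∈ Icc a s, ∀ z, 0 ≤ Φ σ z) →
      (∀ σ ∈ Icc a s, ∀ z, u σ z ≤ l → 1 ≤ Φ σ z ∧ ∀ i ≤ k, ρ ^ (4 + 2 * i) * H.N i σ z ≤ C1) →
      ∀ i ≤ k, ∀ τ z η, Adm a s l u τ z η →
        η ^ (6 + 2 * i) * P i τ z ≤ K * (∫ σ in a..s, ∫ z, Φ σ z * P 0 σ z ∂H.vol σ) ∧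
        ∀ E, (∀ σ ∈ Icc a s, ∫ z, Φ σ z * P 0 σ z ∂H.vol σ ≤ E) →
          η ^ (4 + 2 * i) * P i τ z ≤ K * E := by
  obtain ⟨C0, hC0, sub⟩ := F.sub0
  obtain ⟨K, K0, hmv⟩ := mv hA hI hS hC hU (Λ0 := C0 * √C1) (by positivity)
  obtain ⟨B6, hB6, t6⟩ := towerL hA hE F 6 hC1 k
  obtain ⟨B4, hB4, t4⟩ := towerL hA hE F 4 hC1 k
  refine ⟨(B6 + B4) * K, by positivity, ?_⟩
  intro a s l ρ u Φ W h1 ρ0 h2 sΦ Φ0 hq i hi τ z η ad
  obtain ⟨P', -, dP⟩ := hA.sm_dt W.st.2.1 (F.sm 0 W.st)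
  have m := hmv (F.loc W sΦ Φ0 (fun σ hσ z hz => (hq σ hσ z hz).1) dP) (Λ := C0 * (√C1 / ρ ^ 2)) h1
    (by positivity) (by
      calc _ ≤ C0 * (√C1 / ρ ^ 2) * ρ ^ 2 := mul_le_mul_of_nonneg_left h2 (by positivity)
        _ = _ := by field_simp) fun σ hσ z hz => by
      have a1 := sqrt_le_div (j := 2) ρ0 ((hq σ hσ z hz).2 0 (Nat.zero_le _))
      have := mul_le_mul_of_nonneg_right (mul_le_mul_of_nonneg_left a1 hC0)
        (F.nn 0 σ (W.st.mem hσ) z)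
      linarith [sub W.st dP σ hσ z]
  have hN : ∀ i ≤ k, ∀ t y η, Adm a s l u t y η → η ^ (4 + 2 * i) * H.N i t y ≤ C1 := by
    intro i hi t y η ad
    have e : η ≤ ρ := le_of_sq_le_sq (by linarith [ad.tim, ad.mem.2]) ρ0.le
    exact (mul_le_mul_of_nonneg_right (pow_le_pow_left₀ ad.pos.le e _)
      (hE.N_nonneg i t (W.st.mem ad.mem) y)).trans
      ((hq t ad.mem y (by linarith [ad.lev, ad.pos])).2 i hi)
  have n0 : ∀ σ ∈ Icc a s, 0 ≤ ∫ z, Φ σ z * P 0 σ z ∂H.vol σ := fun σ hσ =>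
    integral_nonneg fun z => mul_nonneg (Φ0 σ hσ z) (F.nn 0 σ (W.st.mem hσ) z)
  constructor
  · have I0 := mul_nonneg K0 (intervalIntegral.integral_nonneg (μ := volume) W.st.2.1.le n0)
    have := t6 W I0 hN (fun t y η ad => (m t ad.mem y η ad.pos.le ad.lev ad.tim).1) i hi τ z η ad
    nlinarith
  · intro E hE'
    have I0 := mul_nonneg K0 ((n0 τ ad.mem).trans (hE' τ ad.mem))
    have := t4 W I0 hN (fun t y η ad => (m t ad.mem y η ad.pos.le ad.lev ad.tim).2 E hE')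
      i hi τ z η ad
    nlinarith

end Crest.Agent.N207.E

end
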