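import Crest.Agent.N207.C.LogB
import Crest.Agent.N207.C.Stmt
import Crest.Agent.N207.E.Cut

/-!
# Row 207, block E (static persistence, helper83): the potential of a static source

`u' = Δ u + (F - u) / l²`, `u a = 0`.
-/

set_option autoImplicit false
set_option linter.dupNamespace false
set_option linter.unusedSectionVars false
open Set MeasureTheory Filter Topology
open scoped ContDiff

noncomputable section

namespace Crest.Agent.N207

namespace HC

variable {M : Type*} [TopologicalSpace M] [CompactSpace M] [MeasurableSpace M] {H : HC M}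

/-- the time derivative of the potential -/
def potV (H : HC M) (l : ℝ) (F : M → ℝ) (u : ℝ → M → ℝ) (t : ℝ) (x : M) : ℝ :=
  H.lap t (u t) x + (F x - u t x) / l ^ 2

/-- the potential of the static source `F` -/
structure Pot (H : HC M) (a b l : ℝ) (F : M → ℝ) (u : ℝ → M → ℝ) : Prop where
  st : H.St a b
  lp : 0 < l
  F0 : H.S0 F
  Fn : ∀ x, 0 ≤ F x
  F1 : ∀ x, F x ≤ 1
  sm : H.Sm a b u
  dt : HasDt a b u (H.potV l F u)
  init : ∀ x, u a x = 0

theorem exists_pot (A : H.Alg) (S : H.Solv2) {a b l : ℝ} {F : M → ℝ} (hs : H.St a b)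
    (hl : 0 < l) (F0 : H.S0 F) (Fn : ∀ x, 0 ≤ F x) (F1 : ∀ x, F x ≤ 1) :
    ∃ u, H.Pot a b l F u := by
  have s1 : H.Sm a b fun t (_ : M) => Real.exp ((t - a) / l ^ 2) := A.sm_timeU (by fun_prop)
  have s2 : H.Sm a b fun t (_ : M) => Real.exp (-((t - a) / l ^ 2)) := A.sm_timeU (by fun_prop)
  obtain ⟨U, sU, dU, iU⟩ := S hs (A.sm_mul s1 (A.sm_static (A.s0_cmul (l ^ 2)⁻¹ F0)))
    (A.s0_const 0)
  have d2 : HasDt a b (fun t (_ : M) => Real.exp (-((t - a) / l ^ 2)))
      fun t _ => Real.exp (-((t - a) / l ^ 2)) * (-(1 / l ^ 2)) :=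
    HasDt.time fun t _ => ((((hasDerivAt_id t).sub_const a).div_const (l ^ 2)).neg).exp
  refine ⟨fun t x => Real.exp (-((t - a) / l ^ 2)) * U t x, hs, hl, F0, Fn, F1, A.sm_mul s2 sU,
    (d2.mul dU).congr_d fun t ht x => ?_, fun x => by simp [iU]⟩
  unfold potV
  rw [A.lap_cmul (hs.mem ht) _ (A.sm_s0 sU t ht)]
  have e : Real.exp (-((t - a) / l ^ 2)) * Real.exp ((t - a) / l ^ 2) = 1 := by
    rw [← Real.exp_add]; simp
  have : Real.exp (-((t - a) / l ^ 2)) * (Real.exp ((t - a) / l ^ 2) * ((l ^ 2)⁻¹ * F x)) =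
      F x / l ^ 2 := by rw [← mul_assoc, e]; ring
  rw [mul_add, this]
  ring

namespace Pot

variable (A : H.Alg) {a b l : ℝ} {F : M → ℝ} {u : ℝ → M → ℝ} (P : H.Pot a b l F u)
include A P

theorem mono {b' : ℝ} (h1 : a < b') (h2 : b' ≤ b) : H.Pot a b' l F u :=
  ⟨P.st.mono le_rfl h1 h2, P.lp, P.F0, P.Fn, P.F1, A.sm_mono P.sm le_rfl h2,
    P.dt.mono le_rfl h2, P.init⟩

/-- comparison with a subsolution on a later strip -/
theorem sub_cmp {a' b' : ℝ} (h0 : a ≤ a') (h1 : a' < b') (h2 : b' ≤ b) {w w' : ℝ → M → ℝ}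
    (sw : H.Sm a' b' w) (dw : HasDt a' b' w w') (i : ∀ x, w a' x ≤ u a' x)
    (h : ∀ t ∈ Icc a' b', ∀ x, w' t x ≤ H.lap t (w t) x + (F x - w t x) / l ^ 2) :
    ∀ t ∈ Icc a' b', ∀ x, w t x ≤ u t x := by
  have hs := P.st.mono h0 h1 h2
  have su := A.sm_mono P.sm h0 h2
  have key := A.maxp hs (A.sm_sub sw su) (dw.sub (P.dt.mono h0 h2)) 0
    (fun x => sub_nonpos.2 (i x)) fun t ht x hp hl _ => by
      have hm : t ∈ Icc a' b' := Ioc_subset_Icc_self ht
      rw [A.lap_sub (hs.mem hm) (A.sm_s0 sw t hm) (A.sm_s0 su t hm)] at hl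
      have h3 := h t hm x
      have h4 : (F x - w t x) / l ^ 2 ≤ (F x - u t x) / l ^ 2 :=
        div_le_div_of_nonneg_right (by linarith) (sq_nonneg l)
      unfold potV
      linarith
  exact fun t ht x => sub_nonpos.1 (key t ht x)

/-- comparison with a supersolution -/
theorem sup_cmp {b' : ℝ} (h1 : a < b') (h2 : b' ≤ b) {w w' : ℝ → M → ℝ}
    (sw : H.Sm a b' w) (dw : HasDt a b' w w') (i : ∀ x, 0 ≤ w a x)
    (h : ∀ t ∈ Icc a b', ∀ x, H.lap t (w t) x + (F x - w t x) / l ^ 2 ≤ w' t x) :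
    ∀ t ∈ Icc a b', ∀ x, u t x ≤ w t x := by
  have hs := P.st.mono le_rfl h1 h2
  have su := A.sm_mono P.sm le_rfl h2
  have key := A.maxp hs (A.sm_sub su sw) ((P.dt.mono le_rfl h2).sub dw) 0
    (fun x => by rw [P.init x]; linarith [i x]) fun t ht x hp hl _ => by
      have hm : t ∈ Icc a b' := Ioc_subset_Icc_self ht
      rw [A.lap_sub (hs.mem hm) (A.sm_s0 su t hm) (A.sm_s0 sw t hm)] at hl
      have h3 := h t hm x
      have h4 : (F x - u t x) / l ^ 2 ≤ (F x - w t x) / l ^ 2 :=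
        div_le_div_of_nonneg_right (by linarith) (sq_nonneg l)
      unfold potV
      linarith
  exact fun t ht x => sub_nonpos.1 (key t ht x)

theorem nonneg : ∀ t ∈ Icc a b, ∀ x, 0 ≤ u t x :=
  P.sub_cmp A le_rfl P.st.2.1 le_rfl (A.sm_const 0) (HasDt.static fun _ => 0)
    (fun x => (P.init x).ge) fun t ht x => by
      rw [A.lap_const (P.st.mem ht)]
      have := div_nonneg (P.Fn x) (sq_nonneg l)
      simpa using this

theorem le_one : ∀ t ∈ Icc a b, ∀ x, u t x ≤ 1 :=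
  P.sup_cmp A P.st.2.1 le_rfl (A.sm_const 1) (HasDt.static fun _ => 1)
    (fun _ => zero_le_one) fun t ht x => by
      rw [A.lap_const (P.st.mem ht)]
      have := div_nonpos_of_nonpos_of_nonneg (sub_nonpos.2 (P.F1 x)) (sq_nonneg l)
      simpa using this

theorem smV : H.Sm a b (H.potV l F u) := A.sm_of_dt P.st.2.1 P.sm P.dt

/-- evolution of the gradient -/
theorem dG (E : H.Evo) : HasDt a b (fun t => H.gam t (u t) (u t)) fun t x =>
    H.lap t (H.gam t (u t) (u t)) x +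
      2 * (H.gam t (u t) F x - H.gam t (u t) (u t) x) / l ^ 2 - 2 * H.hh t (u t) x := by
  refine (E.dt_gam P.st P.sm P.dt).congr_d fun t ht x => ?_
  have hT := P.st.mem ht
  have u0 := A.sm_s0 P.sm t ht
  have e : (fun y => H.potV l F u t y - H.lap t (u t) y) = fun y => (l ^ 2)⁻¹ * (F y - u t y) := by
    funext y; unfold potV; ring
  rw [e, A.gam_cmul' hT _ (A.s0_sub P.F0 u0) u0, A.gam_sub' hT P.F0 u0 u0]
  ring

theorem gam_uF {t : ℝ} (ht : t ∈ Icc a b) (x : M) :
    2 * H.gam t (u t) F x ≤ H.gam t (u t) (u t) x + H.gam t F F x := by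
  have := A.gam_quad (P.st.mem ht) (A.sm_s0 P.sm t ht) P.F0 (-1) x
  linarith

theorem gam_init (x : M) : H.gam a (u a) (u a) x = 0 := by
  have e : u a = fun _ => 0 := funext P.init
  rw [e, A.gam_const (P.st.mem ⟨le_rfl, P.st.2.1.le⟩) 0 (A.s0_const 0)]

/-- gradient bound -/
theorem grad (E : H.Evo) {G : ℝ} (hG : 0 ≤ G) (hF : ∀ t ∈ Icc a b, ∀ x, H.gam t F F x ≤ G) :
    ∀ t ∈ Icc a b, ∀ x, H.gam t (u t) (u t) x ≤ G := by
  have sG := A.sm_gam P.st P.sm P.sm
  have key := A.maxp P.st (A.sm_sub sG (A.sm_const G))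
    ((P.dG A E).sub (HasDt.static fun _ => G)) 0
    (fun x => by rw [P.gam_init A]; linarith) fun t ht x hp hl _ => by
      have hm : t ∈ Icc a b := Ioc_subset_Icc_self ht
      have hT := P.st.mem hm
      rw [A.lap_sub hT (A.sm_s0 sG t hm) (A.s0_const G), A.lap_const hT] at hl
      have h1 := P.gam_uF A hm x
      have h2 := hF t hm x
      have h3 := E.hh_nonneg t hT (A.sm_s0 P.sm t hm) x
      have h4 : 2 * (H.gam t (u t) F x - H.gam t (u t) (u t) x) / l ^ 2 ≤ 0 :=
        div_nonpos_of_nonpos_of_nonneg (by linarith) (sq_nonneg l)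
      linarith
  exact fun t ht x => sub_nonpos.1 (key t ht x)

/-- evolution of the speed -/
theorem dV (E : H.Evo) : HasDt a b (H.potV l F u) fun t x =>
    H.lap t (H.potV l F u t) x + 2 * H.rh t (u t) x - H.potV l F u t x / l ^ 2 := by
  have h1 := E.dt_lap P.st P.sm P.dt
  have h2 := ((HasDt.static (a := a) (b := b) F).sub P.dt).cmul (l ^ 2)⁻¹
  refine ((h1.add h2).congr fun t _ x => ?_).congr_d fun t _ x => ?_
  · unfold potV; ring
  · ring

/-- the speed bound -/
theorem speed (E : H.Evo) {K G : ℝ} (hK : ∀ t ∈ Ioo 0 H.T, ∀ x, |H.R t x| ≤ K) (hG : 0 ≤ G)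
    (hF : ∀ t ∈ Icc a b, ∀ x, H.gam t F F x ≤ G / l ^ 2) :
    ∀ t ∈ Icc a b, ∀ x, |H.potV l F u t x| ≤
      Real.exp (-((t - a) / l ^ 2)) / l ^ 2 + (G + K / 2) / l := by
  have hl := P.lp
  have sG := A.sm_gam P.st P.sm P.sm
  have sV := P.smV A
  have sR := A.sm_R P.st
  have s2 : H.Sm a b fun t (_ : M) => Real.exp (-((t - a) / l ^ 2)) / l ^ 2 + (G + K / 4) / l :=
    A.sm_timeU (by fun_prop)
  have d2 : HasDt a b (fun t (_ : M) => Real.exp (-((t - a) / l ^ 2)) / l ^ 2 + (G + K / 4) / l)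
      fun t _ => Real.exp (-((t - a) / l ^ 2)) * (-(1 / l ^ 2)) / l ^ 2 :=
    HasDt.time fun t _ =>
      ((((((hasDerivAt_id t).sub_const a).div_const (l ^ 2)).neg).exp).div_const _).add_const _
  have main : ∀ σ : ℝ, σ ^ 2 = 1 → ∀ t ∈ Icc a b, ∀ x, σ * H.potV l F u t x +
      l * H.gam t (u t) (u t) x - (4 * l)⁻¹ * H.R t x -
        (Real.exp (-((t - a) / l ^ 2)) / l ^ 2 + (G + K / 4) / l) ≤ 0 := by
    intro σ hσ
    have s1 := A.sm_cmul σ sV
    have s3 := A.sm_cmul l sG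
    have s4 := A.sm_cmul (4 * l)⁻¹ sR
    refine A.maxp P.st (A.sm_sub (A.sm_sub (A.sm_add s1 s3) s4) s2)
      (((((P.dV A E).cmul σ).add ((P.dG A E).cmul l)).sub
        ((E.dt_R P.st).cmul (4 * l)⁻¹)).sub d2) 0 (fun x => ?_) fun t ht x hp hl' _ => ?_
    · have ha : a ∈ Icc a b := ⟨le_rfl, P.st.2.1.le⟩
      have hT := P.st.mem ha
      have e : u a = fun _ => 0 := funext P.init
      have h1 : H.potV l F u a x = F x / l ^ 2 := by
        unfold potV; rw [e, A.lap_const hT]; simp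
      have h2 : σ * F x ≤ 1 := by nlinarith [P.Fn x, P.F1 x, sq_nonneg (σ - 1), sq_nonneg (σ + 1)]
      have h3 : σ * (F x / l ^ 2) ≤ 1 / l ^ 2 := by
        rw [← mul_div_assoc]; exact div_le_div_of_nonneg_right h2 (sq_nonneg l)
      have h4 := (abs_le.1 (hK a hT x)).1
      have h5 : -((4 * l)⁻¹ * H.R a x) ≤ (G + K / 4) / l := by
        have : (G + K / 4) / l = (4 * l)⁻¹ * (4 * G + K) := by field_simp
        rw [this, ← mul_neg]
        exact mul_le_mul_of_nonneg_left (by linarith) (by positivity)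
      rw [h1, P.gam_init A]
      simp only [sub_self, zero_div, neg_zero, Real.exp_zero]
      linarith
    · have hm : t ∈ Icc a b := Ioc_subset_Icc_self ht
      have hT := P.st.mem hm
      have u0 := A.sm_s0 P.sm t hm
      have v0 := A.sm_s0 sV t hm
      have g0 := A.sm_s0 sG t hm
      have r0 := A.sm_s0 sR t hm
      rw [A.lap_sub hT (A.s0_sub (A.s0_add (A.s0_cmul σ v0) (A.s0_cmul l g0))
          (A.s0_cmul _ r0)) (A.s0_const _), A.lap_const hT,
        A.lap_sub hT (A.s0_add (A.s0_cmul σ v0) (A.s0_cmul l g0)) (A.s0_cmul _ r0),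
        A.lap_add t hT (A.s0_cmul σ v0) (A.s0_cmul l g0), A.lap_cmul hT _ v0,
        A.lap_cmul hT _ g0, A.lap_cmul hT _ r0] at hl'
      have h1 := P.gam_uF A hm x
      have h2 := hF t hm x
      have h3 := E.hh_nonneg t hT u0 x
      have h4 := E.rh_sq t hT u0 x
      have h5 := E.Q_nonneg 0 t hT x
      have h6 := (abs_le.1 (hK t hT x)).1
      set v := H.potV l F u t x
      set g := H.gam t (u t) (u t) x
      set hh := H.hh t (u t) x
      set q := H.Q 0 t x
      set rh := H.rh t (u t) x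
      set ee := Real.exp (-((t - a) / l ^ 2))
      have h7 : σ * (2 * rh) ≤ l * (2 * hh) + (4 * l)⁻¹ * (2 * q) := by
        have e1 : l * (2 * hh) + (4 * l)⁻¹ * (2 * q) = (4 * l ^ 2 * hh + q) / (2 * l) := by
          field_simp; ring
        rw [e1, le_div_iff₀ (by positivity)]
        refine le_of_abs_le (abs_le_of_sq_le_sq' ?_ (by positivity) |> abs_le.2)
        have : (σ * (2 * rh) * (2 * l)) ^ 2 = 16 * l ^ 2 * rh ^ 2 := by
          rw [mul_pow, mul_pow, hσ]; ring
        rw [this]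
        nlinarith [sq_nonneg (4 * l ^ 2 * hh - q), mul_le_mul_of_nonneg_left h4 (sq_nonneg l)]
      have h8 : l * (2 * (H.gam t (u t) F x - g) / l ^ 2) ≤ (G / l - l * g) / l ^ 2 := by
        rw [← mul_div_assoc]
        refine div_le_div_of_nonneg_right ?_ (sq_nonneg l)
        have : G / l = l * (G / l ^ 2) := by field_simp
        rw [this]
        nlinarith
      have h9 : (4 * l)⁻¹ * H.R t x + K / 4 / l ≥ 0 := by
        have : K / 4 / l = (4 * l)⁻¹ * K := by field_simp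
        rw [this, ← mul_add]
        exact mul_nonneg (by positivity) (by linarith)
      have h10 : (G + K / 4) / l = G / l + K / 4 / l := by ring
      have h11 : (-(σ * v) + (G / l - l * g) + ee / l ^ 2) / l ^ 2 ≤ 0 :=
        div_nonpos_of_nonpos_of_nonneg (by linarith) (sq_nonneg l)
      have h12 : (-(σ * v) + (G / l - l * g) + ee / l ^ 2) / l ^ 2 =
          -(σ * (v / l ^ 2)) + (G / l - l * g) / l ^ 2 - ee * (-(1 / l ^ 2)) / l ^ 2 := by ring
      nlinarith
  intro t ht x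
  have hT := P.st.mem ht
  have h1 := main 1 (by norm_num) t ht x
  have h2 := main (-1) (by norm_num) t ht x
  have h3 := A.gam_nonneg t hT (A.sm_s0 P.sm t ht) x
  have h4 := (abs_le.1 (hK t hT x)).2
  have h5 : (4 * l)⁻¹ * H.R t x ≤ K / 4 / l := by
    have : K / 4 / l = (4 * l)⁻¹ * K := by field_simp
    rw [this]
    exact mul_le_mul_of_nonneg_left h4 (by positivity)
  have h6 : (G + K / 2) / l = (G + K / 4) / l + K / 4 / l := by ring
  have h7 := mul_nonneg hl.le h3
  rw [abs_le]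
  constructor <;> linarith

end Pot

end HC

end Crest.Agent.N207

end
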