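import Crest.Agent.N207.E.St1

/-!
# Row 207, block E (static persistence, helper83): barriers for the potential
-/

set_option autoImplicit false
set_option linter.dupNamespace false
set_option linter.unusedSectionVars false
open Set MeasureTheory Filter Topology
open scoped ContDiff

noncomputable section

namespace Crest.Agent.N207

/-- continuity method on a strip -/
theorem cont_ind {M : Type*} [TopologicalSpace M] [CompactSpace M] {a b m m' : ℝ}
    {f : ℝ → M → ℝ} (hc : ContinuousOn (fun p : ℝ × M => f p.1 p.2) (Icc a b ×ˢ univ))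
    (hm : m < m') (h0 : ∀ y, f a y ≤ m')
    (h : ∀ t ∈ Icc a b, (∀ s ∈ Icc a t, ∀ y, f s y ≤ m') → ∀ y, f t y ≤ m) :
    ∀ t ∈ Icc a b, ∀ y, f t y ≤ m' := by
  have hcl : IsClosed ({t | ∀ y, f t y ≤ m'} ∩ Icc a b) := by
    have : {t | ∀ y, f t y ≤ m'} ∩ Icc a b = Icc a b ∩ ⋂ y, (Icc a b ∩ (fun t => f t y) ⁻¹' Iic m') := by
      ext t
      simp only [mem_inter_iff, mem_ofPred_eq, mem_iInter, mem_preimage, mem_Iic]
      exact ⟨fun h => ⟨h.2, fun y => ⟨h.2, h.1 y⟩⟩, fun h => ⟨fun y => (h.2 y).2, h.1⟩⟩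
    rw [this]
    refine isClosed_Icc.inter (isClosed_iInter fun y => ?_)
    exact (hc.comp (f := fun t => (t, y)) (by fun_prop)
      fun _ ht => ⟨ht, mem_univ _⟩).preimage_isClosed_of_isClosed isClosed_Icc isClosed_Iic
  refine hcl.Icc_subset_of_forall_mem_nhdsGT_of_Icc_subset h0 fun t ht hs => ?_
  have htm : t ∈ Icc a b := Ico_subset_Icc_self ht
  have h1 := h t htm fun s hs' => hs hs'
  have h2 : ∀ᶠ s in 𝓝[Icc a b] t, ∀ y ∈ (univ : Set M), f s y < m' := by
    have h3 : ∀ᶠ s in 𝓝 t, ∀ y ∈ (univ : Set M), s ∈ Icc a b → f s y < m' := by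
      refine (isCompact_univ (X := M)).eventually_forall_of_forall_eventually
        (P := fun s y => s ∈ Icc a b → f s y < m') fun y _ => ?_
      have h4 : ∀ᶠ p : ℝ × M in 𝓝[Icc a b ×ˢ univ] (t, y), f p.1 p.2 < m' :=
        (hc (t, y) ⟨htm, mem_univ _⟩).eventually_lt continuousWithinAt_const ((h1 y).trans_lt hm)
      filter_upwards [eventually_nhdsWithin_iff.1 h4] with p hp hp1 using hp ⟨hp1, mem_univ _⟩
    filter_upwards [mem_nhdsWithin_of_mem_nhds h3, self_mem_nhdsWithin] with s hs hs2 y hy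
      using hs y hy hs2
  have h5 : 𝓝[>] t ≤ 𝓝[Icc a b] t :=
    nhdsWithin_le_of_mem (mem_of_superset (Ioc_mem_nhdsGT ht.2)
      fun s hs => ⟨ht.1.trans hs.1.le, hs.2⟩)
  filter_upwards [h5 h2] with s hs y using (hs y (mem_univ y)).le

theorem psi_scale (c : ℝ) : (∀ s, deriv (fun s => E.psi (s / c)) s = deriv E.psi (s / c) / c) ∧
    ∀ s, deriv (deriv fun s => E.psi (s / c)) s = deriv (deriv E.psi) (s / c) / c ^ 2 := by
  have h1 : ∀ s, deriv (fun s => E.psi (s / c)) s = deriv E.psi (s / c) / c := fun s => by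
    have := ((E.psi_cd.differentiable (by simp) (s / c)).hasDerivAt.comp s
      ((hasDerivAt_id s).div_const c)).deriv
    simpa [div_eq_mul_inv, Function.comp_def] using this
  refine ⟨h1, fun s => ?_⟩
  rw [funext h1]
  have c1 : ContDiff ℝ ∞ (deriv E.psi) := E.psi_cd.iterate_deriv 1
  have := (((c1.differentiable (by simp) (s / c)).hasDerivAt.comp s
      ((hasDerivAt_id s).div_const c)).div_const c).deriv
  refine Eq.trans ?_ (this.trans ?_)
  · rfl
  · ring

theorem psi_scale_cd (c : ℝ) : ContDiff ℝ ∞ fun s => E.psi (s / c) :=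
  E.psi_cd.comp (contDiff_id.div_const c)

namespace HC

variable {M : Type*} [TopologicalSpace M] [CompactSpace M] [MeasurableSpace M] {H : HC M}

/-- the gradient of a static function changes at the rate of the Ricci curvature -/
theorem gam_static (A : H.Alg) (E : H.Evo) {a b q : ℝ} (hs : H.St a b) {F : M → ℝ} (F0 : H.S0 F)
    {y : M} (hq : ∀ σ ∈ Icc a b, √(H.Q 0 σ y) ≤ q) {s t : ℝ} (hs' : s ∈ Icc a b)
    (ht : t ∈ Icc a b) : H.gam t F F y ≤ Real.exp (2 * q * |t - s|) * H.gam s F F y := by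
  obtain ⟨G', -, dG⟩ := A.sm_dt hs.2.1 (A.sm_gam hs (A.sm_static F0) (A.sm_static F0))
  have hb : ∀ σ ∈ Icc a b, |G' σ y| ≤ 2 * q * H.gam σ F F y := fun σ hσ =>
    (E.dt_gam_static hs F0 dG σ hσ y).trans (mul_le_mul_of_nonneg_right
      (by linarith [hq σ hσ]) (A.gam_nonneg σ (hs.mem hσ) F0 y))
  have hd : ∀ c : ℝ, ∀ σ ∈ Icc a b, HasDerivWithinAt
      (fun σ => Real.exp (c * σ) * H.gam σ F F y)
      (Real.exp (c * σ) * (c * H.gam σ F F y + G' σ y)) (Icc a b) σ := fun c σ hσ => by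
    have h1 := (((hasDerivAt_id σ).const_mul c).exp.hasDerivWithinAt).mul (dG σ hσ y)
    refine HasDerivWithinAt.congr_deriv h1 ?_
    simp only [id]
    ring
  rcases le_total s t with hst | hst
  · have h1 := anti_of_deriv (hd (-(2 * q))) (fun σ hσ => mul_nonpos_of_nonneg_of_nonpos
      (Real.exp_pos _).le (by linarith [(abs_le.1 (hb σ (Ioo_subset_Icc_self hσ))).2])) hs' ht hst
    simp only at h1
    have h2 := mul_le_mul_of_nonneg_left h1 (Real.exp_pos (2 * q * t)).le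
    rw [← mul_assoc, ← mul_assoc, ← Real.exp_add, ← Real.exp_add] at h2
    rw [abs_of_nonneg (sub_nonneg.2 hst)]
    have e1 : 2 * q * t + -(2 * q) * t = 0 := by ring
    have e2 : 2 * q * t + -(2 * q) * s = 2 * q * (t - s) := by ring
    rwa [e1, e2, Real.exp_zero, one_mul] at h2
  · have h1 := mono_of_deriv (hd (2 * q)) (fun σ hσ => mul_nonneg
      (Real.exp_pos _).le (by linarith [(abs_le.1 (hb σ (Ioo_subset_Icc_self hσ))).1])) ht hs' hst
    simp only at h1
    have h2 := mul_le_mul_of_nonneg_left h1 (Real.exp_pos (-(2 * q * t))).le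
    rw [← mul_assoc, ← mul_assoc, ← Real.exp_add, ← Real.exp_add] at h2
    rw [abs_of_nonpos (sub_nonpos.2 hst)]
    have e1 : -(2 * q * t) + 2 * q * t = 0 := by ring
    have e2 : -(2 * q * t) + 2 * q * s = 2 * q * -(t - s) := by ring
    rwa [e1, e2, Real.exp_zero, one_mul] at h2

/-- the cutoff of a heat function -/
theorem heat_cut (A : H.Alg) {a b c : ℝ} (hs : H.St a b) {U : ℝ → M → ℝ} (hU : H.Heat a b U) :
    H.Sm a b (fun t x => E.psi (U t x / c)) ∧
    HasDt a b (fun t x => E.psi (U t x / c)) fun t x =>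
      H.lap t (fun y => E.psi (U t y / c)) x -
        deriv (deriv E.psi) (U t x / c) / c ^ 2 * H.gam t (U t) (U t) x := by
  refine ⟨A.sm_compU (φ := fun s => E.psi (s / c)) (psi_scale_cd c) hU.1,
    (HasDt.comp (φ := fun s => E.psi (s / c)) isOpen_univ (psi_scale_cd c).contDiffOn
      (fun _ _ _ => mem_univ _) hU.2).congr_d fun t ht x => ?_⟩
  rw [A.lap_compU (φ := fun s => E.psi (s / c)) (hs.mem ht) (psi_scale_cd c)
    (A.sm_s0 hU.1 t ht), (psi_scale c).2]
  ring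

namespace Pot

variable (A : H.Alg) {a b l : ℝ} {F : M → ℝ} {u : ℝ → M → ℝ} (P : H.Pot a b l F u)
include A P

/-- exponential decay away from the source -/
theorem upper {b' ρ : ℝ} (h1 : a < b') (h2 : b' ≤ b) {U : ℝ → M → ℝ} (hU : H.Heat a b' U)
    (hg : ∀ t ∈ Icc a b', ∀ x, H.gam t (U t) (U t) x ≤ 1)
    (hρ : ∀ t ∈ Icc a b', ∀ x, F x ≠ 0 → U t x ≤ ρ) :
    ∀ t ∈ Icc a b', ∀ x, u t x ≤ 2 * Real.exp ((ρ - U t x) / (2 * l)) := by
  have hl := P.lp
  have hs := P.st.mono le_rfl h1 h2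
  set φ : ℝ → ℝ := fun s => 2 * Real.exp ((ρ - s) / (2 * l)) with hφ
  have cφ : ContDiff ℝ ∞ φ := by simp only [hφ]; fun_prop
  have d1 : ∀ s, HasDerivAt φ (-(1 / (2 * l)) * φ s) s := fun s => by
    have := ((((hasDerivAt_id s).const_sub ρ).div_const (2 * l)).exp).const_mul 2
    refine this.congr_deriv ?_
    simp only [hφ, id]; ring
  have e1 : deriv φ = fun s => -(1 / (2 * l)) * φ s := funext fun s => (d1 s).deriv
  have e2 : ∀ s, deriv (deriv φ) s = φ s / (4 * l ^ 2) := fun s => by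
    rw [e1, ((d1 s).const_mul _).deriv]; field_simp; ring
  refine P.sup_cmp A h1 h2 (w := fun t x => φ (U t x)) (A.sm_compU cφ hU.1)
    (HasDt.comp (φ := φ) isOpen_univ cφ.contDiffOn (fun _ _ _ => mem_univ _) hU.2)
    (fun x => by simp only [hφ]; positivity) fun t ht x => ?_
  rw [A.lap_compU (hs.mem ht) cφ (A.sm_s0 hU.1 t ht), e2]
  have hp : 0 < φ (U t x) := by simp only [hφ]; positivity
  have h3 : F x ≤ φ (U t x) / 2 := by
    by_cases hF : F x = 0
    · rw [hF]; positivity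
    · have : 1 ≤ Real.exp ((ρ - U t x) / (2 * l)) :=
        Real.one_le_exp (div_nonneg (sub_nonneg.2 (hρ t ht x hF)) (by positivity))
      simp only [hφ]; linarith [P.F1 x]
  have h4 : φ (U t x) / (4 * l ^ 2) * H.gam t (U t) (U t) x ≤ φ (U t x) / (4 * l ^ 2) :=
    mul_le_of_le_one_right (by positivity) (hg t ht x)
  have h5 : φ (U t x) / (4 * l ^ 2) + (F x - φ (U t x)) / l ^ 2 ≤ 0 := by
    have : φ (U t x) / (4 * l ^ 2) + (F x - φ (U t x)) / l ^ 2 =
        (F x - 3 / 4 * φ (U t x)) / l ^ 2 := by field_simp; ring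
    rw [this]
    exact div_nonpos_of_nonpos_of_nonneg (by linarith) (sq_nonneg l)
  linarith

/-- phase 1 of the lower bound -/
theorem lower1 {K1 k t : ℝ} (hK : ∀ s, |deriv (deriv E.psi) s| ≤ K1 * E.chi s) (hK1 : 0 ≤ K1)
    (hk : 1 ≤ k) (hat : a ≤ t) (htb : t + l ^ 2 ≤ b) {U : ℝ → M → ℝ}
    (hU : H.Heat t (t + l ^ 2) U)
    (hg : ∀ σ ∈ Icc t (t + l ^ 2), ∀ x, H.gam σ (U σ) (U σ) x ≤ 1)
    (hF : ∀ σ ∈ Icc t (t + l ^ 2), ∀ x, U σ x < 2 * (k * l) → F x = 1) (x : M) :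
    E.psi (U (t + l ^ 2) x / (k * l)) / (2 + K1) ≤ u (t + l ^ 2) x := by
  have hl := P.lp
  have hlt : t < t + l ^ 2 := by nlinarith
  have hs := P.st.mono hat hlt htb
  obtain ⟨sψ, dψ⟩ := heat_cut A (c := k * l) hs hU
  have sθ : H.Sm t (t + l ^ 2) fun σ (_ : M) => (σ - t) / (l ^ 2 * (2 + K1)) :=
    A.sm_timeU (by fun_prop)
  have dθ : HasDt t (t + l ^ 2) (fun σ (_ : M) => (σ - t) / (l ^ 2 * (2 + K1)))
      fun _ _ => 1 / (l ^ 2 * (2 + K1)) :=
    HasDt.time (c' := fun _ => 1 / (l ^ 2 * (2 + K1)))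
      fun σ _ => ((hasDerivAt_id σ).sub_const t).div_const _
  have key := P.sub_cmp A hat hlt htb (A.sm_mul sθ sψ) (dθ.mul dψ)
    (fun x => by simpa using P.nonneg A t ⟨hat, hlt.le.trans htb⟩ x) (fun σ hσ x => ?_)
    (t + l ^ 2) ⟨hlt.le, le_rfl⟩ x
  · have e : (t + l ^ 2 - t) / (l ^ 2 * (2 + K1)) = 1 / (2 + K1) := by
      field_simp; ring
    rw [e] at key
    calc _ = 1 / (2 + K1) * E.psi (U (t + l ^ 2) x / (k * l)) := by ring
      _ ≤ _ := key
  · rw [A.lap_cmul (hs.mem hσ) _ (A.sm_s0 sψ σ hσ)]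
    set θ := (σ - t) / (l ^ 2 * (2 + K1)) with hθ
    have hθ0 : 0 ≤ θ := div_nonneg (sub_nonneg.2 hσ.1) (by positivity)
    have hθ1 : θ ≤ 1 / (2 + K1) := by
      rw [hθ, div_le_div_iff₀ (by positivity) (by positivity)]
      nlinarith [hσ.2]
    set s := U σ x / (k * l)
    have hkl : 0 < k * l := by positivity
    have hg0 := A.gam_nonneg σ (hs.mem hσ) (A.sm_s0 hU.1 σ hσ) x
    have hg1 := hg σ hσ x
    by_cases hc : U σ x < 2 * (k * l)
    · rw [hF σ hσ x hc]
      have h1 : |deriv (deriv E.psi) s| ≤ K1 := (hK s).trans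
        (mul_le_of_le_one_right hK1 (E.chi_le_one s))
      have h2 : -(deriv (deriv E.psi) s / (k * l) ^ 2 * H.gam σ (U σ) (U σ) x) ≤ K1 / l ^ 2 := by
        have h3 : |deriv (deriv E.psi) s / (k * l) ^ 2 * H.gam σ (U σ) (U σ) x| ≤ K1 / l ^ 2 := by
          rw [abs_mul, abs_div, abs_of_nonneg hg0, abs_of_pos (pow_pos hkl 2)]
          refine (mul_le_of_le_one_right (by positivity) hg1).trans ?_
          refine div_le_div₀ hK1 h1 (by positivity) ?_
          exact pow_le_pow_left₀ hl.le (by nlinarith) 2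
        linarith [neg_abs_le (deriv (deriv E.psi) s / (k * l) ^ 2 * H.gam σ (U σ) (U σ) x)]
      have h4 := E.psi_le_one s
      have h5 := E.psi_nonneg s
      have h6 : 1 / (l ^ 2 * (2 + K1)) * E.psi s ≤ 1 / (l ^ 2 * (2 + K1)) :=
        mul_le_of_le_one_right (by positivity) h4
      have h7 : θ * -(deriv (deriv E.psi) s / (k * l) ^ 2 * H.gam σ (U σ) (U σ) x) ≤
          1 / (2 + K1) * (K1 / l ^ 2) :=
        (mul_le_mul_of_nonneg_left h2 hθ0).trans (mul_le_mul_of_nonneg_right hθ1 (by positivity))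
      have h8 : θ * E.psi s ≤ 1 / (2 + K1) := (mul_le_of_le_one_right hθ0 h4).trans hθ1
      have h9 : (1 - 1 / (2 + K1)) / l ^ 2 ≤ (1 - θ * E.psi s) / l ^ 2 :=
        div_le_div_of_nonneg_right (by linarith) (sq_nonneg l)
      have h10 : (1 - 1 / (2 + K1)) / l ^ 2 =
          1 / (l ^ 2 * (2 + K1)) + 1 / (2 + K1) * (K1 / l ^ 2) := by field_simp; ring
      linarith
    · have h0 : 2 ≤ s := by rw [le_div_iff₀ hkl]; linarith [not_lt.1 hc]
      have h1 : deriv (deriv E.psi) s = 0 := by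
        have := hK s
        rw [E.chi_zero h0, mul_zero] at this
        exact abs_nonpos_iff.1 this
      rw [h1, E.psi_zero h0]
      have := div_nonneg (P.Fn x) (sq_nonneg l)
      simp only [mul_zero, zero_div, zero_mul, sub_zero, zero_add]
      linarith

/-- phase 2 of the lower bound -/
theorem lower2 {t θ δ : ℝ} (hat : a ≤ t) (htb : t + l ^ 2 ≤ b) {h : ℝ → M → ℝ}
    (hh : H.Heat t (t + l ^ 2) h) (hi : ∀ x, θ * (h t x - δ) ≤ u t x) (x : M) :
    θ * Real.exp (-1) * (h (t + l ^ 2) x - δ) ≤ u (t + l ^ 2) x := by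
  have hl := P.lp
  have hlt : t < t + l ^ 2 := by nlinarith
  have hs := P.st.mono hat hlt htb
  have s2 : H.Sm t (t + l ^ 2) fun σ (_ : M) => θ * Real.exp (-((σ - t) / l ^ 2)) :=
    A.sm_timeU (by fun_prop)
  have d2 : HasDt t (t + l ^ 2) (fun σ (_ : M) => θ * Real.exp (-((σ - t) / l ^ 2)))
      fun σ _ => θ * (Real.exp (-((σ - t) / l ^ 2)) * (-(1 / l ^ 2))) :=
    HasDt.time fun σ _ =>
      (((((hasDerivAt_id σ).sub_const t).div_const (l ^ 2)).neg).exp).const_mul θ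
  have s3 := A.sm_sub hh.1 (A.sm_const δ)
  have key := P.sub_cmp A hat hlt htb (A.sm_mul s2 s3)
    (d2.mul (hh.2.sub (HasDt.static fun _ => δ))) (fun x => by simpa using hi x)
    (fun σ hσ x => ?_) (t + l ^ 2) ⟨hlt.le, le_rfl⟩ x
  · have e : (t + l ^ 2 - t) / l ^ 2 = 1 := by field_simp; ring
    rwa [e] at key
  · rw [A.lap_cmul (hs.mem hσ) _ (A.sm_s0 s3 σ hσ),
      A.lap_sub (hs.mem hσ) (A.sm_s0 hh.1 σ hσ) (A.s0_const δ), A.lap_const (hs.mem hσ)]
    have := div_nonneg (P.Fn x) (sq_nonneg l)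
    have e : (F x - θ * Real.exp (-((σ - t) / l ^ 2)) * (h σ x - δ)) / l ^ 2 = F x / l ^ 2 +
        θ * (Real.exp (-((σ - t) / l ^ 2)) * (-(1 / l ^ 2))) * (h σ x - δ) := by ring
    rw [e]
    linarith

end Pot

end HC

end Crest.Agent.N207

end
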