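import Crest.Agent.N207.E.St2
import Crest.Agent.N207.C.Cutf
import Crest.Agent.N207.D.Flux

/-!
# Row 207, block E (static persistence, helper83): energy under a slowly moving cutoff
-/

set_option autoImplicit false
set_option linter.dupNamespace false
set_option linter.unusedSectionVars false
open Set MeasureTheory Filter Topology
open scoped ContDiff

noncomputable section

namespace Crest.Agent.N207

/-- `1` for `s ≥ 2c`, `0` for `s ≤ c` -/
def lcut (c s : ℝ) : ℝ := E.psi (3 - s / c)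

theorem lcut_cd (c : ℝ) : ContDiff ℝ ∞ (lcut c) :=
  E.psi_cd.comp (contDiff_const.sub (contDiff_id.div_const c))

theorem lcut_one {c s : ℝ} (hc : 0 < c) (h : 2 * c ≤ s) : lcut c s = 1 :=
  E.psi_one (by have : 2 ≤ s / c := (le_div_iff₀ hc).2 h
                linarith)

theorem lcut_zero {c s : ℝ} (hc : 0 < c) (h : s ≤ c) : lcut c s = 0 :=
  E.psi_zero (by have : s / c ≤ 1 := (div_le_one hc).2 h
                 linarith)

theorem lcut_d1 (c s : ℝ) : deriv (lcut c) s = -(deriv E.psi (3 - s / c) / c) := by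
  have := ((E.psi_cd.differentiable (by simp) (3 - s / c)).hasDerivAt.comp s
    (((hasDerivAt_id s).div_const c).const_sub 3)).deriv
  refine Eq.trans ?_ (this.trans ?_)
  · rfl
  · ring

theorem lcut_d2 (c s : ℝ) : deriv (deriv (lcut c)) s = deriv (deriv E.psi) (3 - s / c) / c ^ 2 := by
  rw [funext (lcut_d1 c)]
  have c1 : ContDiff ℝ ∞ (deriv E.psi) := E.psi_cd.iterate_deriv 1
  have := (((c1.differentiable (by simp) (3 - s / c)).hasDerivAt.comp s
      (((hasDerivAt_id s).div_const c).const_sub 3)).div_const c).neg.deriv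
  refine Eq.trans ?_ (this.trans ?_)
  · rfl
  · ring

theorem lcut_bounds : ∃ K, 1 ≤ K ∧ ∀ c > 0, ∀ s, |deriv (lcut c) s| ≤ K / c * √(lcut c s) ∧
    |deriv (deriv (lcut c)) s| ≤ K / c ^ 2 * √(lcut c s) := by
  obtain ⟨K, hK, k1, k2⟩ := E.psi_bounds
  refine ⟨K, hK, fun c hc s => ?_⟩
  have e : √(lcut c s) = E.chi (3 - s / c) := by
    unfold lcut; rw [E.psi_eq, Real.sqrt_sq (E.chi_nonneg _)]
  have h0 := E.chi_nonneg (3 - s / c)
  have h1 := E.chi_le_one (3 - s / c)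
  rw [e, lcut_d1, lcut_d2, abs_neg, abs_div, abs_div, abs_of_pos hc, abs_of_pos (pow_pos hc 2),
    div_mul_eq_mul_div, div_mul_eq_mul_div]
  refine ⟨div_le_div_of_nonneg_right ?_ hc.le, div_le_div_of_nonneg_right (k2 _) (sq_nonneg c)⟩
  refine abs_le_of_sq_le_sq' ((k1 _).trans ?_) (by positivity) |> abs_le.2
  rw [E.psi_eq]
  have h2 : K * E.chi (3 - s / c) ^ 2 * E.chi (3 - s / c) ≤ K * E.chi (3 - s / c) ^ 2 :=
    mul_le_of_le_one_right (by positivity) h1
  nlinarith [mul_nonneg (sub_nonneg.2 hK) (mul_nonneg (by linarith : 0 ≤ K)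
    (sq_nonneg (E.chi (3 - s / c))))]

namespace HC

variable {M : Type*} [TopologicalSpace M] [CompactSpace M] [MeasurableSpace M]
  [OpensMeasurableSpace M] {H : HC M}

/-- a function whose level sets move slowly -/
structure Mov (H : HC M) (a b l c Λ : ℝ) (u v : ℝ → M → ℝ) : Prop where
  st : H.St a b
  sm : H.Sm a b u
  dt : HasDt a b u v
  bv : ∀ t ∈ Icc a b, ∀ x, |v t x| ≤ Λ / l ^ 2
  bl : ∀ t ∈ Icc a b, ∀ x, |H.lap t (u t) x| ≤ Λ / l ^ 2
  bg : ∀ t ∈ Icc a b, ∀ x, H.gam t (u t) (u t) x ≤ Λ / l ^ 2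
  vol : ∀ t ∈ Icc a b, (H.vol t).real {x | c < u t x} ≤ Λ * l ^ 4

theorem Mov.cutf {K : ℝ} (hK : 1 ≤ K) (hb : ∀ c > 0, ∀ s, |deriv (lcut c) s| ≤ K / c * √(lcut c s) ∧
    |deriv (deriv (lcut c)) s| ≤ K / c ^ 2 * √(lcut c s)) (h : H.Ok) {a b l c Λ : ℝ}
    {u v : ℝ → M → ℝ} (m : H.Mov a b l c Λ u v) (hl : 0 < l) (hc : 0 < c) (hΛ : 1 ≤ Λ) :
    H.Cutf a b l (Λ * (1 + K / c + K ^ 2 / c ^ 2)) (fun t x => lcut c (u t x))
      fun t x => deriv (lcut c) (u t x) * v t x := by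
  have A := h.alg
  have p1 : 0 ≤ K / c := by positivity
  have p2 : K / c ^ 2 ≤ K ^ 2 / c ^ 2 := div_le_div_of_nonneg_right (by nlinarith) (sq_nonneg c)
  have p3 : 0 ≤ K / c ^ 2 := by positivity
  have p4 : 0 ≤ Λ / l ^ 2 := by positivity
  have e : Λ * (1 + K / c + K ^ 2 / c ^ 2) / l ^ 2 = Λ / l ^ 2 * (1 + K / c + K ^ 2 / c ^ 2) := by
    ring
  refine ⟨A.sm_compU (lcut_cd c) m.sm, HasDt.comp isOpen_univ (lcut_cd c).contDiffOn
    (fun _ _ _ => mem_univ _) m.dt, fun t _ x => E.psi_nonneg _, fun t _ x => E.psi_le_one _,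
    fun t ht x => ?_, fun t ht x => ?_, fun t ht x => ?_, fun t ht => ?_⟩
  · have q := Real.sqrt_nonneg (lcut c (u t x))
    rw [abs_mul, e]
    refine (mul_le_mul (hb c hc _).1 (m.bv t ht x) (abs_nonneg _) (by positivity)).trans ?_
    nlinarith [mul_nonneg p4 q, mul_nonneg (mul_nonneg p4 q) (p3.trans p2)]
  · have q := Real.sqrt_nonneg (lcut c (u t x))
    have hT := m.st.mem ht
    have g0 := A.gam_nonneg t hT (A.sm_s0 m.sm t ht) x
    rw [A.lap_compU hT (lcut_cd c) (A.sm_s0 m.sm t ht), e]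
    refine (abs_add_le _ _).trans ?_
    rw [abs_mul, abs_mul, abs_of_nonneg g0]
    have k1 := mul_le_mul (hb c hc (u t x)).1 (m.bl t ht x) (abs_nonneg _) (by positivity)
    have k2 := mul_le_mul (hb c hc (u t x)).2 (m.bg t ht x) g0 (by positivity)
    nlinarith [mul_nonneg p4 q, mul_le_mul_of_nonneg_left p2 (mul_nonneg p4 q)]
  · have hT := m.st.mem ht
    have g0 := A.gam_nonneg t hT (A.sm_s0 m.sm t ht) x
    have q : 0 ≤ lcut c (u t x) := E.psi_nonneg _
    rw [A.gam_compU2 hT (lcut_cd c) (A.sm_s0 m.sm t ht), e]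
    have k1 : deriv (lcut c) (u t x) ^ 2 ≤ K ^ 2 / c ^ 2 * lcut c (u t x) := by
      have := pow_le_pow_left₀ (abs_nonneg _) (hb c hc (u t x)).1 2
      rwa [sq_abs, mul_pow, Real.sq_sqrt q, div_pow] at this
    have k2 := mul_le_mul k1 (m.bg t ht x) g0 (by positivity)
    nlinarith [mul_nonneg p4 q, mul_nonneg (mul_nonneg p4 q) p1]
  · have := h.int.fin t (m.st.mem ht)
    refine le_trans (measureReal_mono fun x hx => ?_) ((m.vol t ht).trans ?_)
    · by_contra hn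
      exact hx (lcut_zero hc (not_lt.1 hn))
    · refine mul_le_mul_of_nonneg_right ?_ (by positivity)
      nlinarith [p3.trans p2]

/-- the energy seen by a slowly moving cutoff -/
theorem en_move (h : H.Ok) (hD : H.DOut) {t0 c : ℝ} (h0 : 0 < t0) (hc : 0 < c) :
    ∃ C1, 0 < C1 ∧ ∀ Λ ≥ 1, ∃ C2, 0 < C2 ∧ ∀ {a b l : ℝ} {u v : ℝ → M → ℝ} {β : ℝ → ℝ},
      t0 ≤ a → 0 < l → l ≤ 1 → H.Mov a b l c Λ u v → ContinuousOn β (Icc a b) →
      (∀ t ∈ Icc a b, 0 ≤ β t) → (∀ t ∈ Icc a b, ∀ x, |v t x| ≤ β t) → ∀ s t : ℝ, a + l ^ 2 ≤ s → s ≤ t → t ≤ b →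
      ∫ x, lcut (2 * c) (u t x) * H.N 0 t x ∂H.vol t ≤
        ∫ x, lcut (2 * c) (u s x) * H.N 0 s x ∂H.vol s + C1 * (∫ σ in s..t, β σ) +
          C2 * ((t - s) / l + l) := by
  have A := h.alg
  have I := h.int
  obtain ⟨K, hK, hb⟩ := lcut_bounds
  obtain ⟨En, hEn, hN, -⟩ := hD.glob t0 h0
  obtain ⟨Cf, hCf, hF⟩ := hD.flux
  refine ⟨K / (2 * c) * 16 * En, by positivity, fun Λ hΛ => ?_⟩
  have hL : 1 ≤ Λ * (1 + K / c + K ^ 2 / c ^ 2) := by
    have : 0 ≤ K / c + K ^ 2 / c ^ 2 := by positivity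
    nlinarith
  obtain ⟨Cd, hCd, hQ⟩ := hD.loc t0 h0 _ hL
  set κ := Cf * (K / (2 * c) * √Λ) with hκ
  have hκ0 : 0 < κ := by positivity
  refine ⟨κ * (En + Cd) + 4 * Cd, by positivity,
    fun {a b l u v β} ha hl hl1 m cβ hβ0 hβ s t k1 k2 k3 => ?_⟩
  have hs := m.st
  have k0 : a ≤ s := by nlinarith [sq_nonneg l]
  have sub : Icc s t ⊆ Icc a b := Icc_subset_Icc k0 k3
  have hψ := m.cutf hK hb h hl hc hΛ
  have k4 : a + l ^ 2 / (Λ * (1 + K / c + K ^ 2 / c ^ 2)) ≤ s := by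
    have : l ^ 2 / (Λ * (1 + K / c + K ^ 2 / c ^ 2)) ≤ l ^ 2 := div_le_self (sq_nonneg l) hL
    linarith
  obtain ⟨q1, q2⟩ := hQ ha hs hl hl1 hψ s t k4 k2 k3
  have hc2 : 0 < 2 * c := by positivity
  have sχ : H.Sm a b fun t x => lcut (2 * c) (u t x) := A.sm_compU (lcut_cd _) m.sm
  have dχ : HasDt a b (fun t x => lcut (2 * c) (u t x))
      fun t x => deriv (lcut (2 * c)) (u t x) * v t x :=
    HasDt.comp isOpen_univ (lcut_cd _).contDiffOn (fun _ _ _ => mem_univ _) m.dt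
  have f1 := (abs_le.1 (hF hs sχ dχ s t k0 k2 k3)).2
  have ap := D.ap_flux A h.evo hs Cf sχ dχ
  have sJ : H.Sm a b fun σ x => lcut c (u σ x) * (H.Q 0 σ x ^ 2 + H.Q 1 σ x) :=
    A.sm_mul hψ.sm (A.sm_add (A.sm_pow 2 (A.sm_Q 0 hs)) (A.sm_Q 1 hs))
  have cJ := (A.int_cont I hs sJ).mono sub
  have cβ' := cβ.mono sub
  have χψ : ∀ y : ℝ, lcut (2 * c) y ≤ lcut c y ∧ √(lcut (2 * c) y) ≤ lcut c y := fun y => by
    by_cases hy : y ≤ 2 * c
    · rw [lcut_zero hc2 hy, Real.sqrt_zero]; exact ⟨E.psi_nonneg _, E.psi_nonneg _⟩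
    · rw [lcut_one hc (not_le.1 hy).le]
      exact ⟨E.psi_le_one _, Real.sqrt_le_one.2 (E.psi_le_one _)⟩
  -- the pointwise in time bound of the flux
  have f2 : ∀ σ ∈ Icc s t, ∫ x, (|deriv (lcut (2 * c)) (u σ x) * v σ x| * |H.Pf σ x| +
      Cf * (√(H.gam σ (fun x => lcut (2 * c) (u σ x)) (fun x => lcut (2 * c) (u σ x)) x) *
        √(H.N 0 σ x) * √(H.Q 1 σ x))) ∂H.vol σ ≤ K / (2 * c) * 16 * En * β σ + κ / l * En +
      κ / l * ∫ x, lcut c (u σ x) * (H.Q 0 σ x ^ 2 + H.Q 1 σ x) ∂H.vol σ := by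
    intro σ hσ
    have hσ' := sub hσ
    have hT := hs.mem hσ'
    have β0 : 0 ≤ β σ := hβ0 σ hσ'
    have iN := A.integrable I hT (A.s0_N hT 0)
    have k5 := D.int_comb (K / (2 * c) * 16 * β σ) (κ / l) (κ / l) 0
      (A.integrable_cont I hT (ap.cont A hσ')) iN iN (A.integrable I hT (A.sm_s0 sJ σ hσ')) iN
      fun x => by
        have n0 := h.evo.N_nonneg 0 σ hT x
        have n1 := h.evo.Q_nonneg 1 σ hT x
        have u0 := A.sm_s0 m.sm σ hσ'
        have g0 := A.gam_nonneg σ hT u0 x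
        have r1 := (hb _ hc2 (u σ x)).1
        have r2 := (χψ (u σ x)).2
        have ψ1 : lcut c (u σ x) ≤ 1 := E.psi_le_one _
        have ψ0 : 0 ≤ lcut c (u σ x) := E.psi_nonneg _
        have r3 : |deriv (lcut (2 * c)) (u σ x)| ≤ K / (2 * c) * lcut c (u σ x) :=
          r1.trans (mul_le_mul_of_nonneg_left r2 (by positivity))
        have r4 : |deriv (lcut (2 * c)) (u σ x)| ≤ K / (2 * c) :=
          r3.trans (mul_le_of_le_one_right (by positivity) ψ1)
        have t1 : |deriv (lcut (2 * c)) (u σ x) * v σ x| * |H.Pf σ x| ≤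
            K / (2 * c) * 16 * β σ * H.N 0 σ x := by
          rw [abs_mul]
          have := mul_le_mul (mul_le_mul r4 (hβ σ hσ' x) (abs_nonneg _) (by positivity))
            (D.abs_Pf_le h.evo hT x) (abs_nonneg _) (mul_nonneg (by positivity) β0)
          linarith
        have t2 : √(H.gam σ (fun x => lcut (2 * c) (u σ x)) (fun x => lcut (2 * c) (u σ x)) x) ≤
            K / (2 * c) * lcut c (u σ x) * (√Λ / l) := by
          rw [A.gam_compU2 hT (lcut_cd _) u0, Real.sqrt_mul (sq_nonneg _), Real.sqrt_sq_eq_abs]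
          refine mul_le_mul r3 ?_ (Real.sqrt_nonneg _) (by positivity)
          refine (Real.sqrt_le_sqrt (m.bg σ hσ' x)).trans ?_
          rw [Real.sqrt_div (by linarith), Real.sqrt_sq hl.le]
        have t3 : √(H.N 0 σ x) * √(H.Q 1 σ x) ≤ H.N 0 σ x + H.Q 1 σ x := by
          nlinarith [Real.sq_sqrt n0, Real.sq_sqrt n1, sq_nonneg (√(H.N 0 σ x) - √(H.Q 1 σ x)),
            Real.sqrt_nonneg (H.N 0 σ x), Real.sqrt_nonneg (H.Q 1 σ x)]
        have t4 := mul_le_mul t2 t3 (by positivity) (by positivity)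
        have t5 : Cf * (K / (2 * c) * lcut c (u σ x) * (√Λ / l) * (H.N 0 σ x + H.Q 1 σ x)) =
            κ / l * (lcut c (u σ x) * H.N 0 σ x + lcut c (u σ x) * H.Q 1 σ x) := by
          rw [hκ]; ring
        have t6 : lcut c (u σ x) * H.N 0 σ x + lcut c (u σ x) * H.Q 1 σ x ≤
            H.N 0 σ x + lcut c (u σ x) * (H.Q 0 σ x ^ 2 + H.Q 1 σ x) := by
          nlinarith [mul_nonneg ψ0 (sq_nonneg (H.Q 0 σ x))]
        have t7 := mul_le_mul_of_nonneg_left t6 (div_nonneg hκ0.le hl.le)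
        have t8 := mul_le_mul_of_nonneg_left t4 hCf.le
        rw [← mul_assoc (√_) (√_)] at t8
        linarith
    have k6 := hN σ ⟨ha.trans hσ'.1, hT.2⟩
    have k7 := mul_le_mul_of_nonneg_left k6 (show 0 ≤ K / (2 * c) * 16 * β σ from
      mul_nonneg (by positivity) β0)
    have k8 := mul_le_mul_of_nonneg_left k6 (div_nonneg hκ0.le hl.le)
    nlinarith
  have iβ : IntervalIntegrable β volume s t := cβ'.intervalIntegrable_of_Icc k2
  have iJ := cJ.intervalIntegrable_of_Icc (μ := volume) k2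
  have f3 := intervalIntegral.integral_mono_on k2
    (((ap.int_cont A I hs).mono sub).intervalIntegrable_of_Icc k2)
    (((iβ.const_mul (K / (2 * c) * 16 * En)).add (intervalIntegrable_const (c := κ / l * En))).add
      (iJ.const_mul (κ / l))) f2
  rw [intervalIntegral.integral_add ((iβ.const_mul _).add intervalIntegrable_const)
    (iJ.const_mul _), intervalIntegral.integral_add (iβ.const_mul _) intervalIntegrable_const,
    intervalIntegral.integral_const_mul, intervalIntegral.integral_const_mul,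
    intervalIntegral.integral_const_mul, intervalIntegral.integral_const, smul_eq_mul] at f3
  have htm : t ∈ Icc a b := ⟨k0.trans k2, k3⟩
  have hsm : s ∈ Icc a b := ⟨k0, k2.trans k3⟩
  have hT := hs.mem htm
  have hS := hs.mem hsm
  have iP := fun σ (hσ : σ ∈ Icc a b) =>
    A.integrable I (hs.mem hσ) (A.sm_s0 (A.sm_mul sχ (A.sm_Pf hs)) σ hσ)
  have iN := fun σ (hσ : σ ∈ Icc a b) =>
    A.integrable I (hs.mem hσ) (A.sm_s0 (A.sm_mul sχ (A.sm_N 0 hs)) σ hσ)
  have iQ := A.integrable I hT (A.sm_s0 (A.sm_mul hψ.sm (A.sm_Q 0 hs)) t htm)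
  have f4 := D.int_comb 1 4 0 0 (iN t htm) (iP t htm) iQ iQ iQ fun x => by
    have := mul_le_mul_of_nonneg_left (D.N_le_Pf (H := H) t x)
      (show 0 ≤ lcut (2 * c) (u t x) from E.psi_nonneg _)
    have := mul_le_mul_of_nonneg_right (χψ (u t x)).1 (h.evo.Q_nonneg 0 t hT x)
    nlinarith
  have f5 := integral_mono (iP s hsm) (iN s hsm) fun x =>
    mul_le_mul_of_nonneg_left (D.Pf_le h.evo hS x) (E.psi_nonneg _)
  have f6 := mul_le_mul_of_nonneg_left q2 (div_nonneg hκ0.le hl.le)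
  have f7 : κ / l * (Cd * (t - s + l ^ 2)) = κ * Cd * ((t - s) / l + l) := by field_simp
  have f8 : κ / l * ((t - s) * En) ≤ κ * En * ((t - s) / l + l) := by
    have : κ / l * ((t - s) * En) = κ * En * ((t - s) / l) := by ring
    rw [this]
    exact mul_le_mul_of_nonneg_left (by linarith) (by positivity)
  have f9 : Cd * l ^ 2 ≤ Cd * ((t - s) / l + l) := by
    refine mul_le_mul_of_nonneg_left ?_ hCd.le
    have := div_nonneg (sub_nonneg.2 k2) hl.le
    nlinarith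
  have f10 := f1.trans f3
  have f11 : (κ * (En + Cd) + 4 * Cd) * ((t - s) / l + l) = κ * En * ((t - s) / l + l) +
      κ * Cd * ((t - s) / l + l) + 4 * (Cd * ((t - s) / l + l)) := by ring
  rw [f11]
  simp only [one_mul, zero_mul, add_zero] at f4
  have f12 := f4.trans (add_le_add le_rfl (mul_le_mul_of_nonneg_left q1 (by norm_num)))
  have f13 := (sub_le_iff_le_add.1 f10).trans (add_le_add le_rfl f5)
  linarith

end HC

end Crest.Agent.N207

end
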