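import Crest.Agent.N207.E.St3

/-!
# Row 207, block E (static persistence, helper83): the potential attached to a ball
-/

set_option autoImplicit false
set_option linter.dupNamespace false
set_option linter.unusedSectionVars false
open Set MeasureTheory Filter Topology
open scoped ContDiff

noncomputable section

namespace Crest.Agent.N207

namespace HC

variable {M : Type*} [TopologicalSpace M] [CompactSpace M] [MeasurableSpace M]
  [OpensMeasurableSpace M] {H : HC M}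

/-- the lower bound for the potential near the source -/
theorem Pot.lower (h : H.Ok) {a b l : ℝ} {F : M → ℝ} {u : ℝ → M → ℝ} (P : H.Pot a b l F u)
    {K1 k t Dd : ℝ} (hK : ∀ s, |deriv (deriv E.psi) s| ≤ K1 * E.chi s) (hK1 : 0 ≤ K1)
    (hk : 1 ≤ k) (hk2 : 2 * K1 ≤ k) (hD : 0 ≤ Dd) (hat : a ≤ t) (htb : t + l ^ 2 + l ^ 2 ≤ b)
    {U : ℝ → M → ℝ} (hU : H.Heat t (t + l ^ 2 + l ^ 2) U)
    (hg : ∀ σ ∈ Icc t (t + l ^ 2 + l ^ 2), ∀ x, H.gam σ (U σ) (U σ) x ≤ 1)
    (hF : ∀ σ ∈ Icc t (t + l ^ 2), ∀ x, U σ x < 2 * (k * l) → F x = 1) {x y : M}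
    (hx : U (t + l ^ 2 + l ^ 2) x ≤ k * l) (hy : H.d (t + l ^ 2 + l ^ 2) x y ≤ Dd * l) :
    1 / (2 + K1) * Real.exp (-1) * (Real.exp (-(2 + Dd / 2) ^ 2) / 2) ≤
      u (t + l ^ 2 + l ^ 2) y := by
  have A := h.alg
  have hl := P.lp
  have l2 : 0 < l ^ 2 := by positivity
  have hkl : 0 < k * l := by positivity
  set t' := t + l ^ 2 with ht'
  set δ := Real.exp (-(2 + Dd / 2) ^ 2) / 2 with hδ
  have hδ0 : 0 < δ := by positivity
  have hδ1 : δ ≤ 1 := by
    have : Real.exp (-(2 + Dd / 2) ^ 2) ≤ 1 := Real.exp_le_one_iff.2 (by nlinarith)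
    linarith
  have hs : H.St t' (t' + l ^ 2) := P.st.mono (by linarith) (by linarith) htb
  have hU' := A.heat_mono hU (show t ≤ t' by linarith) le_rfl
  obtain ⟨sψ, dψ⟩ := heat_cut A (c := k * l) hs hU'
  have m0 : t' ∈ Icc t' (t' + l ^ 2) := ⟨le_rfl, by linarith⟩
  have m1 : t' + l ^ 2 ∈ Icc t' (t' + l ^ 2) := ⟨by linarith, le_rfl⟩
  obtain ⟨g, hg1, hg2⟩ := h.solv.heat hs (A.s0_add (A.sm_s0 sψ t' m0) (A.s0_const δ))
  have gp : ∀ σ ∈ Icc t' (t' + l ^ 2), ∀ z, 0 < g σ z := fun σ hσ z =>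
    hδ0.trans_le (A.heat_ge hs hg1 (m := δ) (fun z => by
      rw [hg2]; linarith [E.psi_nonneg (U t' z / (k * l))]) σ hσ z)
  have g2 : ∀ z, g t' z ≤ 2 := fun z => by
    rw [hg2]; linarith [E.psi_le_one (U t' z / (k * l))]
  have gx : 1 / 2 ≤ g (t' + l ^ 2) x := by
    have k1 := A.sub_le hs (A.sm_sub sψ hg1.1) (dψ.sub hg1.2) (m := 0) (c := K1 / (k * l) ^ 2)
      (fun z => by rw [hg2]; linarith) (fun σ hσ z => ?_) _ m1 x
    · rw [E.psi_one ((div_le_one hkl).2 hx)] at k1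
      have : K1 / (k * l) ^ 2 * (t' + l ^ 2 - t') ≤ 1 / 2 := by
        have e : K1 / (k * l) ^ 2 * (t' + l ^ 2 - t') = K1 / k ^ 2 := by field_simp; ring
        rw [e, div_le_div_iff₀ (by positivity) (by norm_num)]
        nlinarith
      linarith
    · have hm : σ ∈ Icc t' (t' + l ^ 2) := Ioc_subset_Icc_self hσ
      rw [A.lap_sub (hs.mem hm) (A.sm_s0 sψ σ hm) (A.sm_s0 hg1.1 σ hm)]
      have hg0 := A.gam_nonneg σ (hs.mem hm) (A.sm_s0 hU'.1 σ hm) z
      have hg3 := hg σ ⟨by linarith [hm.1], hm.2⟩ z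
      have h1 : |deriv (deriv E.psi) (U σ z / (k * l))| ≤ K1 := (hK _).trans
        (mul_le_of_le_one_right hK1 (E.chi_le_one _))
      have h3 : |deriv (deriv E.psi) (U σ z / (k * l)) / (k * l) ^ 2 * H.gam σ (U σ) (U σ) z| ≤
          K1 / (k * l) ^ 2 := by
        rw [abs_mul, abs_div, abs_of_nonneg hg0, abs_of_pos (pow_pos hkl 2)]
        exact (mul_le_of_le_one_right (by positivity) hg3).trans
          (div_le_div_of_nonneg_right h1 (sq_nonneg _))
      linarith [(abs_le.1 h3).1]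
  have gy : 2 * δ ≤ g (t' + l ^ 2) y := by
    have k1 := A.harnack h.evo h.dist hs hg1 gp g2 (t := t' + l ^ 2) ⟨by linarith, le_rfl⟩ x y
    have e : √(t' + l ^ 2 - t') = l := by
      rw [add_sub_cancel_left, Real.sqrt_sq hl.le]
    rw [e] at k1
    have l1 : Real.log 2 ≤ 1 := by linarith [Real.log_two_lt_d9]
    have l0 : 0 ≤ Real.log 2 := Real.log_nonneg (by norm_num)
    have k2 : -Real.log 2 ≤ Real.log (g (t' + l ^ 2) x) := by
      rw [← Real.log_inv]; exact Real.log_le_log (by norm_num) (by linarith)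
    have k3 : √(1 + Real.log 2 - Real.log (g (t' + l ^ 2) x)) ≤ 2 :=
      Real.sqrt_le_iff.2 ⟨by norm_num, by linarith⟩
    have k4 : H.d (t' + l ^ 2) x y / (2 * l) ≤ Dd / 2 := by
      rw [div_le_div_iff₀ (by positivity) (by norm_num)]; nlinarith
    have k5 : 1 + Real.log 2 - Real.log (g (t' + l ^ 2) y) ≤ (2 + Dd / 2) ^ 2 :=
      (Real.sqrt_le_iff.1 (show √(1 + Real.log 2 - Real.log (g (t' + l ^ 2) y)) ≤ 2 + Dd / 2 by
        linarith)).2
    have k6 := (Real.le_log_iff_exp_le (gp _ m1 y)).1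
      (show -(2 + Dd / 2) ^ 2 ≤ Real.log (g (t' + l ^ 2) y) by linarith)
    linarith
  have k7 := P.lower2 A (t := t') (θ := 1 / (2 + K1)) (δ := δ) (by linarith) htb hg1 (fun z => by
    have := P.lower1 A hK hK1 hk hat (by linarith) (A.heat_mono hU le_rfl (by linarith))
      (fun σ hσ => hg σ ⟨hσ.1, by linarith [hσ.2]⟩) hF z
    rw [hg2]
    calc _ = E.psi (U t' z / (k * l)) / (2 + K1) := by ring
      _ ≤ _ := this) y
  refine le_trans (mul_le_mul_of_nonneg_left (by linarith) (by positivity)) k7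

theorem sqrt_mul_sq_le {L l s : ℝ} (hL : 1 ≤ L) (hl : 0 < l) (h : s ≤ L * l ^ 2) : √s ≤ L * l :=
  Real.sqrt_le_iff.2 ⟨by positivity, h.trans (by nlinarith [mul_nonneg (sub_nonneg.2 hL) (mul_nonneg (by linarith : 0 ≤ L) (sq_nonneg l))])⟩

/-- the potential attached to the ball of radius `~ l` around `x` at time `t` -/
theorem exists_setup (h : H.Ok) (S2 : H.Solv2) (hC : H.COut) {t0 : ℝ} (h0 : 0 < t0) :
    ∃ p K1 c : ℝ, 0 < p ∧ 1 ≤ K1 ∧ 0 < c ∧ c ≤ 1 ∧ ∀ L ≥ 1, ∃ C', 0 < C' ∧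
      ∀ {t l b : ℝ} (x : M), 0 < l → t0 ≤ t - L * l ^ 2 → t + l ^ 2 + l ^ 2 ≤ b → b < H.T →
      ∃ F u, H.Pot (t - L * l ^ 2) b l F u ∧
        (∀ σ ∈ Ioo 0 H.T, ∀ y, p * l ≤ H.d t x y → H.gam σ F F y = 0) ∧
        (∀ y, H.gam t F F y ≤ K1 / l ^ 2) ∧
        (∀ y, H.d t x y < p * l → 8 * c ≤ u (t + l ^ 2 + l ^ 2) y) ∧
        (∀ y, c / 2 < u t y → H.d (t - L * l ^ 2) x y < C' * l) := by
  have A := h.alg
  obtain ⟨K1, hK1, k1, k2⟩ := E.psi_bounds
  obtain ⟨CL, hCL, hlip⟩ := A.exists_lipheat h.evo h.solv h.dist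
  obtain ⟨Cd, hCd, hlo⟩ := hC.dlo
  obtain ⟨Au, hAu, hup⟩ := hC.dup t0 h0
  set k := 1 + 2 * K1 + 2 * CL with hk
  set p := 2 * k + CL with hp
  have hk1 : 1 ≤ k := by linarith
  have hp1 : 1 ≤ p := by linarith
  set Dd := Au * (2 * p + 3) with hDd
  set c1 := 1 / (2 + K1) * Real.exp (-1) * (Real.exp (-(2 + Dd / 2) ^ 2) / 2) with hc1
  have c10 : 0 < c1 := by positivity
  refine ⟨2 * p + 1, K1, min 1 (c1 / 8), by positivity, hK1, by positivity, min_le_left _ _,
    fun L hL => ?_⟩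
  set c := min 1 (c1 / 8) with hc
  have c0 : 0 < c := by positivity
  have c8 : 8 * c ≤ c1 := by linarith [min_le_right 1 (c1 / 8)]
  refine ⟨2 * p + 3 + (Cd + 2 * CL) * L + 8 / c, by positivity,
    fun {t l b} x hl ha hb hbT => ?_⟩
  have l2 : 0 < l ^ 2 := by positivity
  have hLl : 0 < L * l ^ 2 := by positivity
  set a := t - L * l ^ 2 with ha'
  have hat : a < t := by linarith
  have hs : H.St a b := ⟨by linarith, by linarith, hbT⟩
  have hs1 : H.St t (t + l ^ 2 + l ^ 2) := hs.mono hat.le (by linarith) hb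
  have hs2 : H.St a t := hs.mono le_rfl hat (by linarith)
  have mt : t ∈ Icc t (t + l ^ 2 + l ^ 2) := ⟨le_rfl, by linarith⟩
  have mt' : t + l ^ 2 + l ^ 2 ∈ Icc t (t + l ^ 2 + l ^ 2) := ⟨by linarith, le_rfl⟩
  have hT := hs1.mem mt
  obtain ⟨U, hU, gU, -, mU, dU, -⟩ := hlip hs1 x l hl
  obtain ⟨W, hW, gW, -, -, dW, -⟩ := hlip hs2 x l hl
  have U0 := A.sm_s0 hU.1 t mt
  have hpl : 0 < p * l := by positivity
  have d0 : ∀ y, |U t y - H.d t x y| ≤ l := fun y => by simpa using dU t mt y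
  have F0 : H.S0 fun y => E.psi (U t y / (p * l)) :=
    A.s0_compU (φ := fun s => E.psi (s / (p * l))) (psi_scale_cd _) U0
  have gF : ∀ σ ∈ Ioo 0 H.T, ∀ y, H.gam σ (fun y => E.psi (U t y / (p * l)))
      (fun y => E.psi (U t y / (p * l))) y =
      (deriv E.psi (U t y / (p * l)) / (p * l)) ^ 2 * H.gam σ (U t) (U t) y := fun σ hσ y => by
    rw [A.gam_compU2 (φ := fun s => E.psi (s / (p * l))) hσ (psi_scale_cd _) U0, (psi_scale _).1]
  have far : ∀ y, (2 * p + 1) * l ≤ H.d t x y → 2 ≤ U t y / (p * l) := fun y hy => by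
    rw [le_div_iff₀ hpl]; linarith [(abs_le.1 (d0 y)).1]
  obtain ⟨u, P⟩ := exists_pot A S2 hs hl F0 (fun _ => E.psi_nonneg _) fun _ => E.psi_le_one _
  refine ⟨_, u, P, fun σ hσ y hy => ?_, fun y => ?_, fun y hy => c8.trans ?_, fun y hy => ?_⟩
  · have := k1 (U t y / (p * l))
    rw [E.psi_zero (far y hy), mul_zero, zero_mul] at this
    rw [gF σ hσ, pow_eq_zero_iff two_ne_zero |>.1 (le_antisymm this (sq_nonneg _))]
    simp
  · rw [gF t hT, div_pow]
    refine (mul_le_of_le_one_right (by positivity) (gU t mt y)).trans ?_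
    have q1 := E.psi_le_one (U t y / (p * l))
    have q2 := E.chi_le_one (U t y / (p * l))
    have q3 := E.psi_nonneg (U t y / (p * l))
    have q4 := E.chi_nonneg (U t y / (p * l))
    refine div_le_div₀ (by linarith) ((k1 _).trans ?_) l2 (pow_le_pow_left₀ hl.le (by nlinarith) 2)
    exact (mul_le_of_le_one_right (by positivity) q2).trans
      (mul_le_of_le_one_right (by linarith) q1)
  · have s2 : √(t + l ^ 2 + l ^ 2 - t) ≤ 2 * l := sqrt_mul_sq_le (by norm_num) hl (by linarith)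
    refine P.lower h k2 (by linarith) hk1 (by linarith) (by positivity) hat.le hb hU gU
      (fun σ hσ z hz => E.psi_one ?_) (x := x) ?_ ?_
    · rw [div_le_one hpl]
      have q1 := (abs_le.1 (mU t mt σ ⟨hσ.1, by linarith [hσ.2]⟩ hσ.1 z)).1
      have q2 : √(σ - t) ≤ 1 * l := sqrt_mul_sq_le le_rfl hl (by linarith [hσ.2])
      nlinarith [mul_le_mul_of_nonneg_left q2 hCL.le]
    · have q1 := (abs_le.1 (dU _ mt' x)).2
      rw [h.dist.self t hT] at q1
      nlinarith [mul_le_mul_of_nonneg_left s2 hCL.le]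
    · refine (hup t _ (by linarith) (by linarith) (hs1.mem mt').2 x y).trans ?_
      rw [hDd, mul_assoc]
      exact mul_le_mul_of_nonneg_left (by linarith) hAu.le
  · have mt2 : t ∈ Icc a t := ⟨hat.le, le_rfl⟩
    have sq : ∀ σ ∈ Icc a t, √(σ - a) ≤ L * l := fun σ hσ =>
      sqrt_mul_sq_le hL hl (by linarith [hσ.2])
    have q1 := P.upper A (ρ := (2 * p + 2 + (Cd + CL) * L) * l) hat (by linarith) hW gW
      (fun σ hσ z hz => ?_) t mt2 y
    · have q2 : c / 4 < Real.exp (((2 * p + 2 + (Cd + CL) * L) * l - W t y) / (2 * l)) := by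
        linarith
      have q3 := (Real.log_lt_iff_lt_exp (by positivity)).2 q2
      have q4 : -(4 / c) ≤ Real.log (c / 4) := by
        have := Real.log_le_self (show 0 ≤ (c / 4)⁻¹ by positivity)
        rw [Real.log_inv, inv_div] at this
        linarith
      have q5 := (lt_div_iff₀ (show 0 < 2 * l by positivity)).1 (q4.trans_lt q3)
      have q6 := (abs_le.1 (dW t mt2 y)).1
      have q7 := mul_le_mul_of_nonneg_left (sq t mt2) hCL.le
      have e : (2 * p + 3 + (Cd + 2 * CL) * L + 8 / c) * l =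
          (2 * p + 2 + (Cd + CL) * L) * l + 4 / c * (2 * l) + l + CL * (L * l) := by ring
      rw [e]
      linarith
    · have q2 : H.d t x z < (2 * p + 1) * l := by
        by_contra hn
        exact hz (E.psi_zero (far z (not_lt.1 hn)))
      have q3 := hlo a t hs.1 hat.le hT.2 x z
      have q4 := (abs_le.1 (dW σ hσ z)).2
      have q5 := mul_le_mul_of_nonneg_left (sq σ hσ) hCL.le
      have q6 := mul_le_mul_of_nonneg_left (sq t mt2) hCd.le
      have e : (2 * p + 2 + (Cd + CL) * L) * l =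
          (2 * p + 1) * l + l + Cd * (L * l) + CL * (L * l) := by ring
      rw [e]
      linarith

end HC

end Crest.Agent.N207

end
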