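import Crest.Agent.N207.E.St4

/-!
# Row 207, block E (helper83): a regular scale `r` persists forward for a time `c r`
-/

set_option autoImplicit false
set_option linter.dupNamespace false
set_option linter.unusedSectionVars false
open Set MeasureTheory Filter Topology
open scoped ContDiff

noncomputable section

namespace Crest.Agent.N207

theorem int_speed {a l g s t : ℝ} (hst : s ≤ t) :
    ∫ σ in s..t, (Real.exp (-((σ - a) / l ^ 2)) / l ^ 2 + g / l) ≤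
      Real.exp (-((s - a) / l ^ 2)) + g / l * (t - s) := by
  have := D.int_le_of_deriv (φ := fun σ => Real.exp (-((σ - a) / l ^ 2))) (c := g / l)
    (φ' := fun σ => Real.exp (-((σ - a) / l ^ 2)) * (-(1 / l ^ 2)))
    (g := fun σ => Real.exp (-((σ - a) / l ^ 2)) / l ^ 2 + g / l) hst
    (fun σ _ => ((((hasDerivAt_id σ).sub_const a).div_const (l ^ 2)).neg).exp.hasDerivWithinAt)
    (by fun_prop) fun σ _ => le_of_eq (by ring)
  linarith [Real.exp_pos (-((t - a) / l ^ 2))]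

namespace HC

variable {M : Type*} [TopologicalSpace M] [CompactSpace M] [MeasurableSpace M]
  [OpensMeasurableSpace M] {H : HC M}

theorem vol_real_le_st (I : H.Intg) {K : ℝ} (hK0 : 0 ≤ K) (hK : ∀ t ∈ Ioo 0 H.T, ∀ x, |H.R t x| ≤ K)
    {s t : ℝ} (hs : s ∈ Ioo 0 H.T) (ht : t ∈ Ioo 0 H.T) (S : Set M) :
    (H.vol t).real S ≤ Real.exp (K * H.T) * (H.vol s).real S := by
  have := I.fin s hs
  have h1 := I.vol_le hK s hs t ht S
  rw [Measure.smul_apply, smul_eq_mul] at h1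
  have h2 := ENNReal.toReal_mono (ENNReal.mul_ne_top ENNReal.ofReal_ne_top (measure_ne_top _ _)) h1
  rw [ENNReal.toReal_mul, ENNReal.toReal_ofReal (Real.exp_pos _).le] at h2
  refine h2.trans (mul_le_mul_of_nonneg_right (Real.exp_le_exp.2
    (mul_le_mul_of_nonneg_left ?_ hK0)) ENNReal.toReal_nonneg)
  rw [abs_le]; constructor <;> linarith [hs.1, hs.2, ht.1, ht.2]

/-- the core estimate: as long as the source stays Lipschitz, the energy stays small -/
theorem stat_core (h : H.Ok) {K G c η L Λ V C' C1 C2 c' ε0 n0 t l b' : ℝ} {x : M} {F : M → ℝ}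
    {u : ℝ → M → ℝ} (hK0 : 0 ≤ K) (hK : ∀ t ∈ Ioo 0 H.T, ∀ x, |H.R t x| ≤ K) (hG1 : 1 ≤ G)
    (hc : 0 < c) (hη1 : η ≤ c / 2) (hC1 : 0 < C1) (hC2 : 0 < C2) (hη2 : C1 * η ≤ ε0 / 4)
    (hL : 0 < L) (hLe : Real.exp (-L) ≤ η / 2) (c'1 : (G + K / 2) * c' ≤ η / 2)
    (c'2 : C2 * (c' + l) ≤ ε0 / 4) (hV : 0 ≤ V) (hΛ : Λ = 2 + G + K + V) (ll1 : l ≤ 1)
    (hn0 : 0 ≤ n0) (hn : Λ * l ^ 4 * n0 ≤ ε0 / 4)
    (P : H.Pot (t - L * l ^ 2) b' l F u) (hb1 : t + l ^ 2 + l ^ 2 ≤ b') (w4 : b' - t ≤ c' * l)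
    (hF : ∀ σ ∈ Icc (t - L * l ^ 2) b', ∀ y, H.gam σ F F y ≤ G / l ^ 2)
    (f4 : ∀ y, c / 2 < u t y → H.d (t - L * l ^ 2) x y < C' * l)
    (hvol : ∀ σ ∈ Ioo 0 H.T, (H.vol σ).real (H.B (t - L * l ^ 2) x (C' * l)) ≤ V * l ^ 4)
    (hN : ∀ z, H.d (t - L * l ^ 2) x z < C' * l → H.N 0 (t + l ^ 2 + l ^ 2) z ≤ n0)
    (hmv : ∀ {β : ℝ → ℝ}, H.Mov t b' l c Λ u (H.potV l F u) → ContinuousOn β (Icc t b') →
      (∀ σ ∈ Icc t b', 0 ≤ β σ) → (∀ σ ∈ Icc t b', ∀ x, |H.potV l F u σ x| ≤ β σ) →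
      ∀ s σ : ℝ, t + l ^ 2 ≤ s → s ≤ σ → σ ≤ b' →
      ∫ x, lcut (2 * c) (u σ x) * H.N 0 σ x ∂H.vol σ ≤
        ∫ x, lcut (2 * c) (u s x) * H.N 0 s x ∂H.vol s + C1 * (∫ r in s..σ, β r) +
          C2 * ((σ - s) / l + l))
    {σ : ℝ} (hσ : σ ∈ Icc (t + l ^ 2 + l ^ 2) b') {y : M}
    (hy : 8 * c ≤ u (t + l ^ 2 + l ^ 2) y) : H.en σ y (c / G * l) ≤ ε0 := by
  have A := h.alg
  have I := h.int
  have hl := P.lp
  have l2 : 0 < l ^ 2 := by positivity
  have w5 : 0 < L * l ^ 2 := by positivity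
  obtain ⟨a, ha⟩ : ∃ a, a = t - L * l ^ 2 := ⟨_, rfl⟩
  obtain ⟨ts, hts⟩ : ∃ ts, ts = t + l ^ 2 + l ^ 2 := ⟨_, rfl⟩
  rw [← ha] at P hF f4 hvol hN
  rw [← hts] at hb1 hN hσ hy
  have hat : a < t := by linarith
  have tts : t < ts := by linarith
  have gu := P.grad A h.evo (by positivity) hF
  have sp := P.speed A h.evo hK (by linarith) hF
  obtain ⟨β, hβ⟩ : ∃ β : ℝ → ℝ, β = fun σ =>
    Real.exp (-((σ - a) / l ^ 2)) / l ^ 2 + (G + K / 2) / l := ⟨_, rfl⟩
  have sp' : ∀ σ ∈ Icc a b', ∀ z, |H.potV l F u σ z| ≤ β σ := by rw [hβ]; exact sp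
  have cβ : Continuous β := by rw [hβ]; fun_prop
  have iβ : ∀ s1 s2, t ≤ s1 → s1 ≤ s2 → s2 ≤ b' → ∫ σ in s1..s2, β σ ≤ η := by
    intro s1 s2 k1 k2 k3
    rw [hβ]
    refine (int_speed k2).trans ?_
    have q1 : Real.exp (-((s1 - a) / l ^ 2)) ≤ Real.exp (-L) := Real.exp_le_exp.2
      (neg_le_neg ((le_div_iff₀ l2).2 (by linarith)))
    have q2 : (G + K / 2) / l * (s2 - s1) ≤ (G + K / 2) / l * (c' * l) :=
      mul_le_mul_of_nonneg_left (by linarith) (by positivity)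
    have q3 : (G + K / 2) / l * (c' * l) = (G + K / 2) * c' := by field_simp
    linarith
  have sub : Icc t b' ⊆ Icc a b' := Icc_subset_Icc hat.le le_rfl
  have mv : ∀ σ ∈ Icc t b', ∀ z, |u σ z - u t z| ≤ η := fun σ hσ z =>
    (D.abs_sub_le_int (φ := fun σ => u σ z) hσ.1
      (fun r hr => (P.dt.mono hat.le hσ.2) r hr z) cβ.continuousOn
      fun r hr => sp' r ⟨hat.le.trans hr.1, hr.2.trans hσ.2⟩ z).trans
      (iβ t σ le_rfl hσ.1 hσ.2)
  have lev : ∀ σ ∈ Icc t b', ∀ z, c < u σ z → z ∈ H.B a x (C' * l) := fun σ hσ z hz =>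
    f4 z (by linarith [(abs_le.1 (mv σ hσ z)).2])
  have bv : ∀ σ ∈ Icc t b', ∀ z, |H.potV l F u σ z| ≤ (1 + G + K / 2) / l ^ 2 := by
    intro σ hσ z
    refine (sp σ (sub hσ) z).trans ?_
    have q1 : Real.exp (-((σ - a) / l ^ 2)) ≤ 1 := Real.exp_le_one_iff.2
      (neg_nonpos.2 (div_nonneg (by linarith [hσ.1]) l2.le))
    have q2 : (G + K / 2) / l ≤ (G + K / 2) / l ^ 2 :=
      div_le_div_of_nonneg_left (by positivity) l2 (by nlinarith only [hl, ll1])
    have q3 := div_le_div_of_nonneg_right q1 l2.le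
    have : (1 + G + K / 2) / l ^ 2 = 1 / l ^ 2 + (G + K / 2) / l ^ 2 := by ring
    linarith
  have hst : H.St t b' := P.st.mono hat.le (tts.trans_le hb1) le_rfl
  have mov : H.Mov t b' l c Λ u (H.potV l F u) := by
    refine ⟨hst, A.sm_mono P.sm hat.le le_rfl, P.dt.mono hat.le le_rfl, fun σ hσ z => ?_,
      fun σ hσ z => ?_, fun σ hσ z => ?_, fun σ hσ => ?_⟩
    · exact (bv σ hσ z).trans (div_le_div_of_nonneg_right (by linarith) l2.le)
    · have q1 := abs_le.1 (bv σ hσ z)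
      have q2 : |(F z - u σ z) / l ^ 2| ≤ 1 / l ^ 2 := by
        rw [abs_div, abs_of_pos l2]
        refine div_le_div_of_nonneg_right (abs_le.2 ⟨?_, ?_⟩) l2.le
        · linarith [P.le_one A σ (sub hσ) z, P.Fn z]
        · linarith [P.nonneg A σ (sub hσ) z, P.F1 z]
      have q3 : (1 + G + K / 2) / l ^ 2 + 1 / l ^ 2 ≤ Λ / l ^ 2 := by
        rw [← add_div]; exact div_le_div_of_nonneg_right (by linarith) l2.le
      have q4 := abs_le.1 q2
      unfold potV at q1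
      rw [abs_le]; constructor <;> linarith [q1.1, q1.2, q4.1, q4.2]
    · exact (gu σ (sub hσ) z).trans (div_le_div_of_nonneg_right (by linarith) l2.le)
    · have := I.fin σ (hst.mem hσ)
      exact (measureReal_mono (lev σ hσ)).trans ((hvol σ (hst.mem hσ)).trans
        (mul_le_mul_of_nonneg_right (by linarith) (by positivity)))
  have m1 : ts ∈ Icc t b' := ⟨tts.le, hb1⟩
  have m2 : σ ∈ Icc t b' := ⟨tts.le.trans hσ.1, hσ.2⟩
  have hS := hst.mem m1
  have hZ := hst.mem m2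
  have k1 := hmv mov cβ.continuousOn (fun r _ => by rw [hβ]; positivity)
    (fun r hr z => sp' r (sub hr) z) ts σ (by linarith) hσ.1 hσ.2
  have u1 := A.sm_s0 mov.sm ts m1
  have u2 := A.sm_s0 mov.sm σ m2
  have k2 : ∫ z, lcut (2 * c) (u ts z) * H.N 0 ts z ∂H.vol ts ≤ ε0 / 4 := by
    have op : IsOpen {z | c < u ts z} := isOpen_lt continuous_const (A.s0_cont u1)
    have := I.fin ts hS
    refine (wt_le_setInt h hS op (A.s0_compU (lcut_cd _) u1) (A.s0_N hS 0)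
      (fun z => E.psi_le_one _) (h.evo.N_nonneg 0 ts hS) fun z hz => ?_).trans ?_
    · by_contra hn
      have : u ts z ≤ c := not_lt.1 hn
      exact hz (lcut_zero (by positivity) (by linarith))
    have q1 := setIntegral_mono_on (A.integrable I hS (A.s0_N hS 0)).integrableOn
      (integrable_const n0).integrableOn op.measurableSet fun z hz => hN z (lev ts m1 z hz)
    rw [setIntegral_const, smul_eq_mul] at q1
    exact q1.trans ((mul_le_mul_of_nonneg_right (mov.vol ts m1) hn0).trans hn)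
  have k3 := mul_le_mul_of_nonneg_left (iβ ts σ tts.le hσ.1 hσ.2) hC1.le
  have k4 : C2 * ((σ - ts) / l + l) ≤ ε0 / 4 := by
    have q1 : (σ - ts) / l ≤ c' := (div_le_iff₀ hl).2 (by linarith [hσ.2])
    exact (mul_le_mul_of_nonneg_left (by linarith) hC2.le).trans c'2
  have k5 := setInt_le_wt h hZ (isOpen_B h.dist hZ y (c / G * l))
    (A.s0_compU (lcut_cd (2 * c)) u2)
    (A.s0_N hZ 0) (fun z => E.psi_nonneg _) (h.evo.N_nonneg 0 σ hZ) fun z hz => by
      refine (lcut_one (by positivity) ?_).ge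
      have q1 := A.lip_glob h.dist hZ (A.s0_cmul (l / G) u2) (fun w => by
        rw [A.gam_cmul hZ _ u2 (A.s0_cmul _ u2), A.gam_cmul' hZ _ u2 u2, ← mul_assoc, ← sq]
        have r1 := mul_le_mul_of_nonneg_left (gu σ (sub m2) w) (sq_nonneg (l / G))
        have r2 : (l / G) ^ 2 * (G / l ^ 2) = 1 / G := by field_simp
        have r3 : 1 / G ≤ 1 := (div_le_one (by positivity)).2 hG1
        linarith) y z
      have q2 : H.d σ y z < c / G * l := hz
      have q3 : l / G * (u σ y - u σ z) < l / G * c := by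
        have : c / G * l = l / G * c := by ring
        linarith [(abs_le.1 q1).1]
      have q4 := lt_of_mul_lt_mul_left q3 (by positivity)
      linarith [(abs_le.1 (mv σ m2 y)).1, (abs_le.1 (mv ts m1 y)).2]
  have k6 : 0 ≤ ε0 / 4 := le_trans (mul_nonneg (mul_nonneg (by linarith) (by positivity)) hn0) hn
  unfold en
  linarith

end HC

end Crest.Agent.N207

end
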