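import Crest.Agent.N207.E.St5

/-!
# Row 207, block E (helper83): a regular scale `r` persists forward for a time `c r`
-/

set_option autoImplicit false
set_option linter.dupNamespace false
set_option linter.unusedSectionVars false
open Set MeasureTheory Filter Topology
open scoped ContDiff

noncomputable section

namespace Crest.Agent.N207

namespace HC

variable {M : Type*} [TopologicalSpace M] [CompactSpace M] [MeasurableSpace M]
  [OpensMeasurableSpace M] {H : HC M}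

/-- the continuity argument -/
theorem stat_boot (h : H.Ok) {K1 C0 ε0 c' l1 p t ts a l b : ℝ} {x : M} {F : M → ℝ}
    (hs : H.St a b) (F0 : H.S0 F) (hK1 : 1 ≤ K1) (hC0 : 0 < C0) (hl : 0 < l) (l10 : 0 < l1)
    (hp : 0 < p) (hat : a < t) (tts : t < ts) (tsb : ts ≤ b) (w1 : t - a ≤ c' * l)
    (w4 : b - t ≤ c' * l) (c'3 : c' ≤ l1 / (4 * √C0))
    (f1 : ∀ σ ∈ Ioo 0 H.T, ∀ y, p * l ≤ H.d t x y → H.gam σ F F y = 0)
    (f2 : ∀ y, H.gam t F F y ≤ K1 / l ^ 2)
    (win : ∀ y, H.d t x y < p * l → ∀ σ ∈ Icc a ts, H.Q 0 σ y ≤ C0 / (l1 * l) ^ 2)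
    (reg : ∀ σ ∈ Icc ts b, ∀ y, H.en σ y (l1 * l) ≤ ε0 → H.Q 0 σ y ≤ C0 / (l1 * l) ^ 2)
    (core : ∀ b' ∈ Icc ts b, (∀ σ ∈ Icc a b', ∀ y, H.gam σ F F y ≤ 4 * K1 / l ^ 2) →
      ∀ σ ∈ Icc ts b', ∀ y, H.d t x y < p * l → H.en σ y (l1 * l) ≤ ε0) :
    H.en b x (l1 * l) ≤ ε0 := by
  have A := h.alg
  have l2 : 0 < l ^ 2 := by positivity
  have hT := hs.mem (t := t) ⟨hat.le, tts.le.trans tsb⟩
  have ind := cont_ind (A.sm_cont (A.sm_gam hs (A.sm_static F0) (A.sm_static F0)))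
    (m := 2 * K1 / l ^ 2) (m' := 4 * K1 / l ^ 2)
    (div_lt_div_of_pos_right (by linarith) l2)
  have step : ∀ b' ∈ Icc a b, (ts ≤ b' → ∀ σ ∈ Icc a b', ∀ y, H.gam σ F F y ≤ 4 * K1 / l ^ 2) →
      ∀ y, H.gam b' F F y ≤ 2 * K1 / l ^ 2 := by
    intro b' hb' hF y
    by_cases hy : p * l ≤ H.d t x y
    · rw [f1 b' (hs.mem hb') y hy]; positivity
    have hy' := not_le.1 hy
    have rr : 0 < l1 * l := by positivity
    have hq : ∀ σ ∈ Icc a (max b' ts), √(H.Q 0 σ y) ≤ √C0 / (l1 * l) := fun σ hσ => by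
      have : H.Q 0 σ y ≤ C0 / (l1 * l) ^ 2 := by
        by_cases hσt : σ ≤ ts
        · exact win y hy' σ ⟨hσ.1, hσt⟩
        · have r1 : σ ≤ b' := (le_max_iff.1 hσ.2).resolve_right hσt
          have r2 : ts ≤ σ := (not_le.1 hσt).le
          exact reg σ ⟨r2, r1.trans hb'.2⟩ y
            (core b' ⟨r2.trans r1, hb'.2⟩ (hF (r2.trans r1)) σ ⟨r2, r1⟩ y hy')
      refine (Real.sqrt_le_sqrt this).trans (le_of_eq ?_)
      rw [Real.sqrt_div hC0.le, Real.sqrt_sq rr.le]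
    have q1 := gam_static A h.evo (hs.mono le_rfl ((hat.trans tts).trans_le (le_max_right _ _))
      (max_le hb'.2 tsb)) F0 hq (s := t) (t := b')
      ⟨hat.le, tts.le.trans (le_max_right _ _)⟩ ⟨hb'.1, le_max_left _ _⟩
    have q2 : |b' - t| ≤ c' * l := abs_le.2 ⟨by linarith [hb'.1], by linarith [hb'.2]⟩
    have q3 : 2 * (√C0 / (l1 * l)) * |b' - t| ≤ 1 / 2 := by
      refine (mul_le_mul_of_nonneg_left (q2.trans (mul_le_mul_of_nonneg_right c'3 hl.le))
        (by positivity)).trans (le_of_eq ?_)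
      have : 0 < √C0 := Real.sqrt_pos.2 hC0
      field_simp; ring
    have q4 : Real.exp (2 * (√C0 / (l1 * l)) * |b' - t|) ≤ 2 := by
      refine (Real.exp_le_exp.2 (q3.trans (show (1 : ℝ) / 2 ≤ Real.log 2 by
        linarith [Real.log_two_gt_d9]))).trans (le_of_eq (Real.exp_log (by norm_num)))
    have q5 := mul_le_mul q4 (f2 y) (A.gam_nonneg t hT F0 y) (by norm_num)
    rw [mul_div_assoc]
    linarith
  have all := ind (fun y => (step a ⟨le_rfl, hs.2.1.le⟩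
      (fun hh => absurd hh (not_le.2 (hat.trans tts))) y).trans
      (div_le_div_of_nonneg_right (by linarith) l2.le))
    fun b' hb' hF => step b' hb' fun _ => hF
  exact core b ⟨tsb, le_rfl⟩ all b ⟨tsb, le_rfl⟩ x (by rw [h.dist.self t hT]; positivity)

theorem stat_consts1 {c ε0 C1 : ℝ} (hc : 0 < c) (hε : 0 < ε0) (hC1 : 0 < C1) :
    ∃ η L : ℝ, 0 < η ∧ η ≤ c / 2 ∧ C1 * η ≤ ε0 / 4 ∧ 1 ≤ L ∧ Real.exp (-L) ≤ η / 2 := by
  set η := min (c / 2) (ε0 / (4 * C1)) with hη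
  have hη0 : 0 < η := by positivity
  have p : 0 < 2 / η := by positivity
  refine ⟨η, 1 + 2 / η, hη0, min_le_left _ _, ?_, by linarith, ?_⟩
  · have := min_le_right (c / 2) (ε0 / (4 * C1))
    rw [← hη, le_div_iff₀ (by positivity)] at this
    linarith
  · have e1 : 2 / η ≤ Real.exp (1 + 2 / η) := by linarith [Real.add_one_le_exp (1 + 2 / η)]
    rw [Real.exp_neg, inv_le_comm₀ (Real.exp_pos _) (by positivity), inv_div]
    exact e1

theorem stat_consts2 {η g ε0 C2 z : ℝ} (hη : 0 < η) (hg : 0 < g) (hε : 0 < ε0) (hC2 : 0 < C2)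
    (hz : 0 < z) : ∃ c', 0 < c' ∧ g * c' ≤ η / 2 ∧ C2 * (c' + c') ≤ ε0 / 4 ∧ c' ≤ z := by
  set c' := min (η / (2 * g)) (min (ε0 / (8 * C2)) z) with hc'
  refine ⟨c', by positivity, ?_, ?_, (min_le_right _ _).trans (min_le_right _ _)⟩
  · have := min_le_left (η / (2 * g)) (min (ε0 / (8 * C2)) z)
    rw [← hc', le_div_iff₀ (by positivity)] at this
    linarith
  · have : c' ≤ ε0 / (8 * C2) := (min_le_right _ _).trans (min_le_left _ _)
    rw [le_div_iff₀ (by positivity)] at this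
    linarith

theorem stat_consts3 {L cR e1 e2 e3 ε0 : ℝ} (hL : 0 < L) (hcR : 0 < cR) (h1 : 0 < e1)
    (h2 : 0 < e2) (h3 : 0 < e3) (hε : 0 < ε0) :
    ∃ B, 1 ≤ B ∧ L ≤ cR * B ^ 2 ∧ e1 ≤ B ∧ e2 ≤ B ∧ e3 / B ^ 4 ≤ ε0 / 4 := by
  have b1 : 0 < L / cR := by positivity
  have b3 : 0 < 4 * e3 / ε0 := by positivity
  obtain ⟨B, hB⟩ : ∃ B, B = 1 + L / cR + e1 + e2 + 4 * e3 / ε0 := ⟨_, rfl⟩
  have hB1 : 1 ≤ B := by linarith
  refine ⟨B, hB1, ?_, by linarith, by linarith, ?_⟩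
  · have q : L / cR ≤ B ^ 2 := le_trans (by linarith) (le_self_pow₀ hB1 (by norm_num))
    rw [div_le_iff₀ hcR] at q
    linarith
  · have q : 4 * e3 / ε0 ≤ B ^ 4 := le_trans (by linarith) (le_self_pow₀ hB1 (by norm_num))
    rw [div_le_iff₀ hε] at q
    rw [div_le_iff₀ (by positivity)]
    linarith

/-- the energy stays small at the centre -/
theorem stat_centre (h : H.Ok) (S2 : H.Solv2) (hC : H.COut) (hD : H.DOut)
    {t0 ε0 cR r0 C0 : ℝ} (h0 : 0 < t0) (hε : 0 < ε0) (hcR : 0 < cR) (hr0 : 0 < r0) (hC0 : 0 < C0)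
    (hreg : ∀ t ∈ Ico t0 H.T, ∀ x, ∀ r, 0 < r → r ≤ r0 → H.en t x r ≤ ε0 →
      ∀ y ∈ H.B t x (r / 2), ∀ s ∈ Ioo 0 H.T, |s - t| ≤ cR * r ^ 2 →
        H.N 0 s y ≤ C0 * (H.en t x r + r) / r ^ 4 ∧ H.Q 0 s y ≤ C0 / r ^ 2) :
    ∃ c lam r1 : ℝ, 0 < c ∧ 0 < lam ∧ lam ≤ 1 ∧ 0 < r1 ∧ r1 ≤ r0 ∧ r1 ≤ 1 ∧
      ∀ t ∈ Ico t0 H.T, ∀ x, ∀ s, 0 < s → s ≤ r1 → H.en t x s ≤ ε0 → ∀ b < H.T,
        t + cR * s ^ 2 ≤ b → b - t ≤ c * s → H.en b x (lam * s) ≤ ε0 := by
  have A := h.alg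
  obtain ⟨K, hK0, hK⟩ := D.exists_K h.evo
  obtain ⟨p, K1, c, hp, hK1, hc, hc1, hset⟩ := exists_setup h S2 hC (half_pos h0)
  obtain ⟨C1, hC1, hmv⟩ := en_move h hD h0 hc
  obtain ⟨Au, hAu, hup⟩ := hC.dup _ (half_pos h0)
  obtain ⟨Cv, hCv, hvol⟩ := hC.up _ (half_pos h0)
  obtain ⟨η, L, hη0, hη1, hη2, hL1, hLe⟩ := stat_consts1 hc hε hC1
  obtain ⟨C', hC', hset⟩ := hset L hL1
  obtain ⟨V, hV⟩ : ∃ V, V = Real.exp (K * H.T) * (Cv * C' ^ 4) := ⟨_, rfl⟩
  have hV0 : 0 < V := by rw [hV]; positivity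
  obtain ⟨Λ, hΛ⟩ : ∃ Λ, Λ = 2 + 4 * K1 + K + V := ⟨_, rfl⟩
  have hΛ1 : 1 ≤ Λ := by linarith
  obtain ⟨C2, hC2, hmv⟩ := hmv Λ hΛ1
  have l10 : 0 < c / (4 * K1) := by positivity
  have l11 : c / (4 * K1) ≤ 1 := (div_le_one (by positivity)).2 (by linarith)
  obtain ⟨c', c'0, c'1, c'2, c'3⟩ := stat_consts2 (g := 4 * K1 + K / 2)
    (z := c / (4 * K1) / (4 * √C0)) hη0 (by positivity) hε hC2 (by positivity)
  obtain ⟨B, hB1, b1, b2, b3, b4⟩ := stat_consts3 (L := L + 2) (e1 := 2 * Au * (C' + L))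
    (e2 := 2 * p) (e3 := C0 * (ε0 + 1) * Λ) (by positivity) hcR (by positivity) (by positivity)
    (by positivity) hε
  refine ⟨c' / B, c / (4 * K1) / B, min (min r0 1) (min c' (t0 / 2) / L),
    by positivity, by positivity, (div_le_one (by positivity)).2 (by linarith), by positivity,
    (min_le_left _ _).trans (min_le_left _ _), (min_le_left _ _).trans (min_le_right _ _),
    fun t ht x s hs0 hs1 hen b hbT hb1 hb2 => ?_⟩
  have s1 : s ≤ r0 := hs1.trans ((min_le_left _ _).trans (min_le_left _ _))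
  have s2 : s ≤ 1 := hs1.trans ((min_le_left _ _).trans (min_le_right _ _))
  have s4 : s * L ≤ min c' (t0 / 2) := (le_div_iff₀ (by positivity)).1
    (hs1.trans (min_le_right _ _))
  obtain ⟨l, hl, hsl⟩ : ∃ l, 0 < l ∧ s = B * l := ⟨s / B, by positivity, by field_simp⟩
  have ls : l ≤ s := by rw [hsl]; exact le_mul_of_one_le_left hl.le hB1
  have ll1 : l ≤ 1 := ls.trans s2
  have l2 : 0 < l ^ 2 := by positivity
  have hLl : L * l ≤ min c' (t0 / 2) :=
    le_trans (by rw [mul_comm]; exact mul_le_mul_of_nonneg_right ls (by linarith)) s4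
  have lc : l ≤ c' := (le_mul_of_one_le_left hl.le hL1).trans (hLl.trans (min_le_left _ _))
  have eL : L * l ^ 2 = L * l * l := by ring
  have w1 : L * l ^ 2 ≤ c' * l :=
    eL ▸ mul_le_mul_of_nonneg_right (hLl.trans (min_le_left _ _)) hl.le
  have w2 : L * l ^ 2 ≤ t0 / 2 :=
    eL ▸ (mul_le_of_le_one_right (by positivity) ll1).trans (hLl.trans (min_le_right _ _))
  have w3 : L * l ^ 2 + l ^ 2 + l ^ 2 ≤ cR * s ^ 2 := by
    have := mul_le_mul_of_nonneg_right b1 l2.le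
    rw [hsl, mul_pow]
    linarith
  have w4 : b - t ≤ c' * l := by
    have : c' / B * s = c' * l := by rw [hsl]; field_simp
    linarith
  have w5 : 0 < L * l ^ 2 := by positivity
  have e5 : c / (4 * K1) / B * s = c / (4 * K1) * l := by rw [hsl]; field_simp
  rw [e5]
  have tsb : t + l ^ 2 + l ^ 2 ≤ b := by linarith
  obtain ⟨F, u, P, f1, f2, f3, f4⟩ := hset (t := t) (l := l) (b := b) x hl (by linarith [ht.1])
    tsb hbT
  have haT := P.st.mem ⟨le_rfl, P.st.2.1.le⟩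
  have win : ∀ y, H.d t x y < s / 2 → ∀ σ ∈ Icc (t - L * l ^ 2) (t + l ^ 2 + l ^ 2),
      H.N 0 σ y ≤ C0 * (ε0 + 1) / s ^ 4 ∧ H.Q 0 σ y ≤ C0 / s ^ 2 := fun y hy σ hσ => by
    have := hreg t ht x s hs0 s1 hen y hy σ (P.st.mem ⟨hσ.1, hσ.2.trans tsb⟩)
      (abs_le.2 ⟨by linarith [hσ.1], by linarith [hσ.2]⟩)
    exact ⟨this.1.trans (div_le_div_of_nonneg_right
      (mul_le_mul_of_nonneg_left (by linarith) hC0.le) (by positivity)), this.2⟩
  have rr : 0 < c / (4 * K1) * l := by positivity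
  have rs : c / (4 * K1) * l ≤ s := (mul_le_of_le_one_left hl.le l11).trans ls
  refine stat_boot h P.st P.F0 hK1 hC0 hl l10 hp (t := t) (ts := t + l ^ 2 + l ^ 2) (by linarith)
    (by linarith) tsb (by linarith) w4 c'3 f1 f2 (fun y hy σ hσ => ?_) (fun σ hσ y hy => ?_)
    fun b' hb' hF σ hσ y hy => ?_
  · have : 2 * p * l ≤ B * l := mul_le_mul_of_nonneg_right b3 hl.le
    exact (win y (by linarith) σ hσ).2.trans
      (div_le_div_of_nonneg_left hC0.le (by positivity) (pow_le_pow_left₀ rr.le rs 2))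
  · have r3 := P.st.mem (t := σ) ⟨by linarith [hσ.1], hσ.2⟩
    exact (hreg σ ⟨by linarith [ht.1, hσ.1], r3.2⟩ y _ rr (rs.trans s1) hy y
      (show H.d σ y y < _ by rw [h.dist.self σ r3]; positivity) σ r3
      (by rw [sub_self, abs_zero]; positivity)).2
  · refine stat_core h (n0 := C0 * (ε0 + 1) / s ^ 4) hK0 hK (by linarith) hc hη1 hC1 hC2 hη2
      (by linarith) hLe c'1 ((mul_le_mul_of_nonneg_left (by linarith) hC2.le).trans c'2) hV0.le hΛ
      ll1 (by positivity) ?_ (P.mono A (by linarith [hb'.1]) hb'.2) hb'.1 (by linarith [hb'.2])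
      hF f4 (fun r hr => ?_) (fun z hz => ?_)
      (fun m1 m2 m3 m4 => hmv ht.1 hl ll1 m1 m2 m3 m4) hσ (f3 y hy)
    · refine le_trans (le_of_eq ?_) b4
      rw [hsl]; field_simp
    · refine (vol_real_le_st h.int hK0 hK haT hr _).trans ((mul_le_mul_of_nonneg_left
        (hvol _ ⟨by linarith [ht.1], haT.2⟩ x _ (by positivity)) (Real.exp_pos _).le).trans
        (le_of_eq ?_))
      rw [hV]; ring
    · refine (win z ?_ _ ⟨by linarith, le_rfl⟩).1
      have r2 := hup (t - L * l ^ 2) t (by linarith [ht.1]) (by linarith) ht.2 x z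
      have r3 : √(t - (t - L * l ^ 2)) ≤ L * l := sqrt_mul_sq_le hL1 hl (by linarith)
      have r4 : Au * (H.d (t - L * l ^ 2) x z + √(t - (t - L * l ^ 2))) < Au * (C' * l + L * l) :=
        mul_lt_mul_of_pos_left (by linarith) hAu
      have r5 : 2 * Au * (C' + L) * l ≤ B * l := mul_le_mul_of_nonneg_right b2 hl.le
      linarith

/-- forward persistence of a regular scale -/
theorem eStat (h : H.Ok) (S2 : H.Solv2) (hC : H.COut) (hD : H.DOut) (hR : H.EReg) : H.EStat := by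
  intro t0 h0
  obtain ⟨ε0, cR, r0, hε, hcR, hr0, -, hreg⟩ := hR t0 h0
  obtain ⟨C0, hC0, h1⟩ := hreg 0
  obtain ⟨c, lam, r1, hc, hlam, hlam1, hr1, r10, r11, h2⟩ := stat_centre h S2 hC hD h0 hε hcR hr0
    hC0 fun t ht x r k1 k2 k3 y hy s hs k4 => by simpa using (h1 t ht x r k1 k2 k3 y hy).1 s hs k4
  refine ⟨ε0, c / 2, r1, hε, by positivity, hr1, fun k => ?_⟩
  obtain ⟨C, hCk, h3⟩ := hreg k
  have hq : 1 ≤ 2 / lam := (le_div_iff₀ hlam).2 (by linarith)
  refine ⟨C * (ε0 + 1) * (2 / lam) ^ (4 + 2 * k), by positivity,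
    fun t ht x r k1 k2 k3 y hy s hs k4 => ?_⟩
  have hT : t ∈ Ioo 0 H.T := ⟨h0.trans_le ht.1, ht.2⟩
  have hS : s ∈ Ioo 0 H.T := ⟨hT.1.trans_le hs.1, hs.2⟩
  have e1 : H.en t y (r / 2) ≤ ε0 := (en_mono_set h hT fun z hz => by
    have q1 : H.d t x y < r / 2 := hy
    have q2 : H.d t y z < r / 2 := hz
    show H.d t x z < r
    linarith [h.dist.tri t hT x y z]).trans k3
  have key : ∃ ρ, lam * (r / 2) ≤ ρ ∧ H.N k s y ≤ C * (ε0 + 1) / ρ ^ (4 + 2 * k) ∧
      H.Q k s y ≤ C / ρ ^ (2 + 2 * k) := by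
    have l0 : 0 < lam * (r / 2) := by positivity
    have l1 : lam * (r / 2) ≤ r / 2 := by nlinarith
    by_cases hw : s - t ≤ cR * (r / 2) ^ 2
    · have := (h3 t ht y (r / 2) (by positivity) (by linarith) e1 y
        (show H.d t y y < _ by rw [h.dist.self t hT]; positivity)).1 s hS
        (by rw [abs_of_nonneg (sub_nonneg.2 hs.1)]; exact hw)
      exact ⟨r / 2, l1, this.1.trans (div_le_div_of_nonneg_right
        (mul_le_mul_of_nonneg_left (by linarith) hCk.le) (by positivity)), this.2⟩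
    · have e2 := h2 t ht y (r / 2) (by positivity) (by linarith) e1 s hs.2
        (by linarith [not_le.1 hw]) (by linarith)
      have := (h3 s ⟨ht.1.trans hs.1, hs.2⟩ y _ l0 (by linarith) e2 y
        (show H.d s y y < _ by rw [h.dist.self s hS]; positivity)).1 s hS
        (by rw [sub_self, abs_zero]; positivity)
      exact ⟨_, le_rfl, this.1.trans (div_le_div_of_nonneg_right
        (mul_le_mul_of_nonneg_left (by linarith) hCk.le) (by positivity)), this.2⟩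
  obtain ⟨ρ, hρ, n1, n2⟩ := key
  have l0 : 0 < lam * (r / 2) := by positivity
  have sc : ∀ n : ℕ, 1 / ρ ^ n ≤ (2 / lam) ^ n / r ^ n := fun n => by
    have e : (2 / lam) ^ n / r ^ n = 1 / (lam * (r / 2)) ^ n := by
      rw [← div_pow, ← one_div_pow]; congr 1; field_simp
    rw [e]
    exact one_div_le_one_div_of_le (by positivity) (pow_le_pow_left₀ l0.le hρ n)
  constructor
  · refine n1.trans ?_
    rw [div_eq_mul_one_div, mul_div_assoc]
    exact mul_le_mul_of_nonneg_left (sc _) (by positivity)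
  · refine n2.trans ?_
    rw [div_eq_mul_one_div]
    refine (mul_le_mul_of_nonneg_left (sc _) hCk.le).trans ?_
    rw [← mul_div_assoc]
    refine div_le_div_of_nonneg_right ?_ (by positivity)
    exact mul_le_mul (by nlinarith) (pow_le_pow_right₀ hq (by omega)) (by positivity)
      (by positivity)

end HC

end Crest.Agent.N207

end
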