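import Crest.Agent.N207.E.BS

/-! Block E (helper10): the Bernstein-Shi tower in weighted form. -/

set_option autoImplicit false
set_option linter.dupNamespace false
set_option linter.unusedSectionVars false
open Set MeasureTheory
open scoped ContDiff

noncomputable section

namespace Crest.Agent.N207.E

universe v

variable {M : Type v} [TopologicalSpace M] [CompactSpace M] [MeasurableSpace M] {H : HC M}

/-- a window: a strip with a 1-Lipschitz heat function -/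
structure Win (H : HC M) (a b : ℝ) (u : ℝ → M → ℝ) : Prop where
  st : H.St a b
  heat : H.Heat a b u
  lip : ∀ t ∈ Icc a b, ∀ y, H.gam t (u t) (u t) y ≤ 1

/-- `(t,y)` has parabolic distance at least `η` from the boundary of `[a,b] × {u ≤ L}` -/
structure Adm (a b L : ℝ) (u : ℝ → M → ℝ) (t : ℝ) (y : M) (η : ℝ) : Prop where
  mem : t ∈ Icc a b
  pos : 0 < η
  lev : u t y + η ≤ L
  tim : η ^ 2 ≤ t - a

lemma Adm.near {a b L : ℝ} {u : ℝ → M → ℝ} {s : ℝ} {z : M} {η : ℝ} (h : Adm a b L u s z η)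
    {t : ℝ} (ht : t ∈ Icc (s - (η / 6) ^ 2) s) {y : M} (hy : u t y ≤ u s z + 3 * (η / 6)) :
    Adm a b L u t y (η / 2) := by
  have := h.pos; have := h.lev; have := h.tim; have := ht.1
  have p2 : 0 < η ^ 2 := by positivity
  exact ⟨⟨by nlinarith, ht.2.trans h.mem.2⟩, by linarith, by linarith, by nlinarith⟩

/-- the Bernstein step in weighted form -/
theorem bs1 (hA : H.Alg) (p : ℕ) {Λ0 : ℝ} (hΛ0 : 0 ≤ Λ0) : ∃ C, 0 ≤ C ∧
    ∀ {a b L D : ℝ} {u P P' P1 P1' G : ℝ → M → ℝ}, Win H a b u → 0 ≤ D → H.Sm a b P →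
    HasDt a b P P' → H.Sm a b P1 → HasDt a b P1 P1' → (∀ t ∈ Icc a b, ∀ y, 0 ≤ P t y) →
    (∀ t ∈ Icc a b, ∀ y, 0 ≤ P1 t y) → (∀ t ∈ Icc a b, ∀ y, 0 ≤ G t y) →
    (∀ t ∈ Icc a b, ∀ y, H.gam t (P1 t) (P1 t) y ≤ 4 * P1 t y * G t y) →
    (∀ t y η, Adm a b L u t y η → η ^ p * P t y ≤ D ∧
      η ^ (p + 2) * (P' t y - H.lap t (P t) y + 2 * P1 t y) ≤ D ∧
      η ^ (p + 4) * (P1' t y - H.lap t (P1 t) y + 2 * G t y) ≤ Λ0 * (η ^ (p + 2) * P1 t y) + D) →
    ∀ t y η, Adm a b L u t y η → η ^ (p + 2) * P1 t y ≤ C * D := by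
  obtain ⟨K, hK, h⟩ := bs0.{v}
  refine ⟨36 * 2 ^ p * (2 * (Λ0 + K) + 1), by positivity, ?_⟩
  intro a b L D u P P' P1 P1' G W D0 sP dP sP1 dP1 P0 P10 G0 hk hq s z η ad
  have η0 := ad.pos
  have p2 : 0 < η ^ 2 := by positivity
  have hs : a < s - (η / 6) ^ 2 := by have := ad.tim; nlinarith
  have sub : Icc (s - (η / 6) ^ 2) s ⊆ Icc a b := Icc_subset_Icc hs.le ad.mem.2
  set e := η / 2 with he
  have e0 : 0 < e := by positivity
  have ep : 0 < e ^ p := by positivity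
  have := h hA (a := s - (η / 6) ^ 2) (b := s) (ρ := η / 6) (Λ := Λ0 / e ^ 2) (D := D / e ^ p)
    (S0 := D / e ^ (p + 2)) (S1 := D / e ^ (p + 4)) (G := G) z
    (W.st.mono hs.le (by nlinarith) ad.mem.2) (by positivity) (by ring) (by positivity)
    (by positivity) (by positivity) (hA.heat_mono W.heat hs.le ad.mem.2)
    (fun t ht => W.lip t (sub ht)) (hA.sm_mono sP hs.le ad.mem.2) (dP.mono hs.le ad.mem.2)
    (hA.sm_mono sP1 hs.le ad.mem.2) (dP1.mono hs.le ad.mem.2) (fun t ht => P0 t (sub ht))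
    (fun t ht => P10 t (sub ht)) (fun t ht => G0 t (sub ht)) (fun t ht => hk t (sub ht))
    fun t ht y hy => by
      obtain ⟨q1, q2, q3⟩ := hq t y e (ad.near ht hy)
      refine ⟨by rw [le_div_iff₀ ep]; linarith, ?_, ?_⟩
      · have : P' t y - H.lap t (P t) y + 2 * P1 t y ≤ D / e ^ (p + 2) := by
          rw [le_div_iff₀ (by positivity)]; linarith
        linarith
      · have : P1' t y - H.lap t (P1 t) y + 2 * G t y ≤
            (Λ0 * (e ^ (p + 2) * P1 t y) + D) / e ^ (p + 4) := by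
          rw [le_div_iff₀ (by positivity)]; linarith
        have e2 : (Λ0 * (e ^ (p + 2) * P1 t y) + D) / e ^ (p + 4) =
            Λ0 / e ^ 2 * P1 t y + D / e ^ (p + 4) := by field_simp; ring
        linarith
  have hη : η = 2 * e := by rw [he]; ring
  have r1 : (Λ0 / e ^ 2 * (η / 6) ^ 2 + K) * (D / e ^ p + (η / 6) ^ 2 * (D / e ^ (p + 2))) +
      (η / 6) ^ 4 * (D / e ^ (p + 4)) = ((Λ0 / 9 + K) * (10 / 9) + 1 / 81) * (D / e ^ p) := by
    rw [hη]; field_simp; ring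
  rw [r1] at this
  have l1 : (Λ0 / 9 + K) * (10 / 9) + 1 / 81 ≤ 2 * (Λ0 + K) + 1 := by linarith
  have l2 := this.trans (mul_le_mul_of_nonneg_right l1 (by positivity))
  calc η ^ (p + 2) * P1 s z = 36 * 2 ^ p * e ^ p * ((η / 6) ^ 2 * P1 s z) := by
        rw [hη]; ring_nf
    _ ≤ 36 * 2 ^ p * e ^ p * ((2 * (Λ0 + K) + 1) * (D / e ^ p)) :=
        mul_le_mul_of_nonneg_left l2 (by positivity)
    _ = _ := by field_simp

lemma sqrt3 {η n q w B E : ℝ} {p i j : ℕ} (hη : 0 < η) (n0 : 0 ≤ n) (q0 : 0 ≤ q) (w0 : 0 ≤ w)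
    (hn : η ^ (4 + 2 * i) * n ≤ B) (hq : η ^ (p + 2 * j) * q ≤ E) :
    η ^ (p + 2 * (i + j) + 2) * (√n * √q * √w) ≤ η ^ (p + 2 * (i + j)) * w + B * E := by
  have a0 : 0 ≤ η ^ (4 + 2 * i) * n := by positivity
  have b0 : 0 ≤ η ^ (p + 2 * j) * q := by positivity
  have BE := mul_le_mul hn hq b0 (a0.trans hn)
  have X0 : 0 ≤ η ^ (p + 2 * (i + j)) * w := by positivity
  have BE0 : 0 ≤ B * E := (mul_nonneg a0 b0).trans BE
  apply le_add_of_sq X0 BE0
  have : (η ^ (p + 2 * (i + j) + 2) * (√n * √q * √w)) ^ 2 =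
      η ^ (p + 2 * (i + j)) * w * (η ^ (4 + 2 * i) * n * (η ^ (p + 2 * j) * q)) := by
    rw [mul_pow, mul_pow, mul_pow, Real.sq_sqrt n0, Real.sq_sqrt q0, Real.sq_sqrt w0]; ring
  rw [this]
  nlinarith [mul_le_mul_of_nonneg_left BE X0, mul_nonneg X0 BE0]

lemma sqrt2 {η n w B : ℝ} {s : ℕ} (hη : 0 < η) (n0 : 0 ≤ n) (w0 : 0 ≤ w) (hn : η ^ 4 * n ≤ B) :
    η ^ (s + 2) * (√n * √w * √w) ≤ (B + 1) * (η ^ s * w) := by
  have B0 : 0 ≤ B := (by positivity : 0 ≤ η ^ 4 * n).trans hn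
  have : η ^ 2 * √n ≤ B + 1 := by
    apply le_of_sq_le_sq _ (by positivity)
    rw [mul_pow, Real.sq_sqrt n0]; nlinarith
  calc _ = η ^ 2 * √n * (η ^ s * w) := by rw [mul_assoc √n, Real.mul_self_sqrt w0]; ring
    _ ≤ _ := mul_le_mul_of_nonneg_right this (by positivity)

/-- a tower of tensor norms evolving like `N` or `Q` -/
structure Fam (H : HC M) (P : ℕ → ℝ → M → ℝ) : Prop where
  sm : ∀ {a b : ℝ} (k : ℕ), H.St a b → H.Sm a b (P k)
  nn : ∀ k, ∀ t ∈ Ioo 0 H.T, ∀ x, 0 ≤ P k t x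
  kato : ∀ k, ∀ t ∈ Ioo 0 H.T, ∀ x, H.gam t (P k t) (P k t) x ≤ 4 * P k t x * P (k + 1) t x
  dt : ∀ k, ∃ C, 0 ≤ C ∧ ∀ {a b : ℝ} {P' : ℝ → M → ℝ}, H.St a b → HasDt a b (P k) P' →
    ∀ t ∈ Icc a b, ∀ x, |P' t x - H.lap t (P k t) x + 2 * P (k + 1) t x| ≤
      C * ∑ i ∈ Finset.range (k + 1), √(H.N i t x) * √(P (k - i) t x) * √(P k t x)

lemma famN (hA : H.Alg) (hE : H.Evo) : Fam H H.N := ⟨hA.sm_N, hE.N_nonneg, hE.kato_N, hE.dt_N⟩
lemma famQ (hA : H.Alg) (hE : H.Evo) : Fam H H.Q := ⟨hA.sm_Q, hE.Q_nonneg, hE.kato_Q, hE.dt_Q⟩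

theorem step (hA : H.Alg) (hE : H.Evo) {P : ℕ → ℝ → M → ℝ} (F : Fam H P) (p k : ℕ) {B : ℝ}
    (hB : 0 ≤ B) : ∃ c, 0 ≤ c ∧ ∀ {a b L E : ℝ} {u : ℝ → M → ℝ}, Win H a b u → 0 ≤ E →
    (∀ i ≤ k, ∀ t y η, Adm a b L u t y η → η ^ (4 + 2 * i) * H.N i t y ≤ B) →
    (∀ i ≤ k, ∀ t y η, Adm a b L u t y η → η ^ (p + 2 * i) * P i t y ≤ E) →
    (∀ t y η, Adm a b L u t y η → η ^ (p + 2 * (k + 1) + 2) *
      (√(H.N (k + 1) t y) * √(P 0 t y) * √(P (k + 1) t y)) ≤
        (B + 1) * (η ^ (p + 2 * (k + 1)) * P (k + 1) t y) + B * E) →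
    ∀ t y η, Adm a b L u t y η → η ^ (p + 2 * (k + 1)) * P (k + 1) t y ≤ c * E := by
  obtain ⟨C0, hC0, d0⟩ := F.dt k
  obtain ⟨C1, hC1, d1⟩ := F.dt (k + 1)
  obtain ⟨c, hc, h⟩ := bs1 hA (p + 2 * k) (Λ0 := C1 * ((k + 2) * (B + 1))) (by positivity)
  set A := 1 + C0 * ((k + 1) * (1 + B)) + C1 * ((k + 2) * B) with hAd
  have A1 : 1 ≤ A := by
    have : 0 ≤ C0 * ((k + 1) * (1 + B)) + C1 * ((k + 2) * B) := by positivity
    linarith
  refine ⟨c * A, by positivity, ?_⟩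
  intro a b L E u W E0 hN hP hl s z η ad
  obtain ⟨P', -, dP⟩ := hA.sm_dt W.st.2.1 (F.sm k W.st)
  obtain ⟨P1', -, dP1⟩ := hA.sm_dt W.st.2.1 (F.sm (k + 1) W.st)
  have := h (L := L) (D := A * E) (G := P (k + 2)) W (by positivity) (F.sm k W.st) dP
    (F.sm (k + 1) W.st) dP1 (fun t ht => F.nn k t (W.st.mem ht))
    (fun t ht => F.nn _ t (W.st.mem ht)) (fun t ht => F.nn _ t (W.st.mem ht))
    (fun t ht => F.kato _ t (W.st.mem ht)) (fun t y η ad => by
      have tm := W.st.mem ad.mem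
      have η0 := ad.pos
      have e1 : 0 ≤ C0 * ((k + 1) * (1 + B)) * E := by positivity
      have e2 : 0 ≤ C1 * ((k + 2) * B) * E := by positivity
      have AE : A * E = E + C0 * ((k + 1) * (1 + B)) * E + C1 * ((k + 2) * B) * E := by
        rw [hAd]; ring
      refine ⟨by linarith [hP k le_rfl t y η ad], ?_, ?_⟩
      · have a1 := mul_le_mul_of_nonneg_left ((le_abs_self _).trans (d0 W.st dP t ad.mem y))
          (pow_pos η0 (p + 2 * k + 2)).le
        have a2 : ∑ i ∈ Finset.range (k + 1), η ^ (p + 2 * k + 2) *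
            (√(H.N i t y) * √(P (k - i) t y) * √(P k t y)) ≤
            ∑ _i ∈ Finset.range (k + 1), (1 + B) * E := Finset.sum_le_sum fun i hi => by
          have ik : i ≤ k := Nat.lt_succ_iff.1 (Finset.mem_range.1 hi)
          have := sqrt3 η0 (hE.N_nonneg i t tm y) (F.nn _ t tm y) (F.nn k t tm y)
            (hN i ik t y η ad) (hP (k - i) (Nat.sub_le _ _) t y η ad)
          rw [Nat.add_sub_cancel' ik] at this
          linarith [hP k le_rfl t y η ad]
        rw [← Finset.mul_sum, Finset.sum_const, Finset.card_range, nsmul_eq_mul] at a2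
        have a3 := mul_le_mul_of_nonneg_left a2 hC0
        push_cast at a3
        linarith
      · have a1 := mul_le_mul_of_nonneg_left ((le_abs_self _).trans (d1 W.st dP1 t ad.mem y))
          (pow_pos η0 (p + 2 * k + 4)).le
        have X0 : 0 ≤ η ^ (p + 2 * k + 2) * P (k + 1) t y :=
          mul_nonneg (pow_pos η0 _).le (F.nn _ t tm y)
        have BE : 0 ≤ B * E := mul_nonneg hB E0
        have a2 : ∑ i ∈ Finset.range (k + 1 + 1), η ^ (p + 2 * k + 4) *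
            (√(H.N i t y) * √(P (k + 1 - i) t y) * √(P (k + 1) t y)) ≤
            ∑ _i ∈ Finset.range (k + 1 + 1),
              ((B + 1) * (η ^ (p + 2 * k + 2) * P (k + 1) t y) + B * E) :=
          Finset.sum_le_sum fun i hi => by
            have ik : i ≤ k + 1 := Nat.lt_succ_iff.1 (Finset.mem_range.1 hi)
            rcases Nat.eq_zero_or_pos i with rfl | i0
            · have := sqrt2 (s := p + 2 * k + 2) η0 (hE.N_nonneg 0 t tm y) (F.nn (k + 1) t tm y)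
                (hN 0 (Nat.zero_le _) t y η ad)
              rw [Nat.sub_zero]
              linarith
            rcases ik.eq_or_lt with rfl | ik'
            · rw [Nat.sub_self]; exact hl t y η ad
            · have := sqrt3 η0 (hE.N_nonneg i t tm y) (F.nn _ t tm y) (F.nn (k + 1) t tm y)
                (hN i (Nat.lt_succ_iff.1 ik') t y η ad) (hP (k + 1 - i) (by omega) t y η ad)
              rw [Nat.add_sub_cancel' ik] at this
              have e3 : p + 2 * (k + 1) + 2 = p + 2 * k + 4 := by ring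
              have e4 : p + 2 * (k + 1) = p + 2 * k + 2 := by ring
              rw [e3, e4] at this
              nlinarith
        rw [← Finset.mul_sum, Finset.sum_const, Finset.card_range, nsmul_eq_mul] at a2
        have a3 := mul_le_mul_of_nonneg_left a2 hC1
        push_cast at a3
        linarith) s z η ad
  have e4 : p + 2 * (k + 1) = p + 2 * k + 2 := by ring
  rw [e4]; linarith

/-- first pass: derivative bounds for the curvature -/
theorem towerN (hA : H.Alg) (hE : H.Evo) {B : ℝ} (hB : 0 ≤ B) (k : ℕ) : ∃ C, 0 ≤ C ∧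
    ∀ {a b L : ℝ} {u : ℝ → M → ℝ}, Win H a b u →
    (∀ t y η, Adm a b L u t y η → η ^ 4 * H.N 0 t y ≤ B) →
    ∀ i ≤ k, ∀ t y η, Adm a b L u t y η → η ^ (4 + 2 * i) * H.N i t y ≤ C := by
  induction k with
  | zero =>
    refine ⟨B, hB, fun W h i hi t y η ad => ?_⟩
    obtain rfl := Nat.le_zero.1 hi
    exact h t y η ad
  | succ k ih =>
    obtain ⟨C, hC, ih⟩ := ih
    obtain ⟨c, hc, h⟩ := step hA hE (famN hA hE) 4 k hC
    refine ⟨C + c * C, by positivity, fun W h0 i hi t y η ad => ?_⟩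
    rcases hi.eq_or_lt with rfl | hi'
    · have := h W hC (ih W h0) (ih W h0) (fun t y η ad => by
        have tm := W.st.mem ad.mem
        have := sqrt2 (s := 4 + 2 * (k + 1)) ad.pos (hE.N_nonneg 0 t tm y)
          (hE.N_nonneg (k + 1) t tm y) (ih W h0 0 (Nat.zero_le _) t y η ad)
        rw [mul_comm √(H.N (k + 1) t y) √(H.N 0 t y)]
        nlinarith) t y η ad
      linarith
    · have := ih W h0 i (Nat.lt_succ_iff.1 hi') t y η ad
      nlinarith

/-- the tower, linear in the data -/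
theorem towerL (hA : H.Alg) (hE : H.Evo) {P : ℕ → ℝ → M → ℝ} (F : Fam H P) (p : ℕ) {B : ℝ}
    (hB : 0 ≤ B) (k : ℕ) : ∃ C, 0 ≤ C ∧ ∀ {a b L D : ℝ} {u : ℝ → M → ℝ}, Win H a b u → 0 ≤ D →
    (∀ i ≤ k, ∀ t y η, Adm a b L u t y η → η ^ (4 + 2 * i) * H.N i t y ≤ B) →
    (∀ t y η, Adm a b L u t y η → η ^ p * P 0 t y ≤ D) →
    ∀ i ≤ k, ∀ t y η, Adm a b L u t y η → η ^ (p + 2 * i) * P i t y ≤ C * D := by
  induction k with
  | zero =>
    refine ⟨1, zero_le_one, fun W _ _ h i hi t y η ad => ?_⟩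
    obtain rfl := Nat.le_zero.1 hi
    simpa using h t y η ad
  | succ k ih =>
    obtain ⟨C, hC, ih⟩ := ih
    obtain ⟨c, hc, h⟩ := step hA hE F p k hB
    refine ⟨C + c * C, by positivity, fun {a b L D u} W D0 hN h0 i hi t y η ad => ?_⟩
    have hN' := fun i (hi : i ≤ k) => hN i (hi.trans k.le_succ)
    have CD : 0 ≤ C * D := mul_nonneg hC D0
    rcases hi.eq_or_lt with rfl | hi'
    · have := h W CD hN' (ih W D0 hN' h0) (fun t y η ad => by
        have tm := W.st.mem ad.mem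
        have := sqrt3 ad.pos (hE.N_nonneg (k + 1) t tm y) (F.nn 0 t tm y) (F.nn (k + 1) t tm y)
          (hN (k + 1) le_rfl t y η ad) (ih W D0 hN' h0 0 (Nat.zero_le _) t y η ad)
        rw [Nat.add_zero] at this
        have X0 : 0 ≤ η ^ (p + 2 * (k + 1)) * P (k + 1) t y :=
          mul_nonneg (pow_pos ad.pos _).le (F.nn _ t tm y)
        nlinarith) t y η ad
      nlinarith
    · have := ih W D0 hN' h0 i (Nat.lt_succ_iff.1 hi') t y η ad
      nlinarith [mul_nonneg hc CD]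

/-- `|Ric| ≤ C/η` from the bounded scalar curvature -/
theorem ric0 (hA : H.Alg) (hE : H.Evo) {B : ℝ} (hB : 0 ≤ B) : ∃ C, 0 ≤ C ∧
    ∀ {a b L : ℝ} {u : ℝ → M → ℝ}, Win H a b u →
    (∀ t y η, Adm a b L u t y η → η ^ 4 * H.N 0 t y ≤ B) →
    ∀ t y η, Adm a b L u t y η → η ^ 2 * H.Q 0 t y ≤ C := by
  obtain ⟨K, hK⟩ := hE.R_bd
  obtain ⟨C0, hC0, d0⟩ := hE.dt_Q 0
  obtain ⟨c, hc, h⟩ := bs1 hA 0 (Λ0 := C0 * (B + 1)) (by positivity)
  refine ⟨c * (2 * |K|), by positivity, fun {a b L u} W h0 s z η ad => ?_⟩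
  obtain ⟨Q', -, dQ⟩ := hA.sm_dt W.st.2.1 (hA.sm_Q 0 W.st)
  have := h (L := L) (D := 2 * |K|) (G := H.Q 1) W (by positivity)
    (hA.sm_sub (hA.sm_const |K|) (hA.sm_R W.st)) ((HasDt.static fun _ => |K|).sub (hE.dt_R W.st))
    (hA.sm_Q 0 W.st) dQ
    (fun t ht y => by linarith [(abs_le.1 (hK t (W.st.mem ht) y)).2, le_abs_self K])
    (fun t ht => hE.Q_nonneg _ t (W.st.mem ht)) (fun t ht => hE.Q_nonneg _ t (W.st.mem ht))
    (fun t ht => hE.kato_Q _ t (W.st.mem ht)) (fun t y η ad => by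
      have tm := W.st.mem ad.mem
      have K0 := abs_nonneg K
      refine ⟨?_, ?_, ?_⟩
      · rw [pow_zero, one_mul]; linarith [(abs_le.1 (hK t tm y)).1, le_abs_self K]
      · rw [hA.lap_sub tm (hA.s0_const _) (hA.s0_R tm), hA.lap_const tm]
        have : 0 - (H.lap t (H.R t) y + 2 * H.Q 0 t y) - (0 - H.lap t (H.R t) y) +
          2 * H.Q 0 t y = 0 := by ring
        rw [this, mul_zero]; positivity
      · have a1 := mul_le_mul_of_nonneg_left ((le_abs_self _).trans (d0 W.st dQ t ad.mem y))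
          (pow_pos ad.pos (0 + 4)).le
        have a2 := sqrt2 (s := 0 + 2) ad.pos (hE.N_nonneg 0 t tm y) (hE.Q_nonneg 0 t tm y)
          (h0 t y η ad)
        have a3 := mul_le_mul_of_nonneg_left a2 hC0
        simp only [zero_add, Finset.range_one, Finset.sum_singleton, Nat.sub_zero] at a1 a3 ⊢
        norm_num at a3
        linarith) s z η ad
  simpa using this

end Crest.Agent.N207.E

end
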